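import Vale.Agent.P165.Sharp

/-!
Consequences of sharpness: a bounded susceptibility rules out percolation and puts the parameter
strictly below the threshold.
-/

open MeasureTheory ProbabilityTheory Finset
open scoped unitInterval ENNReal

namespace Vale.Agent.P165

variable {W : Type*} [DecidableEq W] {H : SimpleGraph W} [H.LocallyFinite]

lemma ball_mono (v : W) : Monotone fun n => ball H v n :=
  monotone_nat_of_le_succ fun _ => subset_union_left

lemma ball_adj {v a b : W} {n : ℕ} (ha : a ∈ ball H v n) (h : H.Adj a b) :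
    b ∈ ball H v (n + 1) :=
  mem_union_right _ (mem_biUnion.2 ⟨a, ha, by simpa using h⟩)

/-- The vertices first reached at step `n + 1`. -/
noncomputable def shell (H : SimpleGraph W) [H.LocallyFinite] (v : W) (n : ℕ) : Finset W :=
  ball H v (n + 1) \ ball H v n

lemma shell_disjoint (v : W) : Pairwise (Function.onFun Disjoint (shell H v)) := by
  intro m n hmn
  rw [Function.onFun, Finset.disjoint_left]
  intro x hm hn
  simp only [shell, mem_sdiff] at hm hn
  rcases lt_or_gt_of_ne hmn with h | h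
  · exact hn.2 (ball_mono v h hm.1)
  · exact hm.2 (ball_mono v h hn.1)

/-- A bounded susceptibility at every vertex rules out infinite clusters. -/
theorem no_infinite_of_susceptibility (hH : H.Connected) (p : I) {C : ℝ}
    (hC : ∀ (v : W) (Λ : Finset W),
      ∑ z ∈ Λ, (bondMeasure H p).real {ω | (openGraph H ω).Reachable v z} ≤ C) :
    bondMeasure H p {ω | ∃ K : (openGraph H ω).ConnectedComponent, K.supp.Infinite} = 0 := by
  classical
  haveI := countable_of_connected hH
  haveI : IsProbabilityMeasure (bondMeasure H p) := by unfold bondMeasure; infer_instance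
  have hzero : ∀ v, bondMeasure H p (infAt H v) = 0 := by
    intro v
    have hstep : ∀ n, (bondMeasure H p).real (infAt H v) ≤
        ∑ z ∈ shell H v n, (bondMeasure H p).real {ω | (openGraph H ω).Reachable v z} := by
      intro n
      refine (measureReal_mono ?_ (measure_ne_top _ _)).trans (measureReal_biUnion_finset_le _ _)
      intro ω hω
      obtain ⟨y, hy, hyn⟩ := (hω : Set.Infinite _).exists_notMem_finset (ball H v n)
      obtain ⟨q⟩ := (hy : (openGraph H ω).Reachable v y)
      obtain ⟨d, hd, hd1, hd2⟩ := q.exists_boundary_dart (↑(ball H v n) : Set W)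
        (ball_mono v (Nat.zero_le n) (by simp [ball])) hyn
      refine Set.mem_iUnion₂.2 ⟨d.snd, mem_sdiff.2 ⟨ball_adj hd1 d.adj.1, hd2⟩, ?_⟩
      exact ⟨q.takeUntil _ (q.dart_snd_mem_support_of_mem_darts hd)⟩
    have hm : ∀ m : ℕ, (m : ℝ) * (bondMeasure H p).real (infAt H v) ≤ C := by
      intro m
      refine le_trans ?_ (hC v ((range m).biUnion (shell H v)))
      rw [sum_biUnion fun a _ b _ hab => shell_disjoint v hab]
      simpa using sum_le_sum (s := range m) fun n _ => hstep n
    by_contra h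
    have hpos : 0 < (bondMeasure H p).real (infAt H v) :=
      ENNReal.toReal_pos h (measure_ne_top _ _)
    obtain ⟨m, hm'⟩ := exists_nat_gt (C / (bondMeasure H p).real (infAt H v))
    rw [div_lt_iff₀ hpos] at hm'
    exact absurd (hm m) (not_le.2 hm')
  refine measure_mono_null ?_ (measure_iUnion_null hzero)
  rintro ω ⟨K, hK⟩
  induction K using SimpleGraph.ConnectedComponent.ind with
  | h z =>
    refine Set.mem_iUnion.2 ⟨z, ?_⟩
    simp only [infAt, Set.mem_ofPred_eq]
    refine hK.mono fun y hy => (SimpleGraph.ConnectedComponent.exact hy).symm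

lemma pr_one_eq {α : Type*} [DecidableEq α] (U : Finset α) {Q : Finset α → Prop} (hQ : Q U) :
    pr (1 : ℝ) U Q = 1 := by
  refine le_antisymm (pr_le_one zero_le_one le_rfl U Q) ?_
  calc (1 : ℝ) = pr (1 : ℝ) U (fun S => U ⊆ S) := by rw [pr_all_open _ subset_rfl, one_pow]
    _ ≤ _ := pr_mono zero_le_one le_rfl fun S hS h => subset_antisymm hS h ▸ hQ

lemma continuousAt_phiS (p : ℝ) (v : W) (S : Finset W) :
    ContinuousAt (fun q => phiS H q v S) p :=
  continuousAt_id.mul (tendsto_finsetSum _ fun e _ => (hasDerivAt_pr p _ _).continuousAt)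

/-- If the criterion is below one on orbit representatives, the parameter is strictly below the
threshold. -/
theorem lt_pc_of_phiS [Infinite W] (hH : H.Connected) (hQT : QuasiTransitive H) {p : ℝ}
    (h0 : 0 ≤ p) (h1 : p < 1) (hphi : ∀ v, ∃ S : Finset W, v ∈ S ∧ phiS H p v S < 1) :
    p < pc H := by
  classical
  haveI := countable_of_connected hH
  obtain ⟨F, hFfin, hF⟩ := hQT
  obtain ⟨o⟩ := hH.nonempty
  choose S hS hlt using hphi
  have hev : ∀ᶠ q in nhds p, q < 1 ∧ ∀ f ∈ hFfin.toFinset, phiS H q f (S f) < 1 :=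
    (eventually_lt_nhds h1).and ((Finset.eventually_all _).2 fun f _ =>
      (continuousAt_phiS p f (S f)).eventually (eventually_lt_nhds (hlt f)))
  obtain ⟨δ, hδ, hball⟩ := Metric.eventually_nhds_iff.1 hev
  set q := p + δ / 2 with hq
  obtain ⟨hq1, hqphi⟩ := hball (y := q) (by
    rw [Real.dist_eq, hq, add_sub_cancel_left, abs_of_pos (by linarith)]; linarith)
  have hne : hFfin.toFinset.Nonempty := by
    obtain ⟨φ, hφ⟩ := hF o
    exact ⟨φ o, hFfin.mem_toFinset.2 hφ⟩
  set c := hFfin.toFinset.sup' hne fun f => phiS H q f (S f)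
  set N := hFfin.toFinset.sup fun f => (S f).card
  have hc : c < 1 := (Finset.sup'_lt_iff hne).2 hqphi
  have hcrit : ∀ v, ∃ S' : Finset W, v ∈ S' ∧ S'.card ≤ N ∧ phiS H q v S' ≤ c := by
    intro v
    obtain ⟨φ, hφ⟩ := hF v
    refine ⟨(S (φ v)).map φ.symm.toEquiv.toEmbedding,
      mem_map.2 ⟨φ v, hS _, φ.symm_apply_apply v⟩, ?_, ?_⟩
    · rw [card_map]
      exact Finset.le_sup (f := fun f => (S f).card) (hFfin.mem_toFinset.2 hφ)
    · have := phiS_iso q φ.symm (φ v) (S (φ v))
      rw [φ.symm_apply_apply] at this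
      rw [this]
      exact Finset.le_sup' (fun f => phiS H q f (S f)) (hFfin.mem_toFinset.2 hφ)
  suffices q ≤ pc H by linarith
  refine le_csInf ⟨1, 1, rfl, ?_⟩ ?_
  · refine exists_infinite_of_escape hH 1 o (c := 1) (n₀ := 0) one_pos fun n _ => ?_
    have hno : ¬ cl {o} (edgesAt H (ball H o n)) ⊆ (↑(ball H o n) : Set W) := by
      intro hsub
      refine Set.infinite_univ (α := W) ((Finset.finite_toSet (ball H o n)).subset fun y _ => ?_)
      by_contra hy
      obtain ⟨z⟩ := hH.preconnected o y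
      obtain ⟨d, hd, hd1, hd2⟩ := z.exists_boundary_dart (cl {o} (edgesAt H (ball H o n)))
        (subset_cl _ _ rfl) (fun h => hy (hsub h))
      refine hd2 (cl_step hd1 (mem_biUnion.2 ⟨d.fst, hsub hd1, mem_image.2 ⟨d.snd, ?_, rfl⟩⟩))
      simpa using d.adj
    have := pr_compl (1 : ℝ) (edgesAt H (ball H o n))
      (fun T => ¬ cl {o} T ⊆ (↑(ball H o n) : Set W))
    rw [pr_one_eq _ hno] at this
    simp only [not_not] at this
    change pr (1 : ℝ) (edgesAt H (ball H o n)) _ ≤ _
    linarith
  · rintro _ ⟨t, rfl, ht⟩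
    by_contra hlt'
    push Not at hlt'
    refine ht.ne' (no_infinite_of_susceptibility hH t (C := N / (1 - c)) fun v Λ =>
      sum_reach_le_of_pr hH t v Λ fun U hU => susceptibility_le t.2.1 t.2.2 hc (fun w => ?_) hU Λ v)
    obtain ⟨S', h1', h2', h3'⟩ := hcrit w
    exact ⟨S', h1', h2', (phiS_mono t.2.1 hlt'.le hq1.le w S').trans h3'⟩

/-- A bounded susceptibility puts the parameter strictly below the threshold; in particular the
susceptibility is unbounded at the threshold. -/
theorem lt_pc_of_susceptibility [Infinite W] (hH : H.Connected) (hQT : QuasiTransitive H) (p : I)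
    {D : ℕ} (hD : ∀ x, (H.neighborFinset x).card ≤ D) {C : ℝ}
    (hC : ∀ (v : W) (Λ : Finset W) (U : Finset (Sym2 W)), ↑U ⊆ H.edgeSet →
      ∑ z ∈ Λ, pr (p : ℝ) U (fun T => z ∈ cl {v} T) ≤ C) :
    (p : ℝ) < pc H := by
  classical
  have h0 : (0 : ℝ) ≤ p := p.2.1
  have h1' : (p : ℝ) ≤ 1 := p.2.2
  have hp1 : (p : ℝ) < 1 := by
    rcases lt_or_eq_of_le h1' with h | h
    · exact h
    obtain ⟨o⟩ := hH.nonempty
    obtain ⟨m, hm⟩ := exists_nat_gt C
    obtain ⟨Λ, hΛ⟩ := Infinite.exists_subset_card_eq W m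
    choose q _ using fun z => (hH.preconnected o z).elim fun w => (⟨w, trivial⟩ : ∃ _ : H.Walk o z, True)
    set U := Λ.biUnion fun z => (q z).edges.toFinset
    have hU : ↑U ⊆ H.edgeSet := fun e he => by
      obtain ⟨z, _, hz⟩ := mem_biUnion.1 (Finset.mem_coe.1 he)
      exact (q z).edges_subset_edgeSet (List.mem_toFinset.1 hz)
    have := hC o Λ U hU
    rw [h, sum_congr rfl fun z hz => pr_one_eq U ?_] at this
    · simp [hΛ] at this; linarith
    refine mem_cl_single.2 ⟨(q z).transfer _ fun e he => ?_⟩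
    rw [SimpleGraph.edgeSet_fromEdgeSet]
    exact ⟨mem_biUnion.2 ⟨z, hz, List.mem_toFinset.2 he⟩,
      H.not_isDiag_of_mem_edgeSet ((q z).edges_subset_edgeSet he)⟩
  refine lt_pc_of_phiS hH hQT h0 hp1 fun v => ?_
  by_contra hno
  push Not at hno
  obtain ⟨m, hm⟩ := exists_nat_gt ((p : ℝ) * D * C)
  set U := inEdges H (ball H v m)
  set τ : W → ℝ := fun z => pr (p : ℝ) U (fun T => z ∈ cl {v} T)
  have hτ : ∀ z, 0 ≤ τ z := fun z => pr_nonneg h0 h1' _ _
  have hterm : ∀ n < m, 1 ≤ (p : ℝ) * D * ∑ z ∈ shell H v n, τ z := by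
    intro n hn
    set S := ball H v (n + 1)
    have hv : ∀ k, v ∈ ball H v k := fun k => ball_mono v (Nat.zero_le k) (by simp [ball])
    refine (hno S (hv _)).trans ?_
    rw [phiS, mul_assoc, mul_sum (a := (D : ℝ))]
    refine mul_le_mul_of_nonneg_left ?_ h0
    have hsub : outPairs H S ⊆ (shell H v n).biUnion
        fun x => (H.neighborFinset x).image fun y => (x, y) := by
      rintro ⟨x, y⟩ h
      obtain ⟨hadj, hx, hy⟩ := mem_outPairs.1 h
      exact mem_biUnion.2 ⟨x, mem_sdiff.2 ⟨hx, fun h' => hy (ball_adj h' hadj)⟩,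
        mem_image.2 ⟨y, by simpa using hadj, rfl⟩⟩
    have hinto : inEdges H S ⊆ U := by
      intro e
      induction e with
      | h a b =>
        intro h
        obtain ⟨hadj, ha, hb⟩ := mem_inEdges.1 h
        exact mem_inEdges.2 ⟨hadj, ball_mono v hn ha, ball_mono v hn hb⟩
    calc ∑ e ∈ outPairs H S, pr (p : ℝ) (inEdges H S) (fun T => e.1 ∈ cl {v} T)
        ≤ ∑ e ∈ outPairs H S, τ e.1 := sum_le_sum fun e _ =>
          pr_mono_set h0 h1' hinto fun S T hST h => cl_mono subset_rfl hST h
      _ ≤ ∑ e ∈ (shell H v n).biUnion fun x => (H.neighborFinset x).image fun y => (x, y),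
          τ e.1 := sum_le_sum_of_subset_of_nonneg hsub fun e _ _ => hτ _
      _ = ∑ x ∈ shell H v n, ∑ e ∈ (H.neighborFinset x).image (fun y => (x, y)), τ e.1 :=
          sum_biUnion fun a _ b _ hab => Finset.disjoint_left.2 fun e ha hb => hab (by
            obtain ⟨_, _, rfl⟩ := mem_image.1 ha
            obtain ⟨_, _, h⟩ := mem_image.1 hb
            exact (congrArg Prod.fst h).symm)
      _ ≤ _ := sum_le_sum fun x _ => by
          rw [sum_image (fun a _ b _ h => (Prod.mk.inj h).2)]
          dsimp only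
          rw [sum_const, nsmul_eq_mul]
          exact mul_le_mul_of_nonneg_right (Nat.cast_le.2 (hD x)) (hτ x)
  have := sum_le_sum (s := range m) fun n hn => hterm n (mem_range.1 hn)
  rw [← mul_sum, ← sum_biUnion fun a _ b _ hab => shell_disjoint v hab] at this
  simp only [sum_const, card_range, nsmul_eq_mul, mul_one] at this
  have := this.trans (mul_le_mul_of_nonneg_left (hC v _ U (inEdges_edge _)) (by positivity))
  linarith

end Vale.Agent.P165
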