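import Vale.Agent.P165.Pr

/-!
Clusters in finite edge sets, and the probability that a cluster has a prescribed large boundary.
-/

open Finset

namespace Vale.Agent.P165

variable {W : Type*}

/-- The vertices reached from `X` by edges of `S`. -/
def cl (X : Set W) (S : Finset (Sym2 W)) : Set W :=
  {y | ∃ x ∈ X, (SimpleGraph.fromEdgeSet (S : Set (Sym2 W))).Reachable x y}

lemma subset_cl (X : Set W) (S : Finset (Sym2 W)) : X ⊆ cl X S :=
  fun x hx => ⟨x, hx, SimpleGraph.Reachable.refl x⟩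

lemma cl_mono {X Y : Set W} {S T : Finset (Sym2 W)} (hX : X ⊆ Y) (hS : S ⊆ T) :
    cl X S ⊆ cl Y T :=
  fun _ ⟨x, hx, h⟩ => ⟨x, hX hx, h.mono (SimpleGraph.fromEdgeSet_mono (Finset.coe_subset.2 hS))⟩

lemma cl_step {X : Set W} {S : Finset (Sym2 W)} {y z : W} (hy : y ∈ cl X S)
    (h : s(y, z) ∈ S) : z ∈ cl X S := by
  by_cases e : y = z
  · exact e ▸ hy
  obtain ⟨x, hx, hr⟩ := hy
  refine ⟨x, hx, hr.trans (SimpleGraph.Adj.reachable ?_)⟩
  simpa using ⟨h, e⟩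

lemma cl_subset {X Z : Set W} {S : Finset (Sym2 W)} (hX : X ⊆ Z)
    (hc : ∀ y z, y ∈ Z → s(y, z) ∈ S → z ∈ Z) : cl X S ⊆ Z := by
  rintro y ⟨x, hx, ⟨w⟩⟩
  have hx' := hX hx
  clear hx
  induction w with
  | nil => exact hx'
  | @cons a b c hab w ih => exact ih (hc a b hx' (by simpa using hab.1))

lemma cl_trans {X Y : Set W} {S T : Finset (Sym2 W)} (hY : Y ⊆ cl X T) (hS : S ⊆ T) :
    cl Y S ⊆ cl X T :=
  cl_subset hY fun _ _ hy h => cl_step hy (hS h)

lemma mem_cl_iff_out {X : Set W} {S : Finset (Sym2 W)} {y : W} (hy : y ∈ cl X S) (hyX : y ∉ X) :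
    ∃ z, z ∈ cl X S ∧ z ≠ y ∧ s(z, y) ∈ S := by
  obtain ⟨x, hx, ⟨w⟩⟩ := hy
  have hne : ¬ w.Nil := fun h => hyX (h.eq ▸ hx)
  have hadj := w.adj_penultimate hne
  simp only [SimpleGraph.fromEdgeSet_adj, Finset.mem_coe] at hadj
  exact ⟨w.penultimate, ⟨x, hx, ⟨w.dropLast⟩⟩, hadj.2, hadj.1⟩

variable [DecidableEq W]

/-- A cluster with `n` new vertices is connected to its roots by at most `n` edges. -/
lemma cl_witness (X : Set W) (A : Finset W) (S : Finset (Sym2 W))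
    (hdis : ∀ a ∈ A, a ∉ X) (h : cl X S = X ∪ ↑A) :
    ∃ T, T ⊆ S ∧ T.card ≤ A.card ∧ ↑A ⊆ cl X T := by
  classical
  suffices ∀ n, n ≤ A.card → ∃ (D : Finset W) (T : Finset (Sym2 W)),
      D ⊆ A ∧ D.card = n ∧ T ⊆ S ∧ T.card ≤ n ∧ ↑D ⊆ cl X T by
    obtain ⟨D, T, hD, hn, h1, h2, h4⟩ := this A.card le_rfl
    exact ⟨T, h1, h2, Finset.eq_of_subset_of_card_le hD hn.ge ▸ h4⟩
  intro n
  induction n with
  | zero => exact fun _ => ⟨∅, ∅, empty_subset _, rfl, empty_subset _, le_rfl, by simp⟩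
  | succ n ih =>
    intro hn
    obtain ⟨D, T, hD, hDn, h1, h2, h4⟩ := ih (by omega)
    have hex : ∃ y z, y ∈ X ∪ ↑D ∧ z ∉ X ∪ ↑D ∧ s(y, z) ∈ S := by
      by_contra hno
      have hsub : cl X S ⊆ X ∪ ↑D := cl_subset Set.subset_union_left fun y z hy hyz => by
        by_contra hz
        exact hno ⟨y, z, hy, hz, hyz⟩
      obtain ⟨a, ha, haD⟩ := Finset.exists_mem_notMem_of_card_lt_card (show D.card < A.card by omega)
      rcases hsub (h ▸ Or.inr ha : a ∈ cl X S) with h' | h'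
      · exact hdis a ha h'
      · exact haD h'
    obtain ⟨y, z, hy, hz, hyz⟩ := hex
    have hyc : y ∈ cl X T := hy.elim (fun h' => subset_cl X T h') (fun h' => h4 h')
    have hzA : z ∈ A := by
      have : z ∈ X ∪ ↑A := h ▸ cl_step (cl_mono subset_rfl h1 hyc) hyz
      exact this.resolve_left fun h' => hz (Or.inl h')
    refine ⟨insert z D, insert s(y, z) T, insert_subset hzA hD, ?_, insert_subset hyz h1, ?_, ?_⟩
    · rw [card_insert_of_notMem fun h' => hz (Or.inr h'), hDn]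
    · exact (card_insert_le _ _).trans (by omega)
    · intro w hw
      rw [coe_insert, Set.mem_insert_iff] at hw
      rcases hw with rfl | hw
      · exact cl_step (cl_mono subset_rfl (subset_insert _ _) hyc) (mem_insert_self _ _)
      · exact cl_mono subset_rfl (subset_insert _ _) (h4 hw)

/-- A prescribed cluster: its closed boundary beats the entropy of its internal edges. -/
lemma cl_eq_le {p r : ℝ} (hp0 : 0 ≤ p) (hp1 : p < 1) (hr0 : 0 ≤ r) (hr1 : r ≤ 1)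
    (U : Finset (Sym2 W)) (X : Set W) (A : Finset W) (hdis : ∀ a ∈ A, a ∉ X)
    (F : Finset (Sym2 W)) (hFU : F ⊆ U)
    (hF : ∀ e ∈ F, ∃ y z, e = s(y, z) ∧ y ∈ X ∪ ↑A ∧ z ∉ X ∪ ↑A) :
    r ^ A.card * pr p U (fun S => cl X S = X ∪ ↑A)
      ≤ ((1 - p) / (1 - p * r)) ^ F.card * pr (p * r) U (fun S => cl X S = X ∪ ↑A) := by
  classical
  set Q : Finset (Sym2 W) → Prop := fun S => cl X S = X ∪ ↑A with hQdef
  have hiff : ∀ S, S ⊆ U → (Q S ↔ S ∩ F = ∅ ∧ Q (S \ F)) := by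
    intro S _
    have key : Q S → S ∩ F = ∅ := by
      intro hS
      refine eq_empty_of_forall_notMem fun e he => ?_
      rw [mem_inter] at he
      obtain ⟨y, z, rfl, hy, hz⟩ := hF e he.2
      exact hz (hS ▸ cl_step (hS.symm ▸ hy) he.1)
    refine ⟨fun hS => ⟨key hS, ?_⟩, fun ⟨h1, h2⟩ => ?_⟩
    · rwa [sdiff_eq_self_of_disjoint (disjoint_iff_inter_eq_empty.2 (key hS))]
    · rwa [sdiff_eq_self_of_disjoint (disjoint_iff_inter_eq_empty.2 h1)] at h2
  have e1 := pr_closed p hFU Q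
  have e2 := pr_closed (p * r) hFU Q
  rw [← pr_congr hiff] at e1 e2
  have hthin := pr_thin hp0 hp1.le hr0 hr1 (U \ F) Q A.card fun S _ hS => by
    obtain ⟨T, hT1, hT2, hT3⟩ := cl_witness X A S hdis hS
    refine ⟨T, hT1, hT2, fun S' h1 h2 => subset_antisymm (hS ▸ cl_mono subset_rfl h2) ?_⟩
    exact Set.union_subset (subset_cl X S') (hT3.trans (cl_mono subset_rfl h1))
  have hpos : 0 < 1 - p * r := by nlinarith
  rw [e1, e2, div_pow, div_mul_eq_mul_div, le_div_iff₀ (pow_pos hpos _)]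
  have := mul_le_mul_of_nonneg_left hthin
    (mul_nonneg (pow_nonneg (sub_nonneg.2 hp1.le) F.card) (pow_nonneg hpos.le F.card))
  nlinarith [this]

/-- The clusters of bounded size with a large edge boundary are unlikely. -/
lemma cl_small_le {p r : ℝ} (hp0 : 0 ≤ p) (hp1 : p < 1) (hr0 : 0 < r) (hr1 : r ≤ 1)
    {L M : ℕ} (hL : 1 ≤ L) (hnum : ((1 - p) / (1 - p * r)) ^ (L - 1) ≤ r)
    (U : Finset (Sym2 W)) (X : Set W) (𝒜 : Finset (Finset W))
    (hdis : ∀ A ∈ 𝒜, ∀ a ∈ A, a ∉ X)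
    (hF : ∀ A ∈ 𝒜, ∃ F, F ⊆ U ∧ L * A.card + M ≤ F.card + A.card ∧
      ∀ e ∈ F, ∃ y z, e = s(y, z) ∧ y ∈ X ∪ ↑A ∧ z ∉ X ∪ ↑A) :
    pr p U (fun S => ∃ A ∈ 𝒜, cl X S = X ∪ ↑A) ≤ ((1 - p) / (1 - p * r)) ^ M := by
  classical
  set β := (1 - p) / (1 - p * r) with hβ
  have hq0 : 0 ≤ p * r := mul_nonneg hp0 hr0.le
  have hpos : 0 < 1 - p * r := by nlinarith
  have hβ0 : 0 ≤ β := div_nonneg (by linarith) hpos.le
  have hβ1 : β ≤ 1 := by rw [hβ, div_le_one hpos]; nlinarith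
  have key : ∀ A ∈ 𝒜, pr p U (fun S => cl X S = X ∪ ↑A)
      ≤ β ^ M * pr (p * r) U (fun S => cl X S = X ∪ ↑A) := by
    intro A hA
    obtain ⟨F, hFU, hcard, hFe⟩ := hF A hA
    have h := cl_eq_le hp0 hp1 hr0.le hr1 U X A (hdis A hA) F hFU hFe
    have hpow : β ^ F.card ≤ r ^ A.card * β ^ M := by
      refine (pow_le_pow_of_le_one hβ0 hβ1 (show (L - 1) * A.card + M ≤ F.card by
        rw [Nat.sub_mul, one_mul]; have := Nat.le_mul_of_pos_left A.card hL; omega)).trans ?_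
      rw [pow_add, pow_mul]
      exact mul_le_mul_of_nonneg_right (pow_le_pow_left₀ (pow_nonneg hβ0 _) hnum _)
        (pow_nonneg hβ0 _)
    have h2 := h.trans (mul_le_mul_of_nonneg_right hpow (pr_nonneg hq0 (by linarith) U _))
    rw [mul_assoc] at h2
    exact le_of_mul_le_mul_left h2 (pow_pos hr0 _)
  calc pr p U (fun S => ∃ A ∈ 𝒜, cl X S = X ∪ ↑A)
      ≤ ∑ A ∈ 𝒜, pr p U (fun S => cl X S = X ∪ ↑A) :=
        pr_le_sum hp0 hp1.le 𝒜 (fun A S => cl X S = X ∪ ↑A) fun S _ h => h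
    _ ≤ ∑ A ∈ 𝒜, β ^ M * pr (p * r) U (fun S => cl X S = X ∪ ↑A) := sum_le_sum key
    _ ≤ β ^ M := by
      rw [← mul_sum]
      refine mul_le_of_le_one_right (pow_nonneg hβ0 _) ?_
      refine (sum_pr_le hq0 (by linarith) 𝒜 (fun A S => cl X S = X ∪ ↑A) (Q := fun _ => True)
        (fun _ _ _ _ _ => trivial) ?_).trans_eq (pr_true _ _)
      intro A hA B hB S _ h1 h2
      ext a
      have := Set.ext_iff.1 (h1.symm.trans h2) a
      simp only [Set.mem_union, Finset.mem_coe] at this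
      exact ⟨fun ha => (this.1 (Or.inr ha)).resolve_left (hdis A hA a ha),
        fun ha => (this.2 (Or.inr ha)).resolve_left (hdis B hB a ha)⟩

end Vale.Agent.P165
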