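import Vale.Agent.P165.BK

/-!
Increasing events on a countable edge set: they are exhausted by finite edge sets, so the finite
inequalities pass to percolation on the whole graph.
-/

open MeasureTheory ProbabilityTheory Finset
open scoped unitInterval ENNReal

namespace Vale.Agent.P165

variable {W : Type*} [DecidableEq W] {H : SimpleGraph W} [H.LocallyFinite]

/-- Some finite set of open edges already realises `A`. -/
def lift (H : SimpleGraph W) (A : Finset (Sym2 W) → Prop) : Set (Set (Sym2 W)) :=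
  {ω | ∃ T : Finset (Sym2 W), (T : Set (Sym2 W)) ⊆ H.edgeSet ∧ (T : Set (Sym2 W)) ⊆ ω ∧ A T}

omit [DecidableEq W] [H.LocallyFinite] in
lemma mem_trace {U : Finset (Sym2 W)} {ω : Set (Sym2 W)} {e : Sym2 W} :
    e ∈ trace U ω ↔ e ∈ U ∧ e ∈ ω := by
  classical
  simp [trace]

lemma bond_real_trace (p : I) {U : Finset (Sym2 W)} (hU : ↑U ⊆ H.edgeSet)
    (Q : Finset (Sym2 W) → Prop) :
    (bondMeasure H p).real {ω | Q (trace U ω)} = pr (p : ℝ) U Q := by
  haveI : IsProbabilityMeasure (bondMeasure H p) := by unfold bondMeasure; infer_instance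
  have n1 := pr_nonneg p.2.1 p.2.2 U Q
  have n2 := pr_nonneg p.2.1 p.2.2 U fun S => ¬ Q S
  have h1 := ENNReal.toReal_le_of_le_ofReal n1 (bond_pr_le p hU Q)
  have h2 := ENNReal.toReal_le_of_le_ofReal n2 (bond_pr_le p hU fun S => ¬ Q S)
  have h3 := measureReal_union_le (μ := bondMeasure H p) {ω | Q (trace U ω)} {ω | ¬ Q (trace U ω)}
  have e : {ω : Set (Sym2 W) | Q (trace U ω)} ∪ {ω | ¬ Q (trace U ω)} = Set.univ :=
    Set.eq_univ_of_forall fun ω => em _
  rw [e, probReal_univ] at h3
  have h4 := pr_compl (p : ℝ) U Q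
  simp only [measureReal_def] at h3 ⊢
  linarith

omit [H.LocallyFinite] in
lemma lift_eq {A : Finset (Sym2 W) → Prop} (hA : Incr A) :
    lift H A = ⋃ V : Finset H.edgeSet,
      {ω | A (trace (V.map ⟨Subtype.val, Subtype.val_injective⟩) ω)} := by
  ext ω
  simp only [Set.mem_iUnion, Set.mem_ofPred_eq]
  constructor
  · rintro ⟨T, hT, hω, hAT⟩
    classical
    refine ⟨T.subtype fun e => e ∈ H.edgeSet, hA _ _ (fun e he => ?_) hAT⟩
    exact mem_trace.2 ⟨by simpa using ⟨he, hT he⟩, hω he⟩
  · rintro ⟨V, hV⟩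
    refine ⟨_, fun e he => ?_, fun e he => (mem_trace.1 (Finset.mem_coe.1 he)).2, hV⟩
    obtain ⟨a, -, rfl⟩ := Finset.mem_map.1 (mem_trace.1 (Finset.mem_coe.1 he)).1
    exact a.2

/-- An increasing event has at most the probability `c` if all its finite restrictions do. -/
theorem lift_real_le [Countable W] (p : I) {A : Finset (Sym2 W) → Prop} (hA : Incr A) {c : ℝ}
    (h : ∀ U : Finset (Sym2 W), ↑U ⊆ H.edgeSet → pr (p : ℝ) U A ≤ c) :
    (bondMeasure H p).real (lift H A) ≤ c := by
  haveI : IsProbabilityMeasure (bondMeasure H p) := by unfold bondMeasure; infer_instance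
  have hc : 0 ≤ c := (pr_nonneg p.2.1 p.2.2 ∅ A).trans (h ∅ (by simp))
  refine ENNReal.toReal_le_of_le_ofReal hc ?_
  rw [lift_eq hA, Directed.measure_iUnion]
  · refine iSup_le fun V => (bond_pr_le p ?_ _).trans (ENNReal.ofReal_le_ofReal (h _ ?_)) <;>
      exact fun e he => by
        obtain ⟨a, -, rfl⟩ := Finset.mem_map.1 (Finset.mem_coe.1 he); exact a.2
  · intro V₁ V₂
    classical
    refine ⟨V₁ ∪ V₂, ?_, ?_⟩ <;> intro ω hω <;> refine hA _ _ ?_ hω <;> intro e he <;>
      obtain ⟨h1, h2⟩ := mem_trace.1 he <;> refine mem_trace.2 ⟨?_, h2⟩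
    · exact Finset.map_subset_map.2 subset_union_left h1
    · exact Finset.map_subset_map.2 subset_union_right h1

omit [H.LocallyFinite] in
lemma measurableSet_lift [Countable W] (A : Finset (Sym2 W) → Prop) :
    MeasurableSet (lift H A) := by
  have e : lift H A = ⋃ T ∈ {T : Finset (Sym2 W) | ↑T ⊆ H.edgeSet ∧ A T},
      ⋂ e ∈ T, {ω | e ∈ ω} := by
    ext ω
    simp only [lift, Set.mem_ofPred_eq, Set.mem_iUnion, Set.mem_iInter, exists_prop]
    exact ⟨fun ⟨T, a, b, c⟩ => ⟨T, ⟨a, c⟩, fun e he => b he⟩,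
      fun ⟨T, ⟨a, c⟩, b⟩ => ⟨T, a, fun e he => b e he, c⟩⟩
  rw [e]
  exact .biUnion (Set.to_countable _) fun T _ =>
    Finset.measurableSet_biInter _ fun e _ => measurableSet_mem e

/-- The finite restrictions of an event are at most as likely as the event. -/
theorem pr_le_lift_real (p : I) {A : Finset (Sym2 W) → Prop} {U : Finset (Sym2 W)}
    (hU : ↑U ⊆ H.edgeSet) : pr (p : ℝ) U A ≤ (bondMeasure H p).real (lift H A) := by
  haveI : IsProbabilityMeasure (bondMeasure H p) := by unfold bondMeasure; infer_instance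
  rw [← bond_real_trace p hU A]
  refine measureReal_mono (fun ω hω => ⟨trace U ω, fun e he => hU ?_, fun e he => ?_, hω⟩)
  · exact (mem_trace.1 (Finset.mem_coe.1 he)).1
  · exact (mem_trace.1 (Finset.mem_coe.1 he)).2

/-- The van den Berg–Kesten inequality on the whole graph. -/
theorem lift_box_le [Countable W] (p : I) {A B : Finset (Sym2 W) → Prop} (hA : Incr A)
    (hB : Incr B) :
    (bondMeasure H p).real (lift H (Box A B))
      ≤ (bondMeasure H p).real (lift H A) * (bondMeasure H p).real (lift H B) :=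
  lift_real_le p (incr_box A B) fun U hU => (pr_box_le p.2.1 p.2.2 U hA hB).trans
    (mul_le_mul (pr_le_lift_real p hU) (pr_le_lift_real p hU) (pr_nonneg p.2.1 p.2.2 U B)
      measureReal_nonneg)

omit [H.LocallyFinite] in
/-- Connection is the lift of finite connection. -/
lemma lift_conn (x y : W) :
    lift H (conn x y) = {ω | (openGraph H ω).Reachable x y} := by
  ext ω
  constructor
  · rintro ⟨T, hT, hω, hc⟩
    refine (mem_cl_single.1 hc).mono fun a b hab => ?_
    simp only [SimpleGraph.fromEdgeSet_adj, Finset.mem_coe] at hab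
    exact ⟨hT hab.1, (SimpleGraph.fromEdgeSet_adj _).2 ⟨hω hab.1, hab.2⟩⟩
  · rintro ⟨q⟩
    have hq : ∀ e ∈ q.edges, e ∈ H.edgeSet ∧ e ∈ ω ∧ ¬ e.IsDiag := fun e he => by
      have := q.edges_subset_edgeSet he
      rw [openGraph, SimpleGraph.edgeSet_inf, SimpleGraph.edgeSet_fromEdgeSet] at this
      exact ⟨this.1, this.2.1, H.not_isDiag_of_mem_edgeSet this.1⟩
    refine ⟨q.edges.toFinset, fun e he => (hq e (List.mem_toFinset.1 he)).1,
      fun e he => (hq e (List.mem_toFinset.1 he)).2.1, mem_cl_single.2 ⟨q.transfer _ fun e he => ?_⟩⟩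
    rw [SimpleGraph.edgeSet_fromEdgeSet]
    exact ⟨List.mem_toFinset.2 he, (hq e he).2.2⟩

/-- Finite connection probabilities are at most the connection probability. -/
theorem pr_conn_le_reach (p : I) {U : Finset (Sym2 W)} (hU : ↑U ⊆ H.edgeSet) (x y : W) :
    pr (p : ℝ) U (conn x y) ≤ (bondMeasure H p).real {ω | (openGraph H ω).Reachable x y} := by
  rw [← lift_conn]
  exact pr_le_lift_real p hU

/-- The tree-graph inequality on the whole graph. -/
theorem reach_three_le [Countable W] (p : I) (x y z : W) :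
    bondMeasure H p {ω | (openGraph H ω).Reachable x y ∧ (openGraph H ω).Reachable x z}
      ≤ ∑' w, bondMeasure H p {ω | (openGraph H ω).Reachable x w}
          * bondMeasure H p {ω | (openGraph H ω).Reachable w y}
          * bondMeasure H p {ω | (openGraph H ω).Reachable w z} := by
  haveI : IsProbabilityMeasure (bondMeasure H p) := by unfold bondMeasure; infer_instance
  have hsub : {ω : Set (Sym2 W) | (openGraph H ω).Reachable x y ∧ (openGraph H ω).Reachable x z}
      ⊆ ⋃ w, lift H (Box (conn x w) (Box (conn w y) (conn w z))) := by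
    rintro ω ⟨hy, hz⟩
    change ω ∈ {ω | (openGraph H ω).Reachable x y} at hy
    change ω ∈ {ω | (openGraph H ω).Reachable x z} at hz
    rw [← lift_conn] at hy hz
    obtain ⟨T₁, a1, b1, c1⟩ := hy
    obtain ⟨T₂, a2, b2, c2⟩ := hz
    obtain ⟨w, -, hw⟩ := exists_branch (incr_conn x y _ _ subset_union_left c1)
      (incr_conn x z _ _ (subset_union_right (s₁ := T₁)) c2)
    exact Set.mem_iUnion.2 ⟨w, T₁ ∪ T₂, by simp [a1, a2], by simp [b1, b2], hw⟩
  refine (measure_mono hsub).trans ((measure_iUnion_le _).trans (ENNReal.tsum_le_tsum fun w => ?_))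
  have h1 := lift_box_le (H := H) p (incr_conn x w) (incr_box (conn w y) (conn w z))
  have h2 := lift_box_le (H := H) p (incr_conn w y) (incr_conn w z)
  have h := h1.trans (mul_le_mul_of_nonneg_left h2 measureReal_nonneg)
  rw [← mul_assoc, lift_conn, lift_conn, lift_conn] at h
  simp only [measureReal_def, ← ENNReal.toReal_mul] at h
  exact (ENNReal.toReal_le_toReal (measure_ne_top _ _)
    (ENNReal.mul_ne_top (ENNReal.mul_ne_top (measure_ne_top _ _) (measure_ne_top _ _))
      (measure_ne_top _ _))).1 h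

end Vale.Agent.P165
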