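import Vale.Agent.P165.Link

/-!
Sharpness of the phase transition of bond percolation, after Duminil-Copin and Tassion: finite
susceptibility below a finite-size criterion, percolation above it, and the consequences for the
threshold of a quasi-transitive graph.
-/

open MeasureTheory ProbabilityTheory Finset
open scoped unitInterval ENNReal

namespace Vale.Agent.P165

variable {W : Type*}

lemma mem_cl_single {x y : W} {T : Finset (Sym2 W)} :
    y ∈ cl {x} T ↔ (SimpleGraph.fromEdgeSet (T : Set (Sym2 W))).Reachable x y := by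
  simp [cl]

section Finite

variable [DecidableEq W] (H : SimpleGraph W) [H.LocallyFinite]

/-- The edges with both ends in `S`. -/
noncomputable def inEdges (S : Finset W) : Finset (Sym2 W) :=
  S.biUnion fun x => (H.neighborFinset x ∩ S).image fun y => s(x, y)

/-- The ordered edges leaving `S`. -/
noncomputable def outPairs (S : Finset W) : Finset (W × W) :=
  S.biUnion fun x => (H.neighborFinset x \ S).image fun y => (x, y)

/-- The expected number of open edges through which the cluster of `v` inside `S` leaves `S`. -/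
noncomputable def phiS (p : ℝ) (v : W) (S : Finset W) : ℝ :=
  p * ∑ e ∈ outPairs H S, pr p (inEdges H S) fun T => e.1 ∈ cl {v} T

variable {H}

lemma mem_inEdges {S : Finset W} {x y : W} :
    s(x, y) ∈ inEdges H S ↔ H.Adj x y ∧ x ∈ S ∧ y ∈ S := by
  simp only [inEdges, mem_biUnion, mem_image, mem_inter, SimpleGraph.mem_neighborFinset]
  constructor
  · rintro ⟨a, ha, b, ⟨hab, hb⟩, h⟩
    rcases Sym2.eq_iff.1 h with ⟨rfl, rfl⟩ | ⟨rfl, rfl⟩
    · exact ⟨hab, ha, hb⟩
    · exact ⟨hab.symm, hb, ha⟩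
  · rintro ⟨h, hx, hy⟩
    exact ⟨x, hx, y, ⟨h, hy⟩, rfl⟩

lemma mem_outPairs {S : Finset W} {x y : W} :
    (x, y) ∈ outPairs H S ↔ H.Adj x y ∧ x ∈ S ∧ y ∉ S := by
  simp [outPairs]
  tauto

lemma inEdges_edge (S : Finset W) : ↑(inEdges H S) ⊆ H.edgeSet := by
  intro e
  induction e with
  | h a b => exact fun h => (mem_inEdges.1 (Finset.mem_coe.1 h)).1

/-- An increasing event of fewer coordinates is less likely. -/
lemma pr_mono_set {α : Type*} [DecidableEq α] {p : ℝ} (h0 : 0 ≤ p) (h1 : p ≤ 1) {U₁ U : Finset α}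
    (h : U₁ ⊆ U) {Q : Finset α → Prop} (hQ : ∀ S T, S ⊆ T → Q S → Q T) :
    pr p U₁ Q ≤ pr p U Q := by
  rw [← pr_marginal p h Q]
  exact pr_mono h0 h1 fun S _ => hQ _ _ inter_subset_left

/-- The edges of `J` with an end in `C`. -/
def edgesMeet (C : Finset W) (J : Finset (Sym2 W)) : Finset (Sym2 W) :=
  J.filter fun a => ∃ c ∈ C, c ∈ a

/-- The edges of `U` with no end in `C`. -/
def edgesAvoid (C : Finset W) (U : Finset (Sym2 W)) : Finset (Sym2 W) :=
  U.filter fun a => ∀ c ∈ C, c ∉ a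

/-- A connection leaving `S` uses an edge out of the cluster of `v` inside `S` and continues off
that cluster. -/
lemma conn_cover {U T : Finset (Sym2 W)} (hU : ↑U ⊆ H.edgeSet) (hT : T ⊆ U) {S : Finset W}
    {v z : W} (hv : v ∈ S) (hz : z ∉ S) (hzT : z ∈ cl {v} T) :
    ∃ e ∈ outPairs H S, ∃ C : Finset W, C ⊆ S ∧ e.1 ∈ C ∧
      cl {v} (T ∩ edgesMeet C (U ∩ inEdges H S)) = (↑C : Set W) ∧ s(e.1, e.2) ∈ T ∧
      z ∈ cl {e.2} (T ∩ edgesAvoid C U) := by
  classical
  set J := U ∩ inEdges H S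
  set C := S.filter fun w => w ∈ cl {v} (T ∩ J)
  have hJS : cl {v} (T ∩ J) ⊆ (↑S : Set W) :=
    cl_subset (by simpa using hv) fun y w _ hyw =>
      (mem_inEdges.1 (mem_inter.1 (mem_inter.1 hyw).2).2).2.2
  have hC : ∀ {w}, w ∈ C ↔ w ∈ cl {v} (T ∩ J) := fun {w} =>
    ⟨fun h => (mem_filter.1 h).2, fun h => mem_filter.2 ⟨hJS h, h⟩⟩
  have hvC : v ∈ C := hC.2 (subset_cl _ _ rfl)
  have hCC : cl {v} (T ∩ edgesMeet C J) = (↑C : Set W) := by
    refine subset_antisymm (fun w hw => hC.2 (cl_mono subset_rfl (inter_subset_inter subset_rfl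
      (filter_subset _ _)) hw)) fun w hw => ?_
    have : cl {v} (T ∩ J) ⊆ cl {v} (T ∩ edgesMeet C J) ∩ (↑C : Set W) := by
      refine cl_subset (Set.singleton_subset_iff.2 ⟨subset_cl _ _ rfl, hvC⟩) ?_
      intro y u ⟨hy, hyC⟩ hyu
      refine ⟨cl_step hy (mem_inter.2 ⟨(mem_inter.1 hyu).1, mem_filter.2 ⟨(mem_inter.1 hyu).2,
        y, hyC, Sym2.mem_mk_left y u⟩⟩), hC.2 (cl_step (hC.1 hyC) hyu)⟩
    exact (this (hC.1 hw)).1
  set Z : Set W := (↑C : Set W) ∪
    {w | ∃ e ∈ outPairs H S, e.1 ∈ C ∧ s(e.1, e.2) ∈ T ∧ w ∈ cl {e.2} (T ∩ edgesAvoid C U)}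
  have hsub : cl {v} T ⊆ Z := by
    refine cl_subset (Set.singleton_subset_iff.2 (Or.inl hvC)) ?_
    intro y w hy hyw
    by_cases hwC : w ∈ C
    · exact Or.inl hwC
    by_cases hyC : y ∈ C
    · have hadj : H.Adj y w := hU (Finset.mem_coe.2 (hT hyw))
      have hyS : y ∈ S := (mem_filter.1 hyC).1
      by_cases hwS : w ∈ S
      · exact absurd (hC.2 (cl_step (hC.1 hyC) (mem_inter.2
          ⟨hyw, mem_inter.2 ⟨hT hyw, mem_inEdges.2 ⟨hadj, hyS, hwS⟩⟩⟩))) hwC
      · exact Or.inr ⟨(y, w), mem_outPairs.2 ⟨hadj, hyS, hwS⟩, hyC, hyw, subset_cl _ _ rfl⟩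
    · rcases hy with hy | ⟨e, he, h1e, h2e, h3e⟩
      · exact absurd hy hyC
      · refine Or.inr ⟨e, he, h1e, h2e, cl_step h3e (mem_inter.2 ⟨hyw, mem_filter.2
          ⟨hT hyw, fun c hc hmem => ?_⟩⟩)⟩
        rcases Sym2.mem_iff.1 hmem with rfl | rfl
        · exact hyC hc
        · exact hwC hc
  rcases hsub hzT with h | ⟨e, he, h1e, h2e, h3e⟩
  · exact absurd (mem_filter.1 h).1 hz
  · exact ⟨e, he, C, filter_subset _ _, h1e, hCC, h2e, h3e⟩

/-- Three parts of the step are independent. -/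
lemma conn_indep {p : ℝ} (h0 : 0 ≤ p) (h1 : p ≤ 1) {U : Finset (Sym2 W)} {S C : Finset W}
    {v x y z : W} (hy : y ∉ S) (hxC : x ∈ C) :
    pr p U (fun T => cl {v} (T ∩ edgesMeet C (U ∩ inEdges H S)) = (↑C : Set W) ∧ s(x, y) ∈ T ∧
        z ∈ cl {y} (T ∩ edgesAvoid C U))
      ≤ p * pr p U (fun T => z ∈ cl {y} T) *
        pr p (U ∩ inEdges H S) (fun T => cl {v} (T ∩ edgesMeet C (U ∩ inEdges H S)) = (↑C : Set W)) := by
  classical
  set J := U ∩ inEdges H S
  set A := edgesMeet C J
  set B := edgesAvoid C U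
  have hAJ : A ⊆ J := filter_subset _ _
  rw [pr_marginal p hAJ (fun T => cl {v} T = (↑C : Set W))]
  by_cases heU : s(x, y) ∈ U
  · have hd1 : Disjoint A ({s(x, y)} : Finset (Sym2 W)) := by
      rw [disjoint_singleton_right]
      exact fun h => hy (mem_inEdges.1 (mem_inter.1 (hAJ h)).2).2.2
    have hd2 : Disjoint (A ∪ {s(x, y)}) B := by
      rw [Finset.disjoint_left]
      intro a ha hR
      obtain ⟨-, hR⟩ := mem_filter.1 hR
      rcases mem_union.1 ha with ha | ha
      · obtain ⟨-, c, hc, hca⟩ := mem_filter.1 ha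
        exact hR c hc hca
      · rw [mem_singleton] at ha
        exact hR x hxC (ha ▸ Sym2.mem_mk_left x y)
    have hV : A ∪ {s(x, y)} ∪ B ⊆ U :=
      union_subset (union_subset (hAJ.trans inter_subset_left) (singleton_subset_iff.2 heU))
        (filter_subset _ _)
    have e3 : pr p ({s(x, y)} : Finset (Sym2 W)) (fun T => s(x, y) ∈ T) = p := by
      simpa using pr_all_open p (subset_refl ({s(x, y)} : Finset (Sym2 W)))
    have e1 := pr_split p hd1 (fun T => cl {v} T = (↑C : Set W)) (fun T => s(x, y) ∈ T)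
    have e2 := pr_split p hd2
      (fun T => cl {v} (T ∩ A) = (↑C : Set W) ∧ s(x, y) ∈ T ∩ {s(x, y)})
      (fun T => z ∈ cl {y} T)
    rw [e1, e3, ← pr_marginal p hV] at e2
    have e4 : pr p U (fun T => cl {v} (T ∩ A) = (↑C : Set W) ∧ s(x, y) ∈ T ∧ z ∈ cl {y} (T ∩ B))
        = pr p A (fun T => cl {v} T = (↑C : Set W)) * p * pr p B (fun T => z ∈ cl {y} T) := by
      rw [← e2]
      refine pr_congr fun T _ => ?_
      have i1 : T ∩ (A ∪ {s(x, y)} ∪ B) ∩ (A ∪ {s(x, y)}) ∩ A = T ∩ A := by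
        simp only [inter_assoc]
        congr 1
        rw [inter_eq_right.2 subset_union_left, inter_eq_right.2 (subset_union_left.trans subset_union_left)]
      have i2 : s(x, y) ∈ T ∩ (A ∪ {s(x, y)} ∪ B) ∩ (A ∪ {s(x, y)}) ∩ {s(x, y)}
          ↔ s(x, y) ∈ T := by simp
      have i3 : T ∩ (A ∪ {s(x, y)} ∪ B) ∩ B = T ∩ B := by
        rw [inter_assoc, inter_eq_right.2 subset_union_right]
      rw [i1, i2, i3, and_assoc]
    rw [e4, show p * pr p U (fun T => z ∈ cl {y} T) * pr p A (fun T => cl {v} T = (↑C : Set W))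
      = pr p A (fun T => cl {v} T = (↑C : Set W)) * p * pr p U (fun T => z ∈ cl {y} T) by ring]
    refine mul_le_mul_of_nonneg_left ?_ (mul_nonneg (pr_nonneg h0 h1 _ _) h0)
    exact pr_mono_set h0 h1 (filter_subset _ _) fun S T hST h => cl_mono subset_rfl hST h
  · refine le_trans (le_of_eq ?_)
      (mul_nonneg (mul_nonneg h0 (pr_nonneg h0 h1 _ _)) (pr_nonneg h0 h1 _ _))
    refine (pr_congr (R := fun _ => False) fun T hT => ?_).trans (by simp [pr])
    exact iff_false_intro fun h => heU (hT h.2.1)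

/-- The step of Duminil-Copin and Tassion for connection probabilities. -/
lemma conn_step {p : ℝ} (h0 : 0 ≤ p) (h1 : p ≤ 1) {U : Finset (Sym2 W)} (hU : ↑U ⊆ H.edgeSet)
    {S : Finset W} {v z : W} (hv : v ∈ S) (hz : z ∉ S) :
    pr p U (fun T => z ∈ cl {v} T) ≤ ∑ e ∈ outPairs H S,
      p * pr p (inEdges H S) (fun T => e.1 ∈ cl {v} T) * pr p U (fun T => z ∈ cl {e.2} T) := by
  classical
  set J := U ∩ inEdges H S with hJ
  refine (pr_le_sum h0 h1 ((outPairs H S ×ˢ S.powerset).filter fun i => i.1.1 ∈ i.2)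
    (fun i T => cl {v} (T ∩ edgesMeet i.2 J) = (↑i.2 : Set W) ∧ s(i.1.1, i.1.2) ∈ T ∧
      z ∈ cl {i.1.2} (T ∩ edgesAvoid i.2 U)) fun T hT hzT => ?_).trans ?_
  · obtain ⟨e, he, C, hC, h1e, h⟩ := conn_cover hU hT hv hz hzT
    exact ⟨(e, C), mem_filter.2 ⟨mem_product.2 ⟨he, mem_powerset.2 hC⟩, h1e⟩, h⟩
  rw [sum_filter, sum_product]
  refine sum_le_sum fun e he => ?_
  obtain ⟨x, y⟩ := e
  obtain ⟨-, hxS, hyS⟩ := mem_outPairs.1 he
  rw [← sum_filter]
  set τ := pr p U (fun T => z ∈ cl {y} T) with hτ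
  have hτ0 : 0 ≤ τ := pr_nonneg h0 h1 _ _
  refine (sum_le_sum fun C hC => conn_indep h0 h1 hyS (mem_filter.1 hC).2).trans ?_
  rw [← mul_sum]
  calc p * τ * ∑ C ∈ S.powerset.filter (fun C => x ∈ C),
        pr p J (fun T => cl {v} (T ∩ edgesMeet C J) = (↑C : Set W))
      ≤ p * τ * pr p J (fun T => x ∈ cl {v} T) := by
        refine mul_le_mul_of_nonneg_left ?_ (mul_nonneg h0 hτ0)
        refine sum_pr_le h0 h1 _ _ (fun C hC T _ h => ?_) (fun C hC D hD T hT h h' => ?_)
        · exact cl_mono subset_rfl inter_subset_left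
            (h.symm ▸ (Finset.mem_coe.2 (mem_filter.1 hC).2))
        · have full : ∀ C : Finset W, cl {v} (T ∩ edgesMeet C J) = (↑C : Set W) →
              cl {v} T = (↑C : Set W) := fun C h => by
            refine subset_antisymm ?_ (h ▸ cl_mono subset_rfl inter_subset_left)
            refine cl_subset (h ▸ subset_cl _ _) fun a b ha hab => h ▸ cl_step (h.symm ▸ ha) ?_
            exact mem_inter.2 ⟨hab, mem_filter.2 ⟨hT hab, a, ha, Sym2.mem_mk_left a b⟩⟩
          exact Finset.coe_injective ((full C h).symm.trans (full D h'))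
    _ ≤ p * τ * pr p (inEdges H S) (fun T => x ∈ cl {v} T) :=
        mul_le_mul_of_nonneg_left (pr_mono_set h0 h1 inter_subset_right fun S T hST h =>
          cl_mono subset_rfl hST h) (mul_nonneg h0 hτ0)
    _ = _ := by ring

/-- Finite susceptibility: if every vertex has a set of at most `N` vertices with criterion at
most `c < 1`, then the expected cluster size is at most `N / (1 - c)` in every finite edge set. -/
theorem susceptibility_le {p c : ℝ} (h0 : 0 ≤ p) (h1 : p ≤ 1) (hc : c < 1) {N : ℕ}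
    (hphi : ∀ v, ∃ S : Finset W, v ∈ S ∧ S.card ≤ N ∧ phiS H p v S ≤ c)
    {U : Finset (Sym2 W)} (hU : ↑U ⊆ H.edgeSet) (Λ : Finset W) (v : W) :
    ∑ z ∈ Λ, pr p U (fun T => z ∈ cl {v} T) ≤ N / (1 - c) := by
  classical
  set f : W → ℝ := fun v => ∑ z ∈ Λ, pr p U (fun T => z ∈ cl {v} T) with hf
  have hb : BddAbove (Set.range f) := ⟨Λ.card, by
    rintro _ ⟨w, rfl⟩
    simpa using sum_le_card_nsmul Λ _ 1 fun z _ => pr_le_one h0 h1 U (fun T => z ∈ cl {w} T)⟩
  set M := sSup (Set.range f)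
  have hM : ∀ w, f w ≤ M := fun w => le_csSup hb ⟨w, rfl⟩
  have hM0 : 0 ≤ M := (sum_nonneg fun z _ => pr_nonneg h0 h1 _ _).trans (hM v)
  have hstep : ∀ w, f w ≤ N + c * M := by
    intro w
    obtain ⟨S, hwS, hcard, hS⟩ := hphi w
    simp only [hf]
    rw [← sum_filter_add_sum_filter_not Λ (fun z => z ∈ S)]
    refine add_le_add ?_ ?_
    · refine (sum_le_card_nsmul _ _ 1 fun z _ => pr_le_one h0 h1 _ _).trans ?_
      rw [nsmul_eq_mul, mul_one, Nat.cast_le]
      exact (card_le_card fun z hz => (mem_filter.1 hz).2).trans hcard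
    · calc ∑ z ∈ Λ.filter (fun z => z ∉ S), pr p U (fun T => z ∈ cl {w} T)
          ≤ ∑ z ∈ Λ.filter (fun z => z ∉ S), ∑ e ∈ outPairs H S,
              p * pr p (inEdges H S) (fun T => e.1 ∈ cl {w} T)
                * pr p U (fun T => z ∈ cl {e.2} T) :=
            sum_le_sum fun z hz => conn_step h0 h1 hU hwS (mem_filter.1 hz).2
        _ = ∑ e ∈ outPairs H S, p * pr p (inEdges H S) (fun T => e.1 ∈ cl {w} T)
              * ∑ z ∈ Λ.filter (fun z => z ∉ S), pr p U (fun T => z ∈ cl {e.2} T) := by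
            rw [sum_comm]
            simp only [mul_sum]
        _ ≤ ∑ e ∈ outPairs H S, p * pr p (inEdges H S) (fun T => e.1 ∈ cl {w} T) * M := by
            refine sum_le_sum fun e _ => mul_le_mul_of_nonneg_left ?_
              (mul_nonneg h0 (pr_nonneg h0 h1 _ _))
            exact (sum_le_sum_of_subset_of_nonneg (filter_subset _ _)
              fun z _ _ => pr_nonneg h0 h1 _ _).trans (hM e.2)
        _ = phiS H p w S * M := by simp only [phiS, mul_sum, sum_mul]
        _ ≤ c * M := mul_le_mul_of_nonneg_right hS hM0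
  have hMle : M ≤ N + c * M :=
    csSup_le ⟨_, v, rfl⟩ (by rintro _ ⟨w, rfl⟩; exact hstep w)
  refine (hM v).trans ?_
  rw [le_div_iff₀ (by linarith)]
  linarith

section Russo

variable {α : Type*} [DecidableEq α]

lemma pr_insert (p : ℝ) {a : α} {U : Finset α} (ha : a ∉ U) (Q : Finset α → Prop) :
    pr p (insert a U) Q = p * pr p U (fun S => Q (insert a S)) + (1 - p) * pr p U Q := by
  classical
  simp only [pr, sum_filter]
  rw [sum_powerset_insert ha, mul_sum, mul_sum, add_comm]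
  congr 1 <;> refine sum_congr rfl fun S hS => ?_ <;> rw [mem_powerset] at hS <;>
    have haS : a ∉ S := fun h => ha (hS h)
  · split_ifs
    · simp only [wt, card_insert_of_notMem haS]
      rw [insert_sdiff_insert, sdiff_insert_of_notMem ha, pow_succ]
      ring
    · simp
  · split_ifs
    · simp only [wt]
      rw [insert_sdiff_of_notMem _ haS, card_insert_of_notMem (fun h => ha (mem_sdiff.1 h).1),
        pow_succ]
      ring
    · simp

/-- Russo's formula in a finite set of coordinates. -/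
lemma hasDerivAt_pr (p : ℝ) (U : Finset α) (Q : Finset α → Prop) :
    HasDerivAt (fun t => pr t U Q)
      (∑ a ∈ U, (pr p (U.erase a) (fun S => Q (insert a S)) - pr p (U.erase a) Q)) p := by
  induction U using Finset.induction_on generalizing Q with
  | empty => simpa [pr, wt, sum_filter] using hasDerivAt_const p (pr p (∅ : Finset α) Q)
  | @insert b U hb ih =>
    have h := (((hasDerivAt_id p).mul (ih fun S => Q (insert b S))).add
      (((hasDerivAt_id p).const_sub 1).mul (ih Q))).congr_of_eventuallyEq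
      (f₁ := fun t => pr t (insert b U) Q)
      (Filter.Eventually.of_forall fun t => pr_insert t hb Q)
    refine h.congr_deriv ?_
    have key : ∀ a ∈ U, pr p ((insert b U).erase a) (fun S => Q (insert a S))
        - pr p ((insert b U).erase a) Q
        = p * (pr p (U.erase a) (fun S => Q (insert b (insert a S)))
              - pr p (U.erase a) (fun S => Q (insert b S)))
          + (1 - p) * (pr p (U.erase a) (fun S => Q (insert a S)) - pr p (U.erase a) Q) := by
      intro a ha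
      have hne : b ≠ a := fun e => hb (e ▸ ha)
      rw [erase_insert_of_ne hne,
        pr_insert p (fun h => hb (mem_of_mem_erase h)),
        pr_insert p (fun h => hb (mem_of_mem_erase h))]
      simp only [Finset.insert_comm a b]
      ring
    rw [sum_insert hb, erase_insert hb, sum_congr rfl key, sum_add_distrib, ← mul_sum, ← mul_sum]
    simp only [id]
    ring

lemma pr_monotoneOn (U : Finset α) {Q : Finset α → Prop} (hQ : ∀ S T, S ⊆ T → Q S → Q T) :
    MonotoneOn (fun t => pr t U Q) (Set.Icc 0 1) := by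
  refine monotoneOn_of_hasDerivWithinAt_nonneg (convex_Icc 0 1)
    (fun t _ => (hasDerivAt_pr t U Q).continuousAt.continuousWithinAt)
    (fun t _ => (hasDerivAt_pr t U Q).hasDerivWithinAt) fun t ht => ?_
  rw [interior_Icc] at ht
  exact sum_nonneg fun a _ => sub_nonneg.2
    (pr_mono ht.1.le ht.2.le fun S _ => hQ _ _ (subset_insert _ _))

/-- Russo's formula for an increasing event, through closed pivotal coordinates. -/
lemma hasDerivAt_pr_pivotal {p : ℝ} (hp : p ≠ 1) (U : Finset α) {Q : Finset α → Prop}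
    (hQ : ∀ S T, S ⊆ T → Q S → Q T) :
    HasDerivAt (fun t => pr t U Q)
      ((∑ a ∈ U, pr p U (fun S => a ∉ S ∧ ¬ Q S ∧ Q (insert a S))) / (1 - p)) p := by
  classical
  convert hasDerivAt_pr p U Q using 1
  rw [sum_div]
  refine sum_congr rfl fun a ha => ?_
  rw [div_eq_iff (sub_ne_zero.2 hp.symm)]
  have h := pr_insert p (notMem_erase a U) (fun S => a ∉ S ∧ ¬ Q S ∧ Q (insert a S))
  rw [insert_erase ha] at h
  rw [h]
  have z : pr p (U.erase a) (fun S => a ∉ insert a S ∧ ¬ Q (insert a S) ∧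
      Q (insert a (insert a S))) = 0 := by simp [pr]
  rw [z, mul_zero, zero_add, mul_comm]
  congr 1
  have e1 : pr p (U.erase a) (fun S => a ∉ S ∧ ¬ Q S ∧ Q (insert a S))
      = pr p (U.erase a) (fun S => Q (insert a S) ∧ ¬ Q S) :=
    pr_congr fun S hS => by
      have : a ∉ S := fun h => notMem_erase a U (hS h)
      tauto
  rw [e1, eq_sub_iff_add_eq]
  simp only [pr, sum_filter, ← sum_add_distrib]
  refine sum_congr rfl fun S _ => ?_
  have := hQ S _ (subset_insert a S)
  by_cases h2 : Q S <;> by_cases h3 : Q (insert a S) <;> simp_all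

end Russo

/-- The vertices of `Λ` not joined to the outside of `Λ`. -/
noncomputable def trapped (Λ : Finset W) (T : Finset (Sym2 W)) : Finset W :=
  open scoped Classical in
  Λ.filter fun x => cl {x} T ⊆ (↑Λ : Set W)

lemma cl_eq_of_mem {x y : W} {T : Finset (Sym2 W)} (h : y ∈ cl {x} T) :
    cl {y} T = cl {x} T := by
  ext w
  rw [mem_cl_single, mem_cl_single] at *
  exact ⟨fun hw => h.trans hw, fun hw => h.symm.trans hw⟩

lemma mem_trapped {Λ : Finset W} {T : Finset (Sym2 W)} {x : W} :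
    x ∈ trapped Λ T ↔ cl {x} T ⊆ (↑Λ : Set W) := by
  classical
  rw [trapped, mem_filter]
  exact ⟨fun h => h.2, fun h => ⟨h (subset_cl _ _ rfl), h⟩⟩

/-- The trapped set does not depend on the edges inside it. -/
lemma trapped_eq_iff {Λ S : Finset W} (T : Finset (Sym2 W)) :
    trapped Λ T = S ↔ trapped Λ (T \ inEdges H S) = S := by
  have main : ∀ x, (trapped Λ T = S ∨ trapped Λ (T \ inEdges H S) = S) →
      (cl {x} (T \ inEdges H S) ⊆ (↑Λ : Set W) → cl {x} T ⊆ (↑Λ : Set W)) := by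
    intro x h hx
    rcases h with h | h
    · by_contra hout
      have : cl {x} T ⊆ cl {x} (T \ inEdges H S) ∩ cl {x} T := by
        refine cl_subset (Set.subset_inter (subset_cl _ _) (subset_cl _ _)) ?_
        intro y w ⟨hy, hy'⟩ hyw
        refine ⟨cl_step hy (mem_sdiff.2 ⟨hyw, fun hin => hout ?_⟩), cl_step hy' hyw⟩
        have hyS := (mem_inEdges.1 hin).2.1
        rw [← h, mem_trapped, cl_eq_of_mem hy'] at hyS
        exact hyS
      exact hout ((this.trans Set.inter_subset_left).trans hx)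
    · have hxS : x ∈ S := h ▸ mem_trapped.2 hx
      refine Set.Subset.trans (cl_subset (Z := (↑S : Set W)) (by simpa using hxS) ?_)
        (fun y hy => ?_)
      · intro y w hy hyw
        by_cases hin : s(y, w) ∈ inEdges H S
        · exact (mem_inEdges.1 hin).2.2
        · have hy' : cl {y} (T \ inEdges H S) ⊆ (↑Λ : Set W) :=
            mem_trapped.1 (h.symm ▸ hy)
          have hw : w ∈ cl {y} (T \ inEdges H S) :=
            cl_step (subset_cl _ _ rfl) (mem_sdiff.2 ⟨hyw, hin⟩)
          have : w ∈ trapped Λ (T \ inEdges H S) :=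
            mem_trapped.2 (cl_eq_of_mem hw ▸ hy')
          exact h ▸ this
      · exact mem_trapped.1 (h.symm ▸ hy) (subset_cl _ _ rfl)
  constructor
  all_goals
    intro h
    ext x
  · conv_rhs => rw [← h]
    rw [mem_trapped, mem_trapped]
    exact ⟨main x (Or.inl h), (cl_mono subset_rfl sdiff_subset).trans⟩
  · conv_rhs => rw [← h]
    rw [mem_trapped, mem_trapped]
    exact ⟨(cl_mono subset_rfl sdiff_subset).trans, main x (Or.inr h)⟩

/-- The edges with an end in `Λ`. -/
noncomputable def edgesAt (H : SimpleGraph W) [H.LocallyFinite] (Λ : Finset W) :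
    Finset (Sym2 W) :=
  Λ.biUnion fun x => (H.neighborFinset x).image fun y => s(x, y)

/-- The differential inequality: the escape probability grows when every criterion is at least one. -/
lemma pivotal_ge {p : ℝ} (h0 : 0 ≤ p) (h1 : p ≤ 1) (Λ : Finset W) (o : W)
    (hphi : ∀ S : Finset W, o ∈ S → 1 ≤ phiS H p o S) :
    pr p (edgesAt H Λ) (fun T => cl {o} T ⊆ (↑Λ : Set W))
      ≤ p * ∑ a ∈ edgesAt H Λ, pr p (edgesAt H Λ) (fun T =>
          a ∉ T ∧ cl {o} T ⊆ (↑Λ : Set W) ∧ ¬ cl {o} (insert a T) ⊆ (↑Λ : Set W)) := by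
  classical
  set U := edgesAt H Λ with hU
  set 𝒮 := Λ.powerset.filter fun S => o ∈ S
  calc pr p U (fun T => cl {o} T ⊆ (↑Λ : Set W))
      ≤ ∑ S ∈ 𝒮, pr p U (fun T => trapped Λ T = S) :=
        pr_le_sum h0 h1 𝒮 _ fun T _ hT => ⟨trapped Λ T, mem_filter.2
          ⟨mem_powerset.2 (filter_subset _ _), mem_trapped.2 hT⟩, rfl⟩
    _ ≤ ∑ S ∈ 𝒮, phiS H p o S * pr p U (fun T => trapped Λ T = S) :=
        sum_le_sum fun S hS =>
          le_mul_of_one_le_left (pr_nonneg h0 h1 _ _) (hphi S (mem_filter.1 hS).2)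
    _ = p * ∑ S ∈ 𝒮, ∑ e ∈ outPairs H S, pr p U (fun T =>
          trapped Λ T = S ∧ e.1 ∈ cl {o} (T ∩ inEdges H S)) := by
        rw [mul_sum]
        refine sum_congr rfl fun S hS => ?_
        rw [phiS, mul_assoc, sum_mul]
        congr 1
        refine sum_congr rfl fun e _ => ?_
        have hSΛ : S ⊆ Λ := mem_powerset.1 (mem_filter.1 hS).1
        have hsub : inEdges H S ⊆ U := by
          intro a
          induction a with
          | h x y =>
            intro ha
            obtain ⟨hadj, hx, -⟩ := mem_inEdges.1 ha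
            exact mem_biUnion.2 ⟨x, hSΛ hx, mem_image.2 ⟨y, by simpa using hadj, rfl⟩⟩
        have hsp := pr_split p (sdiff_disjoint (s := inEdges H S) (t := U))
          (fun T => trapped Λ T = S) (fun T => e.1 ∈ cl {o} T)
        rw [sdiff_union_of_subset hsub] at hsp
        have hmar : pr p U (fun T => trapped Λ T = S)
            = pr p (U \ inEdges H S) (fun T => trapped Λ T = S) := by
          rw [← pr_marginal p (sdiff_subset (s := U) (t := inEdges H S))]
          refine pr_congr fun T hT => ?_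
          rw [trapped_eq_iff (H := H) T]
          exact iff_of_eq (by rw [← inter_sdiff_assoc, inter_eq_left.2 hT])
        rw [hmar, mul_comm, ← hsp]
        refine pr_congr fun T hT => ?_
        rw [trapped_eq_iff (H := H) T,
          show T ∩ (U \ inEdges H S) = T \ inEdges H S by rw [← inter_sdiff_assoc,
            inter_eq_left.2 hT]]
    _ ≤ _ := by
        refine mul_le_mul_of_nonneg_left ?_ h0
        rw [Finset.sum_sigma']
        have hmaps : ∀ i ∈ 𝒮.sigma fun S => outPairs H S, s(i.2.1, i.2.2) ∈ U := by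
          rintro ⟨S, x, y⟩ hi
          obtain ⟨hS, he⟩ := mem_sigma.1 hi
          obtain ⟨hadj, hx, -⟩ := mem_outPairs.1 he
          exact mem_biUnion.2 ⟨x, mem_powerset.1 (mem_filter.1 hS).1 hx,
            mem_image.2 ⟨y, by simpa using hadj, rfl⟩⟩
        rw [← sum_fiberwise_of_maps_to hmaps]
        refine sum_le_sum fun a _ => ?_
        refine sum_pr_le h0 h1 _ _ ?_ ?_
        · rintro ⟨S, x, y⟩ hi T _ ⟨hT, hx⟩
          obtain ⟨hi', rfl⟩ := mem_filter.1 hi
          obtain ⟨hS, he⟩ := mem_sigma.1 hi'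
          obtain ⟨hadj, hxS, hyS⟩ := mem_outPairs.1 he
          have hxo : x ∈ cl {o} T := cl_mono subset_rfl inter_subset_left hx
          have hoΛ : cl {o} T ⊆ (↑Λ : Set W) := mem_trapped.1 (hT.symm ▸ (mem_filter.1 hS).2)
          refine ⟨fun hopen => hyS ?_, hoΛ, fun h => hyS ?_⟩
          · have hy : y ∈ cl {o} T := cl_step hxo hopen
            exact hT ▸ mem_trapped.2 (cl_eq_of_mem hy ▸ hoΛ)
          · have hy : y ∈ cl {o} (insert s(x, y) T) :=
              cl_step (cl_mono subset_rfl (subset_insert _ _) hxo) (mem_insert_self _ _)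
            refine hT ▸ mem_trapped.2 ?_
            exact ((cl_mono subset_rfl (subset_insert _ _)).trans
              (subset_of_eq (cl_eq_of_mem hy))).trans h
        · rintro ⟨S, x, y⟩ hi ⟨S', x', y'⟩ hj T _ ⟨hT, -⟩ ⟨hT', -⟩
          obtain rfl : S = S' := hT.symm.trans hT'
          obtain ⟨hi, hie⟩ := mem_filter.1 hi
          obtain ⟨hj, hje⟩ := mem_filter.1 hj
          obtain ⟨-, hx, hy⟩ := mem_outPairs.1 (mem_sigma.1 hi).2
          obtain ⟨-, hx', hy'⟩ := mem_outPairs.1 (mem_sigma.1 hj).2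
          rcases Sym2.eq_iff.1 (hie.trans hje.symm) with ⟨rfl, rfl⟩ | ⟨rfl, rfl⟩
          · rfl
          · exact absurd hx' hy

/-- If the criterion is at least one on `[p₀, p₁]`, every finite set is left with positive
probability at `p₁`, uniformly. -/
theorem trapped_prob_le {p₀ p₁ : ℝ} (h0 : 0 ≤ p₀) (h01 : p₀ ≤ p₁) (hp₀1 : p₁ < 1)
    (Λ : Finset W) (o : W)
    (hphi : ∀ q ∈ Set.Ioo p₀ p₁, ∀ S : Finset W, o ∈ S → 1 ≤ phiS H q o S) :
    pr p₁ (edgesAt H Λ) (fun T => cl {o} T ⊆ (↑Λ : Set W)) * (p₁ / (1 - p₁))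
      ≤ p₀ / (1 - p₀) := by
  classical
  set U := edgesAt H Λ
  set A : Finset (Sym2 W) → Prop := fun T => ¬ cl {o} T ⊆ (↑Λ : Set W)
  have hA : ∀ S T, S ⊆ T → A S → A T := fun S T hST h h' =>
    h ((cl_mono subset_rfl hST).trans h')
  set g : ℝ → ℝ := fun t => pr t U (fun T => cl {o} T ⊆ (↑Λ : Set W))
  have hg : ∀ t, g t = 1 - pr t U A := fun t => by
    have := pr_compl t U (fun T => cl {o} T ⊆ (↑Λ : Set W))
    simp only [g, A]; linarith
  set D : ℝ → ℝ := fun t => -((∑ a ∈ U, pr t U (fun S => a ∉ S ∧ ¬ A S ∧ A (insert a S)))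
    / (1 - t))
  have hgd : ∀ t, t ≠ 1 → HasDerivAt g (D t) t := fun t ht => by
    have := (hasDerivAt_pr_pivotal ht U hA).const_sub 1
    exact this.congr_of_eventuallyEq (Filter.Eventually.of_forall hg)
  have hodds : ∀ t : ℝ, t ≠ 1 → HasDerivAt (fun s => s / (1 - s)) (1 / (1 - t) ^ 2) t := by
    intro t ht
    have hd : HasDerivAt (fun s : ℝ => s / (1 - s)) ((1 * (1 - t) - t * -1) / (1 - t) ^ 2) t :=
      (hasDerivAt_id' t).div ((hasDerivAt_id' t).const_sub 1) (sub_ne_zero.2 ht.symm)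
    exact hd.congr_deriv (by ring)
  set h : ℝ → ℝ := fun t => g t * (t / (1 - t))
  have hh : ∀ t, t ≠ 1 → HasDerivAt h (D t * (t / (1 - t)) + g t * (1 / (1 - t) ^ 2)) t :=
    fun t ht => (hgd t ht).mul (hodds t ht)
  have hne : ∀ t ∈ Set.Icc p₀ p₁, t ≠ 1 := fun t ht => ne_of_lt (ht.2.trans_lt hp₀1)
  have hanti : AntitoneOn h (Set.Icc p₀ p₁) := by
    refine antitoneOn_of_hasDerivWithinAt_nonpos (convex_Icc _ _)
      (fun t ht => (hh t (hne t ht)).continuousAt.continuousWithinAt)
      (fun t ht => (hh t (hne t (interior_subset ht))).hasDerivWithinAt) fun t ht => ?_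
    rw [interior_Icc] at ht
    have ht0 : 0 ≤ t := h0.trans ht.1.le
    have ht1 : 0 < 1 - t := by linarith [ht.2]
    have key := pivotal_ge ht0 (by linarith) Λ o (hphi t ht)
    simp only [D, A, not_not]
    set X := ∑ a ∈ U, pr t U (fun S => a ∉ S ∧ cl {o} S ⊆ (↑Λ : Set W) ∧
      ¬ cl {o} (insert a S) ⊆ (↑Λ : Set W)) with hX
    have e : -(X / (1 - t)) * (t / (1 - t)) + g t * (1 / (1 - t) ^ 2)
        = (g t - t * X) / (1 - t) ^ 2 := by field_simp; ring
    rw [e]
    refine div_nonpos_of_nonpos_of_nonneg ?_ (sq_nonneg _)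
    have : g t ≤ t * X := key
    linarith
  refine (hanti (Set.left_mem_Icc.2 h01) (Set.right_mem_Icc.2 h01) h01).trans ?_
  exact mul_le_of_le_one_left (div_nonneg h0 (by linarith))
    (pr_le_one h0 (by linarith) _ _)

lemma phiS_mono {p q : ℝ} (h0 : 0 ≤ p) (hpq : p ≤ q) (h1 : q ≤ 1) (v : W) (S : Finset W) :
    phiS H p v S ≤ phiS H q v S := by
  refine mul_le_mul hpq (sum_le_sum fun e _ => ?_)
    (sum_nonneg fun e _ => pr_nonneg h0 (hpq.trans h1) _ _) (h0.trans hpq)
  exact pr_monotoneOn _ (fun S T hST h => cl_mono subset_rfl hST h) ⟨h0, hpq.trans h1⟩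
    ⟨h0.trans hpq, h1⟩ hpq

lemma pr_image {α β : Type*} [DecidableEq α] [DecidableEq β] (p : ℝ) (f : α ↪ β) (U : Finset α)
    (Q : Finset β → Prop) : pr p (U.map f) Q = pr p U (fun S => Q (S.map f)) := by
  induction U using Finset.induction_on generalizing Q with
  | empty =>
    classical
    simp only [map_empty, pr, sum_filter, powerset_empty, sum_singleton, wt, map_empty]
    by_cases h : Q ∅ <;> simp [h]
  | @insert a U ha ih =>
    rw [map_insert, pr_insert p (by simpa using ha), pr_insert p ha, ih, ih]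
    simp only [map_insert]

lemma cl_map (φ : W ≃ W) (x y : W) (T : Finset (Sym2 W)) :
    φ y ∈ cl {φ x} (T.map (φ.toEmbedding.sym2Map)) ↔ y ∈ cl {x} T := by
  have hstep : ∀ a b, s(φ a, φ b) ∈ T.map (φ.toEmbedding.sym2Map) ↔ s(a, b) ∈ T := by
    intro a b
    constructor
    · intro h
      obtain ⟨e, he, heq⟩ := mem_map.1 h
      rwa [φ.toEmbedding.sym2Map.injective (heq.trans rfl : _ = φ.toEmbedding.sym2Map s(a, b))] at he
    · exact fun h => mem_map.2 ⟨_, h, rfl⟩
  constructor
  · intro h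
    have : cl {φ x} (T.map (φ.toEmbedding.sym2Map)) ⊆ φ '' cl {x} T := by
      refine cl_subset (by simpa using subset_cl {x} T rfl) ?_
      rintro _ w ⟨a, ha, rfl⟩ hw
      refine ⟨φ.symm w, cl_step ha ((hstep _ _).1 ?_), φ.apply_symm_apply w⟩
      rwa [φ.apply_symm_apply]
    obtain ⟨a, ha, e⟩ := this h
    exact φ.injective e ▸ ha
  · intro h
    have : cl {x} T ⊆ φ ⁻¹' cl {φ x} (T.map (φ.toEmbedding.sym2Map)) :=
      cl_subset (by simpa using subset_cl {φ x} _ rfl)
        fun a b ha hab => cl_step ha ((hstep a b).2 hab)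
    exact this h

lemma phiS_iso (p : ℝ) (φ : H ≃g H) (v : W) (S : Finset W) :
    phiS H p (φ v) (S.map φ.toEquiv.toEmbedding) = phiS H p v S := by
  have hout : outPairs H (S.map φ.toEquiv.toEmbedding)
      = (outPairs H S).map (φ.toEquiv.prodCongr φ.toEquiv).toEmbedding := by
    ext ⟨x, y⟩
    obtain ⟨a, rfl⟩ := φ.surjective x
    obtain ⟨b, rfl⟩ := φ.surjective y
    rw [mem_outPairs]
    simp [mem_outPairs, φ.map_adj_iff]
    erw [φ.symm_apply_apply, φ.symm_apply_apply]
    simp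
  have hin : inEdges H (S.map φ.toEquiv.toEmbedding)
      = (inEdges H S).map φ.toEquiv.toEmbedding.sym2Map := by
    ext e
    induction e with
    | h x y =>
      obtain ⟨a, rfl⟩ := φ.surjective x
      obtain ⟨b, rfl⟩ := φ.surjective y
      rw [mem_inEdges, show s(φ a, φ b) = φ.toEquiv.toEmbedding.sym2Map s(a, b) from rfl,
        mem_map', mem_inEdges]
      simp [φ.map_adj_iff]
      erw [φ.symm_apply_apply, φ.symm_apply_apply]
      simp
  simp only [phiS, hout, hin, sum_map]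
  congr 1
  refine sum_congr rfl fun e _ => ?_
  rw [pr_image]
  exact pr_congr fun T _ => cl_map φ.toEquiv v e.1 T

end Finite

variable [DecidableEq W] {H : SimpleGraph W} [H.LocallyFinite]

/-- Below the threshold the criterion fails at every vertex. -/
theorem exists_phiS_lt (hH : H.Connected) {p : ℝ} (h0 : 0 ≤ p) (hp : p < pc H) (o : W) :
    ∃ S : Finset W, o ∈ S ∧ phiS H p o S < 1 := by
  by_contra hno
  push Not at hno
  set X := {t : ℝ | ∃ p : I, (p : ℝ) = t ∧
    0 < bondMeasure H p {ω | ∃ C : (openGraph H ω).ConnectedComponent, C.supp.Infinite}}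
  have hpc : pc H = sInf X := rfl
  have hne : X.Nonempty := by
    by_contra h
    rw [Set.not_nonempty_iff_eq_empty] at h
    rw [hpc, h, Real.sInf_empty] at hp
    linarith
  have hbdd : BddBelow X := ⟨0, by rintro _ ⟨q, rfl, -⟩; exact q.2.1⟩
  obtain ⟨t, q, rfl, hq⟩ := hne
  have hle1 : pc H ≤ 1 := hpc ▸ (csInf_le hbdd ⟨q, rfl, hq⟩).trans q.2.2
  set r := (p + pc H) / 2 with hr
  have hr1 : r < 1 := by linarith
  have hr0 : 0 < r := by linarith
  have hodds : p / (1 - p) < r / (1 - r) := by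
    rw [div_lt_div_iff₀ (by linarith) (by linarith)]
    linarith
  have hρ : p / (1 - p) / (r / (1 - r)) < 1 := (div_lt_one (div_pos hr0 (by linarith))).2 hodds
  refine absurd (csInf_le hbdd (show r ∈ X from ⟨⟨r, hr0.le, hr1.le⟩, rfl, ?_⟩))
    (not_le.2 (hpc ▸ (by linarith : r < pc H)))
  refine exists_infinite_of_escape hH ⟨r, hr0.le, hr1.le⟩ o (c := 1 - p / (1 - p) / (r / (1 - r)))
    (n₀ := 0) (by linarith) fun n _ => ?_
  rw [sub_sub_cancel, le_div_iff₀ (div_pos hr0 (by linarith))]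
  exact trapped_prob_le h0 (by linarith) hr1 (ball H o n) o fun s hs S hoS =>
    (hno S hoS).trans (phiS_mono h0 hs.1.le (by linarith [hs.2]) o S)

/-- On a quasi-transitive graph, below the threshold the criterion fails uniformly. -/
theorem exists_uniform_phiS_lt (hH : H.Connected) (hQT : QuasiTransitive H) {p : ℝ} (h0 : 0 ≤ p)
    (hp : p < pc H) :
    ∃ c : ℝ, ∃ N : ℕ, c < 1 ∧ ∀ v, ∃ S : Finset W, v ∈ S ∧ S.card ≤ N ∧ phiS H p v S ≤ c := by
  obtain ⟨F, hFfin, hF⟩ := hQT
  choose S hS hphi using fun f : W => exists_phiS_lt hH h0 hp f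
  obtain ⟨o⟩ := hH.nonempty
  have hne : hFfin.toFinset.Nonempty := by
    obtain ⟨φ, hφ⟩ := hF o
    exact ⟨φ o, hFfin.mem_toFinset.2 hφ⟩
  refine ⟨hFfin.toFinset.sup' hne fun f => phiS H p f (S f),
    hFfin.toFinset.sup fun f => (S f).card, (Finset.sup'_lt_iff hne).2 fun f _ => hphi f, fun v => ?_⟩
  obtain ⟨φ, hφ⟩ := hF v
  refine ⟨(S (φ v)).map φ.symm.toEquiv.toEmbedding, ?_, ?_, ?_⟩
  · exact mem_map.2 ⟨φ v, hS _, φ.symm_apply_apply v⟩
  · rw [card_map]
    exact Finset.le_sup (f := fun f => (S f).card) (hFfin.mem_toFinset.2 hφ)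
  · have := phiS_iso p φ.symm (φ v) (S (φ v))
    rw [φ.symm_apply_apply] at this
    rw [this]
    exact Finset.le_sup' (fun f => phiS H p f (S f)) (hFfin.mem_toFinset.2 hφ)

/-- A bound on connection probabilities in every finite edge set passes to the whole graph. -/
theorem sum_reach_le_of_pr (hH : H.Connected) (p : I) {C : ℝ} (v : W) (Λ : Finset W)
    (h : ∀ U : Finset (Sym2 W), ↑U ⊆ H.edgeSet →
      ∑ z ∈ Λ, pr (p : ℝ) U (fun T => z ∈ cl {v} T) ≤ C) :
    ∑ z ∈ Λ, (bondMeasure H p).real {ω | (openGraph H ω).Reachable v z} ≤ C := by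
  classical
  haveI := countable_of_connected hH
  haveI : IsProbabilityMeasure (bondMeasure H p) := by unfold bondMeasure; infer_instance
  set U : ℕ → Finset (Sym2 W) := fun n => edgesAt H (ball H v n)
  have hU : ∀ n, ↑(U n) ⊆ H.edgeSet := fun n e he => boxEdges_edge (Finset.mem_coe.1 he)
  have hUm : Monotone U := fun m n hmn => biUnion_subset_biUnion_of_subset_left _
    ((monotone_nat_of_le_succ fun k => (subset_union_left : ball H v k ⊆ ball H v (k + 1))) hmn)
  set E : W → ℕ → Set (Set (Sym2 W)) := fun z n => {ω | z ∈ cl {v} (trace (U n) ω)}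
  have hE : ∀ z, Monotone (E z) := fun z m n hmn ω hω =>
    cl_mono subset_rfl (filter_subset_filter _ (hUm hmn)) hω
  have hunion : ∀ z, {ω | (openGraph H ω).Reachable v z} = ⋃ n, E z n := by
    intro z
    ext ω
    simp only [Set.mem_ofPred_eq, Set.mem_iUnion, E, mem_cl_single]
    constructor
    · rintro ⟨q⟩
      refine ⟨q.length + 1, ⟨q.transfer _ fun e he => ?_⟩⟩
      induction e with
      | h a b =>
        have hab : (openGraph H ω).Adj a b := q.edges_subset_edgeSet he
        have ha := q.fst_mem_support_of_mem_edges he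
        simp only [SimpleGraph.edgeSet_fromEdgeSet, Set.mem_sdiff, mem_coe, trace, mem_filter]
        refine ⟨⟨mem_biUnion.2 ⟨a, mem_ball_of_walk
          (((q.takeUntil a ha).mapLe (openGraph_le ω)).reverse) ?_,
          mem_image.2 ⟨b, by simpa using hab.1, rfl⟩⟩, hab.2.1⟩, ?_⟩
        · simpa using Nat.le_succ_of_le (q.length_takeUntil_le_length ha)
        · simpa using hab.ne
    · rintro ⟨n, hn⟩
      exact cl_le_cluster v (hU n) ω (mem_cl_single.2 hn)
  have hlim : Filter.Tendsto (fun n => ∑ z ∈ Λ, (bondMeasure H p).real (E z n)) Filter.atTop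
      (nhds (∑ z ∈ Λ, (bondMeasure H p).real {ω | (openGraph H ω).Reachable v z})) := by
    refine tendsto_finsetSum _ fun z _ => ?_
    rw [hunion z]
    exact (ENNReal.tendsto_toReal (measure_ne_top _ _)).comp (tendsto_measure_iUnion_atTop (hE z))
  refine le_of_tendsto' hlim fun n => le_trans (sum_le_sum fun z _ => ?_) (h (U n) (hU n))
  exact ENNReal.toReal_le_of_le_ofReal (pr_nonneg p.2.1 p.2.2 _ _)
    (bond_pr_le p (hU n) (fun T => z ∈ cl {v} T))

/-- Sharpness: below the threshold of a connected quasi-transitive graph the susceptibility is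
bounded. -/
theorem sharp_susceptibility (hH : H.Connected) (hQT : QuasiTransitive H) (p : I)
    (hp : (p : ℝ) < pc H) :
    ∃ C : ℝ, ∀ (v : W) (Λ : Finset W),
      (∀ U : Finset (Sym2 W), ↑U ⊆ H.edgeSet →
        ∑ z ∈ Λ, pr (p : ℝ) U (fun T => z ∈ cl {v} T) ≤ C) ∧
      ∑ z ∈ Λ, (bondMeasure H p).real {ω | (openGraph H ω).Reachable v z} ≤ C := by
  obtain ⟨c, N, hc, h⟩ := exists_uniform_phiS_lt hH hQT p.2.1 hp
  refine ⟨N / (1 - c), fun v Λ => ?_⟩
  have key : ∀ U : Finset (Sym2 W), ↑U ⊆ H.edgeSet →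
      ∑ z ∈ Λ, pr (p : ℝ) U (fun T => z ∈ cl {v} T) ≤ N / (1 - c) :=
    fun U hU => susceptibility_le p.2.1 p.2.2 hc h hU Λ v
  exact ⟨key, sum_reach_le_of_pr hH p v Λ key⟩

end Vale.Agent.P165
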