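import Vale.Agent.P165.Defs

/-!
An edge isoperimetric inequality bounds the number of walks between two vertices.
-/

open Finset

namespace Vale.Agent.P165

variable {W : Type*} [DecidableEq W] (H : SimpleGraph W) [H.LocallyFinite]

/-- The vertices at distance at most one from `Λ`. -/
noncomputable def hull (Λ : Finset W) : Finset W := Λ ∪ Λ.biUnion fun x => H.neighborFinset x

/-- The bilinear form of the adjacency operator on functions living in `Λ`. -/
noncomputable def form (Λ : Finset W) (a b : W → ℝ) : ℝ :=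
  ∑ x ∈ hull H Λ, ∑ y ∈ H.neighborFinset x, a x * b y

variable {H}

lemma sum_swap {Λ : Finset W} (F : W → W → ℝ) (hF : ∀ x y, y ∉ Λ → F x y = 0) :
    ∑ x ∈ hull H Λ, ∑ y ∈ H.neighborFinset x, F x y
      = ∑ y ∈ Λ, ∑ x ∈ H.neighborFinset y, F x y := by
  have h1 : ∀ x, ∑ y ∈ H.neighborFinset x, F x y
      = ∑ y ∈ (H.neighborFinset x).filter (· ∈ Λ), F x y := fun x =>
    (sum_subset (filter_subset _ _) fun y hy hy' => hF x y fun h => hy' (mem_filter.2 ⟨hy, h⟩)).symm
  simp only [h1]
  refine sum_comm' ?_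
  intro x y
  simp only [mem_filter, SimpleGraph.mem_neighborFinset, hull, mem_union, mem_biUnion]
  exact ⟨fun h => ⟨h.2.1.symm, h.2.2⟩, fun h => ⟨Or.inr ⟨y, h.2, h.1⟩, h.1.symm, h.2⟩⟩

lemma sum_hull {Λ : Finset W} (F : W → ℝ) (hF : ∀ x, x ∉ Λ → F x = 0) :
    ∑ x ∈ hull H Λ, F x = ∑ x ∈ Λ, F x :=
  (sum_subset subset_union_left fun x _ h => hF x h).symm

section

variable {h : ℝ} (hiso : ∀ A : Finset W, h * A.card ≤ ∑ x ∈ A, ((H.neighborFinset x \ A).card : ℝ))

include hiso in
/-- The co-area inequality. -/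
lemma coarea {Λ : Finset W} (g : W → ℝ) (hg : ∀ x, 0 ≤ g x) (hs : ∀ x, x ∉ Λ → g x = 0) :
    2 * h * ∑ x ∈ Λ, g x ≤ ∑ x ∈ hull H Λ, ∑ y ∈ H.neighborFinset x, |g x - g y| := by
  classical
  induction hn : (Λ.filter fun x => g x ≠ 0).card using Nat.strong_induction_on generalizing g with
  | _ n ih =>
    set A := Λ.filter fun x => g x ≠ 0 with hA
    by_cases he : A = ∅
    · have h0 : ∀ x ∈ Λ, g x = 0 := fun x hx => by
        by_contra hne
        exact Finset.eq_empty_iff_forall_notMem.1 he x (mem_filter.2 ⟨hx, hne⟩)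
      rw [sum_eq_zero h0, mul_zero]
      exact sum_nonneg fun x _ => sum_nonneg fun y _ => abs_nonneg _
    obtain ⟨a, ha, hmin⟩ := exists_min_image A g (nonempty_iff_ne_empty.2 he)
    set m := g a with hm
    have hAmem : ∀ x, x ∈ A ↔ g x ≠ 0 := fun x => by
      simp only [hA, mem_filter]
      exact ⟨fun h => h.2, fun h => ⟨by_contra fun hx => h (hs x hx), h⟩⟩
    set ind : W → ℝ := fun x => if x ∈ A then 1 else 0 with hind
    set g' : W → ℝ := fun x => g x - m * ind x with hg'
    have hg'0 : ∀ x, 0 ≤ g' x := fun x => by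
      by_cases hx : x ∈ A <;> simp [hg', hind, hx, hg x]
      exact hmin x hx
    have hs' : ∀ x, x ∉ Λ → g' x = 0 := fun x hx => by
      have : x ∉ A := fun h => hx (mem_filter.1 h).1
      simp [hg', hind, this, hs x hx]
    have hlt : (Λ.filter fun x => g' x ≠ 0).card < n := by
      rw [← hn]
      refine card_lt_card ⟨fun x hx => ?_, fun hsub => ?_⟩
      · simp only [mem_filter, hA] at hx ⊢
        refine ⟨hx.1, fun h0 => hx.2 ?_⟩
        have : x ∉ A := fun h => (mem_filter.1 h).2 h0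
        simp [hg', hind, this, h0]
      · have := hsub ha
        simp [hg', hind, ha, hm] at this
    have ih' := ih _ hlt g' hg'0 hs' rfl
    have hpt : ∀ x y, |g x - g y| = |g' x - g' y| + m * |ind x - ind y| := by
      intro x y
      have hm0 : 0 ≤ m := hg a
      have hz : ∀ z, z ∉ A → g z = 0 := fun z hz => by_contra fun h => hz ((hAmem z).2 h)
      by_cases hx : x ∈ A <;> by_cases hy : y ∈ A <;> simp [hg', hind, hx, hy]
      · rw [hz y hy, sub_zero, sub_zero, abs_of_nonneg (hg x),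
          abs_of_nonneg (sub_nonneg.2 (hmin x hx))]
        ring
      · rw [hz x hx, zero_sub, zero_sub, abs_neg, abs_neg, abs_of_nonneg (hg y),
          abs_of_nonneg (sub_nonneg.2 (hmin y hy))]
        ring
    have hindsum : 2 * h * A.card
        ≤ ∑ x ∈ hull H Λ, ∑ y ∈ H.neighborFinset x, |ind x - ind y| := by
      have e : ∀ x y, |ind x - ind y| = ind x * (1 - ind y) + ind y * (1 - ind x) := fun x y => by
        by_cases hx : x ∈ A <;> by_cases hy : y ∈ A <;> simp [hind, hx, hy]
      have hindΛ : ∀ x, x ∉ Λ → ind x = 0 := fun x hx => by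
        have : x ∉ A := fun h => hx (mem_filter.1 h).1
        simp [hind, this]
      simp only [e, sum_add_distrib]
      rw [sum_swap (fun x y => ind y * (1 - ind x)) (fun x y hy => by simp [hindΛ y hy]),
        sum_hull (fun x => ∑ y ∈ H.neighborFinset x, ind x * (1 - ind y))
          (fun x hx => by simp [hindΛ x hx])]
      have key : ∑ x ∈ Λ, ∑ y ∈ H.neighborFinset x, ind x * (1 - ind y)
          = ∑ x ∈ A, ((H.neighborFinset x \ A).card : ℝ) := by
        rw [← sum_subset (filter_subset _ Λ : A ⊆ Λ)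
          (fun x _ hx => sum_eq_zero fun y _ => by
            have hx' : x ∉ A := hx
            simp [hind, hx'])]
        refine sum_congr rfl fun x hx => ?_
        rw [← filter_notMem_eq_sdiff, card_eq_sum_ones, Nat.cast_sum, sum_filter]
        refine sum_congr rfl fun y _ => ?_
        by_cases hy : y ∈ A <;> simp [hind, hx, hy]
      have := hiso A
      linarith
    have hgsum : ∑ x ∈ Λ, g x = ∑ x ∈ Λ, g' x + m * A.card := by
      have hAΛ : Λ ∩ A = A := inter_eq_right.2 (filter_subset _ Λ)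
      have : (A.card : ℝ) = ∑ x ∈ Λ, ind x := by
        simp only [hind, sum_boole, filter_mem_eq_inter, hAΛ]
      rw [this, mul_sum, ← sum_add_distrib]
      exact sum_congr rfl fun x _ => by simp [hg']
    calc 2 * h * ∑ x ∈ Λ, g x = 2 * h * ∑ x ∈ Λ, g' x + m * (2 * h * A.card) := by
          rw [hgsum]; ring
      _ ≤ (∑ x ∈ hull H Λ, ∑ y ∈ H.neighborFinset x, |g' x - g' y|)
          + m * ∑ x ∈ hull H Λ, ∑ y ∈ H.neighborFinset x, |ind x - ind y| :=
          add_le_add ih' (mul_le_mul_of_nonneg_left hindsum (hg a))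
      _ = _ := by simp only [hpt, sum_add_distrib, mul_sum]

variable {D : ℕ} (hD : ∀ x, (H.neighborFinset x).card = D)

include hiso hD in
/-- Cheeger: the adjacency form is bounded away from the degree. -/
lemma form_le {Λ : Finset W} (f : W → ℝ) (hf : ∀ x, x ∉ Λ → f x = 0) {l : ℝ} (hl : 0 ≤ l)
    (hl2 : (D : ℝ) ^ 2 - h ^ 2 ≤ l ^ 2) (hh : 0 ≤ h) :
    |form H Λ f f| ≤ l * ∑ x ∈ Λ, f x ^ 2 := by
  classical
  set a : W → ℝ := fun x => |f x| with ha
  set F := ∑ x ∈ Λ, f x ^ 2 with hF
  have h1 : |form H Λ f f| ≤ form H Λ a a := by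
    refine (abs_sum_le_sum_abs _ _).trans (sum_le_sum fun x _ => ?_)
    exact (abs_sum_le_sum_abs _ _).trans_eq (sum_congr rfl fun y _ => abs_mul _ _)
  refine h1.trans ?_
  set P := (hull H Λ).sigma fun x => H.neighborFinset x with hP
  have hx2 : ∑ e ∈ P, a e.1 ^ 2 = D * F := by
    rw [hP, sum_sigma]
    simp only [sum_const, hD, nsmul_eq_mul, ha, sq_abs]
    rw [sum_hull (fun x => (D : ℝ) * f x ^ 2) (fun x hx => by simp [hf x hx]), hF, mul_sum]
  have hy2 : ∑ e ∈ P, a e.2 ^ 2 = D * F := by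
    rw [hP, sum_sigma, sum_swap (fun _ y => a y ^ 2) (fun x y hy => by simp [ha, hf y hy])]
    simp only [sum_const, hD, nsmul_eq_mul, ha, sq_abs, hF, mul_sum]
  set Q := form H Λ a a with hQ
  have hQe : ∑ e ∈ P, a e.1 * a e.2 = Q := by rw [hQ, hP, form, sum_sigma]
  have hco : 2 * h * F ≤ ∑ e ∈ P, |a e.1 - a e.2| * (a e.1 + a e.2) := by
    refine (coarea hiso (fun x => f x ^ 2) (fun x => sq_nonneg _)
      (fun x hx => by simp [hf x hx])).trans_eq ?_
    rw [hP, sum_sigma]
    refine sum_congr rfl fun x _ => sum_congr rfl fun y _ => ?_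
    rw [← sq_abs (f x), ← sq_abs (f y), sq_sub_sq, abs_mul,
      abs_of_nonneg (add_nonneg (abs_nonneg (f x)) (abs_nonneg (f y))), mul_comm]
  have hcs := sum_mul_sq_le_sq_mul_sq P (fun e => |a e.1 - a e.2|) (fun e => a e.1 + a e.2)
  simp only [sq_abs, sub_sq, add_sq, sum_add_distrib, sum_sub_distrib, mul_assoc,
    ← mul_sum, hx2, hy2, hQe] at hcs
  have hF0 : 0 ≤ F := sum_nonneg fun x _ => sq_nonneg _
  have hQ0 : 0 ≤ Q := sum_nonneg fun x _ => sum_nonneg fun y _ => mul_nonneg (abs_nonneg _) (abs_nonneg _)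
  have hsq : (2 * h * F) ^ 2 ≤ (2 * (D : ℝ) * F - 2 * Q) * (2 * D * F + 2 * Q) := by
    refine (pow_le_pow_left₀ (by positivity) hco 2).trans (hcs.trans_eq ?_)
    ring
  have : Q ^ 2 ≤ (l * F) ^ 2 := by nlinarith [mul_le_mul_of_nonneg_right hl2 (sq_nonneg F)]
  exact (abs_le_of_sq_le_sq' this (by positivity)).2

include hiso hD in
lemma form_bilin_le {Λ : Finset W} (a b : W → ℝ) (ha : ∀ x, x ∉ Λ → a x = 0)
    (hb : ∀ x, x ∉ Λ → b x = 0) {l : ℝ} (hl : 0 ≤ l)
    (hl2 : (D : ℝ) ^ 2 - h ^ 2 ≤ l ^ 2) (hh : 0 ≤ h) :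
    2 * form H Λ a b ≤ l * (∑ x ∈ Λ, a x ^ 2 + ∑ x ∈ Λ, b x ^ 2) := by
  classical
  have hsym : form H Λ b a = form H Λ a b := by
    rw [form, sum_swap (fun x y => b x * a y) (fun x y hy => by simp [ha y hy]), form,
      sum_hull (fun x => ∑ y ∈ H.neighborFinset x, a x * b y) (fun x hx => by simp [ha x hx])]
    exact sum_congr rfl fun x _ => sum_congr rfl fun y _ => mul_comm _ _
  have h1 := (abs_le.1 (form_le hiso hD (Λ := Λ) (fun x => a x + b x)
    (fun x hx => by simp [ha x hx, hb x hx]) hl hl2 hh)).2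
  have h2 := (abs_le.1 (form_le hiso hD (Λ := Λ) (fun x => a x - b x)
    (fun x hx => by simp [ha x hx, hb x hx]) hl hl2 hh)).1
  have e1 : form H Λ (fun x => a x + b x) (fun x => a x + b x)
      = form H Λ a a + form H Λ a b + form H Λ b a + form H Λ b b := by
    simp only [form, ← sum_add_distrib]
    exact sum_congr rfl fun x _ => sum_congr rfl fun y _ => by ring
  have e2 : form H Λ (fun x => a x - b x) (fun x => a x - b x)
      = form H Λ a a - form H Λ a b - form H Λ b a + form H Λ b b := by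
    simp only [form, ← sum_add_distrib, ← sum_sub_distrib]
    exact sum_congr rfl fun x _ => sum_congr rfl fun y _ => by ring
  simp only [add_sq, sub_sq, sum_add_distrib, sum_sub_distrib] at h1 h2
  rw [e1] at h1
  rw [e2] at h2
  nlinarith

/-- The number of walks of length `n`. -/
noncomputable def walkNum (H : SimpleGraph W) [H.LocallyFinite] (n : ℕ) (x y : W) : ℝ :=
  (H.finsetWalkLength n x y).card

lemma walkNum_zero (x y : W) : walkNum H 0 x y = if x = y then 1 else 0 := by
  by_cases h : x = y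
  · subst h; simp [walkNum, SimpleGraph.finsetWalkLength]
  · simp [walkNum, SimpleGraph.finsetWalkLength, h]

lemma walkNum_succ (n : ℕ) (x y : W) :
    walkNum H (n + 1) x y = ∑ z ∈ H.neighborFinset x, walkNum H n z y := by
  rw [walkNum, SimpleGraph.finsetWalkLength, card_biUnion, Nat.cast_sum]
  · simp only [card_map]
    exact (sum_subtype (H.neighborFinset x) (fun z => SimpleGraph.mem_neighborFinset _ _ _)
      (fun z => (((H.finsetWalkLength n z y).card : ℕ) : ℝ))).symm
  · intro z _ z' _ hne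
    refine disjoint_left.2 fun p hp hp' => hne ?_
    simp only [mem_map, Function.Embedding.coeFn_mk] at hp hp'
    obtain ⟨q, -, rfl⟩ := hp
    obtain ⟨q', -, e⟩ := hp'
    exact Subtype.ext (SimpleGraph.Walk.cons.inj e).1.symm

/-- A finite set containing the starting points of the walks of length at most `n` to `y`. -/
noncomputable def ball (H : SimpleGraph W) [H.LocallyFinite] (y : W) : ℕ → Finset W
  | 0 => {y}
  | n + 1 => hull H (ball H y n)

lemma walkNum_supp (n : ℕ) (x y : W) (h : x ∉ ball H y n) : walkNum H n x y = 0 := by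
  induction n generalizing x with
  | zero =>
    simp only [ball, mem_singleton] at h
    simp [walkNum_zero, h]
  | succ n ih =>
    rw [walkNum_succ]
    refine sum_eq_zero fun z hz => ih z fun hz' => h ?_
    simp only [ball, hull, mem_union, mem_biUnion, SimpleGraph.mem_neighborFinset] at hz hz' ⊢
    exact Or.inr ⟨z, hz', hz.symm⟩

include hiso hD in
/-- At most `l ^ n` walks of length `n` join two given vertices. -/
theorem walkNum_le {l : ℝ} (hl : 0 < l) (hl2 : (D : ℝ) ^ 2 - h ^ 2 ≤ l ^ 2) (hh : 0 ≤ h)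
    (n : ℕ) (x y : W) : walkNum H n x y ≤ l ^ n := by
  classical
  have key : ∀ n, ∑ z ∈ ball H y n, walkNum H n z y ^ 2 ≤ (l ^ n) ^ 2 := by
    intro n
    induction n with
    | zero => simp [ball, walkNum_zero]
    | succ n ih =>
      set Λ := ball H y (n + 1) with hΛ
      set f : W → ℝ := fun z => walkNum H n z y with hf
      set f' : W → ℝ := fun z => walkNum H (n + 1) z y with hf'
      have hsub : ball H y n ⊆ Λ := subset_union_left
      have hfs : ∀ z, z ∉ Λ → f z = 0 := fun z hz => walkNum_supp n z y fun h => hz (hsub h)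
      have hfs' : ∀ z, z ∉ Λ → f' z = 0 := fun z hz => walkNum_supp (n + 1) z y hz
      have hF : ∑ z ∈ Λ, f z ^ 2 = ∑ z ∈ ball H y n, f z ^ 2 :=
        (sum_subset hsub fun z _ hz => by simp [hf, walkNum_supp n z y hz]).symm
      have hform : form H Λ f' (fun z => l * f z) = l * ∑ z ∈ Λ, f' z ^ 2 := by
        have : ∀ z, ∑ w ∈ H.neighborFinset z, f' z * (l * f w) = l * f' z ^ 2 := fun z => by
          simp only [hf', hf, walkNum_succ n z y, sq, sum_mul, mul_sum]
          exact sum_congr rfl fun w _ => sum_congr rfl fun v _ => by ring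
        simp only [form, this]
        rw [sum_hull (fun z => l * f' z ^ 2) (fun z hz => by simp [hfs' z hz]), mul_sum]
      have h1 := form_bilin_le hiso hD (Λ := Λ) f' (fun z => l * f z) hfs'
        (fun z hz => by simp [hfs z hz]) hl.le hl2 hh
      rw [hform] at h1
      simp only [mul_pow, ← mul_sum, hF] at h1
      have h2 : ∑ z ∈ Λ, f' z ^ 2 ≤ l ^ 2 * ∑ z ∈ ball H y n, f z ^ 2 :=
        le_of_mul_le_mul_left (by linarith) hl
      calc ∑ z ∈ Λ, f' z ^ 2 ≤ l ^ 2 * ∑ z ∈ ball H y n, f z ^ 2 := h2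
        _ ≤ l ^ 2 * (l ^ n) ^ 2 := mul_le_mul_of_nonneg_left ih (sq_nonneg l)
        _ = (l ^ (n + 1)) ^ 2 := by ring
  by_cases hx : x ∈ ball H y n
  · have h2 : walkNum H n x y ^ 2 ≤ (l ^ n) ^ 2 :=
      (single_le_sum (f := fun z => walkNum H n z y ^ 2) (fun z _ => sq_nonneg _) hx).trans (key n)
    exact (abs_le_of_sq_le_sq' h2 (by positivity)).2
  · rw [walkNum_supp n x y hx]; positivity

end

end Vale.Agent.P165
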