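import Vale.Agent.P165.Sharp

/-!
The van den Berg–Kesten inequality for increasing events under finite product Bernoulli weights,
the Harris inequality, and their consequences for connection events.
-/

open Finset

namespace Vale.Agent.P165

section General

variable {α : Type*} [DecidableEq α]

/-- An event stays true when edges are added. -/
def Incr (A : Finset α → Prop) : Prop := ∀ S T, S ⊆ T → A S → A T

/-- `A` and `B` occur on disjoint parts of the configuration. -/
def Box (A B : Finset α → Prop) (S : Finset α) : Prop :=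
  ∃ T₁ T₂, T₁ ⊆ S ∧ T₂ ⊆ S ∧ Disjoint T₁ T₂ ∧ A T₁ ∧ B T₂

lemma incr_box (A B : Finset α → Prop) : Incr (Box A B) :=
  fun _ _ h ⟨T₁, T₂, h1, h2, hd, hA, hB⟩ => ⟨T₁, T₂, h1.trans h, h2.trans h, hd, hA, hB⟩

lemma Box.mono {A A' B B' : Finset α → Prop} (hA : ∀ S, A S → A' S) (hB : ∀ S, B S → B' S)
    {S : Finset α} : Box A B S → Box A' B' S :=
  fun ⟨T₁, T₂, h1, h2, hd, a, b⟩ => ⟨T₁, T₂, h1, h2, hd, hA _ a, hB _ b⟩

lemma Incr.insertion {A : Finset α → Prop} (hA : Incr A) (a : α) :
    Incr fun S => A (insert a S) :=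
  fun _ _ h => hA _ _ (insert_subset_insert a h)

lemma Box.of_insert {A B : Finset α → Prop} (hA : Incr A) (hB : Incr B) {a : α} {S : Finset α}
    (h : Box A B (insert a S)) :
    Box (fun T => A (insert a T)) B S ∨ Box A (fun T => B (insert a T)) S := by
  obtain ⟨T₁, T₂, h1, h2, hd, hTA, hTB⟩ := h
  have e : ∀ T, T ⊆ insert a S → T.erase a ⊆ S := fun T hT x hx =>
    (mem_insert.1 (hT (mem_of_mem_erase hx))).resolve_left (ne_of_mem_erase hx)
  have i : ∀ T : Finset α, T ⊆ insert a (T.erase a) := fun T => by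
    exact Finset.subset_insert_iff.2 (Finset.Subset.refl _)
  have hd' : Disjoint (T₁.erase a) (T₂.erase a) :=
    hd.mono (erase_subset _ _) (erase_subset _ _)
  by_cases ha : a ∈ T₁
  · have hb : a ∉ T₂ := Finset.disjoint_left.1 hd ha
    exact Or.inl ⟨_, _, e T₁ h1, e T₂ h2, hd', hA _ _ (i T₁) hTA,
      by rw [erase_eq_of_notMem hb]; exact hTB⟩
  · exact Or.inr ⟨_, _, e T₁ h1, e T₂ h2, hd',
      by rw [erase_eq_of_notMem ha]; exact hTA, hB _ _ (i T₂) hTB⟩

lemma pr_or_and (p : ℝ) (U : Finset α) (P Q : Finset α → Prop) :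
    pr p U (fun S => P S ∨ Q S) + pr p U (fun S => P S ∧ Q S) = pr p U P + pr p U Q := by
  classical
  simp only [pr, Finset.sum_filter, ← Finset.sum_add_distrib]
  refine Finset.sum_congr rfl fun S _ => ?_
  by_cases hP : P S <;> by_cases hQ : Q S <;> simp [hP, hQ]

lemma pr_empty (p : ℝ) (Q : Finset α → Prop) [Decidable (Q ∅)] :
    pr p ∅ Q = if Q ∅ then 1 else 0 := by
  classical
  rw [pr, Finset.powerset_empty, Finset.sum_filter, Finset.sum_singleton]
  simp [wt]

/-- The van den Berg–Kesten inequality. -/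
theorem pr_box_le {p : ℝ} (h0 : 0 ≤ p) (h1 : p ≤ 1) (U : Finset α) {A B : Finset α → Prop}
    (hA : Incr A) (hB : Incr B) : pr p U (Box A B) ≤ pr p U A * pr p U B := by
  classical
  induction U using Finset.induction_on generalizing A B with
  | empty =>
    rw [pr_empty, pr_empty, pr_empty]
    by_cases h : Box A B ∅
    · obtain ⟨T₁, T₂, h1, h2, -, a, b⟩ := h
      rw [if_pos ⟨T₁, T₂, h1, h2, by simp [subset_empty.1 h1], a, b⟩, if_pos (hA _ _ h1 a),
        if_pos (hB _ _ h2 b), one_mul]
    · rw [if_neg h]; split_ifs <;> norm_num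
  | insert a U ha ih =>
    rw [pr_insert p ha, pr_insert p ha, pr_insert p ha]
    have hA1 := hA.insertion a
    have hB1 := hB.insertion a
    have u00 : pr p U (Box A B) ≤ pr p U A * pr p U B := ih hA hB
    have u10 := ih hA1 hB
    have u01 := ih hA hB1
    have u11 := ih hA1 hB1
    have hU : pr p U (fun S => Box A B (insert a S))
        ≤ pr p U (fun S => A (insert a S)) * pr p U (fun S => B (insert a S)) := by
      refine le_trans (pr_mono h0 h1 fun S _ h => ?_) u11
      rcases Box.of_insert hA hB h with h | h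
      · exact h.mono (fun _ => id) fun T hT => hB _ _ (subset_insert a T) hT
      · exact h.mono (fun T hT => hA _ _ (subset_insert a T) hT) fun _ => id
    have hS : pr p U (fun S => Box A B (insert a S)) + pr p U (Box A B)
        ≤ pr p U (fun S => A (insert a S)) * pr p U B
          + pr p U A * pr p U (fun S => B (insert a S)) := by
      refine le_trans ?_ (add_le_add u10 u01)
      rw [← pr_or_and p U (Box (fun T => A (insert a T)) B) (Box A fun T => B (insert a T))]
      refine add_le_add (pr_mono h0 h1 fun S _ h => Box.of_insert hA hB h)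
        (pr_mono h0 h1 fun S _ h => ⟨?_, ?_⟩)
      · exact h.mono (fun T hT => hA _ _ (subset_insert a T) hT) fun _ => id
      · exact h.mono (fun _ => id) fun T hT => hB _ _ (subset_insert a T) hT
    have ma : pr p U A ≤ pr p U (fun S => A (insert a S)) :=
      pr_mono h0 h1 fun S _ h => hA _ _ (subset_insert a S) h
    have mb : pr p U B ≤ pr p U (fun S => B (insert a S)) :=
      pr_mono h0 h1 fun S _ h => hB _ _ (subset_insert a S) h
    rcases le_total (1 / 2) p with hp | hp
    · nlinarith [mul_le_mul_of_nonneg_left hU (show (0 : ℝ) ≤ 2 * p - 1 by linarith),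
        mul_le_mul_of_nonneg_left hS (sub_nonneg.2 h1),
        mul_nonneg (sq_nonneg (1 - p)) (mul_nonneg (sub_nonneg.2 ma) (sub_nonneg.2 mb))]
    · nlinarith [mul_le_mul_of_nonneg_left u00 (show (0 : ℝ) ≤ 1 - 2 * p by linarith),
        mul_le_mul_of_nonneg_left hS h0,
        mul_nonneg (sq_nonneg p) (mul_nonneg (sub_nonneg.2 ma) (sub_nonneg.2 mb))]

/-- The Harris inequality. -/
theorem pr_and_ge {p : ℝ} (h0 : 0 ≤ p) (h1 : p ≤ 1) (U : Finset α) {A B : Finset α → Prop}
    (hA : Incr A) (hB : Incr B) : pr p U A * pr p U B ≤ pr p U (fun S => A S ∧ B S) := by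
  classical
  induction U using Finset.induction_on generalizing A B with
  | empty =>
    rw [pr_empty, pr_empty, pr_empty]
    by_cases a : A ∅ <;> by_cases b : B ∅ <;> simp [a, b]
  | insert a U ha ih =>
    rw [pr_insert p ha, pr_insert p ha, pr_insert p ha]
    have i0 := ih hA hB
    have i1 := ih (hA.insertion a) (hB.insertion a)
    have ma : pr p U A ≤ pr p U (fun S => A (insert a S)) :=
      pr_mono h0 h1 fun S _ h => hA _ _ (subset_insert a S) h
    have mb : pr p U B ≤ pr p U (fun S => B (insert a S)) :=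
      pr_mono h0 h1 fun S _ h => hB _ _ (subset_insert a S) h
    nlinarith [mul_le_mul_of_nonneg_left i0 (sub_nonneg.2 h1), mul_le_mul_of_nonneg_left i1 h0,
      mul_nonneg (mul_nonneg h0 (sub_nonneg.2 h1)) (mul_nonneg (sub_nonneg.2 ma) (sub_nonneg.2 mb))]

/-- Insertion tolerance: an event implied by another after opening the coordinates of `F`. -/
theorem pr_insertion {p : ℝ} (h0 : 0 ≤ p) (h1 : p ≤ 1) {U F : Finset α} (hF : F ⊆ U)
    {A B : Finset α → Prop} (hA : Incr A) (h : ∀ S, S ⊆ U → A S → F ⊆ S → B S) :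
    p ^ F.card * pr p U A ≤ pr p U B := by
  have hO : Incr fun S : Finset α => F ⊆ S := fun _ _ hST hS => hS.trans hST
  have := pr_and_ge h0 h1 U hO hA
  rw [pr_all_open p hF] at this
  exact this.trans (pr_mono h0 h1 fun S hS ⟨a, b⟩ => h S hS b a)

/-- Insertion tolerance for an arbitrary event. -/
theorem pr_insertion_any {p : ℝ} (h0 : 0 ≤ p) (h1 : p ≤ 1) {U F : Finset α} (hF : F ⊆ U)
    {A B : Finset α → Prop} (h : ∀ S, S ⊆ U → A S → B (S ∪ F)) :
    p ^ F.card * pr p U A ≤ pr p U B := by
  classical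
  set E : Finset α → Prop := fun T => ∃ R, R ⊆ F ∧ A (T ∪ R)
  have hle : pr p U A ≤ pr p U fun S => E (S ∩ (U \ F)) := by
    refine pr_mono h0 h1 fun S hS hAS => ⟨S ∩ F, inter_subset_right, ?_⟩
    rwa [← inter_union_distrib_left, sdiff_union_of_subset hF, inter_eq_left.2 hS]
  have hsp := pr_split p (disjoint_sdiff (s := F) (t := U)) (fun T => F ⊆ T) E
  rw [union_sdiff_of_subset hF, pr_all_open p (Finset.Subset.refl F)] at hsp
  rw [pr_marginal p sdiff_subset E] at hle
  refine (mul_le_mul_of_nonneg_left hle (pow_nonneg h0 _)).trans ?_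
  rw [← hsp]
  refine pr_mono h0 h1 fun S hS ⟨hFS, R, hR, hAR⟩ => ?_
  have hR' : R ⊆ S := hR.trans (hFS.trans inter_subset_left)
  have := h _ (union_subset (inter_subset_left.trans hS) (hR'.trans hS)) hAR
  convert this using 1
  ext x
  have h2 := @hFS x
  have h3 := @hS x
  have h4 := @hR x
  simp only [mem_union, mem_inter, mem_sdiff] at h2 h3 h4 ⊢
  tauto

end General

section Connections

variable {W : Type*} [DecidableEq W]

/-- `y` is connected to `x` by open edges. -/
abbrev conn (x y : W) (S : Finset (Sym2 W)) : Prop := y ∈ cl {x} S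

lemma incr_conn (x y : W) : Incr (conn x y) := fun _ _ h hS => cl_mono subset_rfl h hS

omit [DecidableEq W] in
lemma mem_cl_of_walk {S T : Finset (Sym2 W)} {x y : W}
    (q : (SimpleGraph.fromEdgeSet (S : Set (Sym2 W))).Walk x y)
    (h : ∀ e ∈ q.edges, e ∈ T) : y ∈ cl {x} T :=
  ⟨x, rfl, ⟨q.transfer _ fun e he => by
    have := q.edges_subset_edgeSet he
    rw [SimpleGraph.edgeSet_fromEdgeSet] at this ⊢
    exact ⟨h e he, this.2⟩⟩⟩

/-- The first visit of a walk to a set of vertices. -/
lemma exists_first_hit {S : Finset (Sym2 W)} (P : List W) {z y : W}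
    (r : (SimpleGraph.fromEdgeSet (S : Set (Sym2 W))).Walk z y) (hy : y ∈ P) :
    ∃ w ∈ P, ∃ q : (SimpleGraph.fromEdgeSet (S : Set (Sym2 W))).Walk z w,
      ∀ a b, s(a, b) ∈ q.edges → a ∉ P ∨ b ∉ P := by
  induction r with
  | nil => exact ⟨_, hy, SimpleGraph.Walk.nil, by simp⟩
  | @cons u v t huv r ih =>
    by_cases hu : u ∈ P
    · exact ⟨u, hu, SimpleGraph.Walk.nil, by simp⟩
    · obtain ⟨w, hw, q, hq⟩ := ih hy
      refine ⟨w, hw, SimpleGraph.Walk.cons huv q, fun a b hab => ?_⟩
      rw [SimpleGraph.Walk.edges_cons, List.mem_cons] at hab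
      rcases hab with hab | hab
      · rcases Sym2.eq_iff.1 hab with ⟨rfl, rfl⟩ | ⟨rfl, rfl⟩
        · exact Or.inl hu
        · exact Or.inr hu
      · exact hq a b hab

/-- Three connected points meet at a vertex with three disjoint connections. -/
lemma exists_branch {S : Finset (Sym2 W)} {x y z : W} (hy : conn x y S) (hz : conn x z S) :
    ∃ w, w ∈ cl {x} S ∧ Box (conn x w) (Box (conn w y) (conn w z)) S := by
  obtain ⟨r₀⟩ := mem_cl_single.1 hy
  set π := r₀.bypass with hπdef
  have hπ : π.IsPath := r₀.bypass_isPath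
  obtain ⟨r⟩ := (mem_cl_single.1 hz).symm.trans ⟨π⟩
  obtain ⟨w, hw, q, hq⟩ := exists_first_hit π.support r π.end_mem_support
  set π₁ := π.takeUntil w hw
  set π₂ := π.dropUntil w hw
  have hspec : π.edges = π₁.edges ++ π₂.edges := by
    conv_lhs => rw [← π.take_spec hw]
    exact SimpleGraph.Walk.edges_append _ _
  have hnd := hπ.isTrail.edges_nodup
  rw [hspec] at hnd
  have hd12 := (List.nodup_append.1 hnd).2.2
  have hqd : ∀ e ∈ π.edges, e ∉ q.edges := by
    intro e he heq
    induction e with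
    | h a b =>
      rcases hq a b heq with h | h
      · exact h (π.fst_mem_support_of_mem_edges he)
      · exact h (π.snd_mem_support_of_mem_edges he)
  have sub : ∀ {a b : W} (t : (SimpleGraph.fromEdgeSet (S : Set (Sym2 W))).Walk a b),
      t.edges.toFinset ⊆ S := fun t e he => by
    have := t.edges_subset_edgeSet (List.mem_toFinset.1 he)
    rw [SimpleGraph.edgeSet_fromEdgeSet] at this
    exact this.1
  refine ⟨w, mem_cl_single.2 ⟨π₁⟩, π₁.edges.toFinset, π₂.edges.toFinset ∪ q.edges.toFinset,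
    sub π₁, union_subset (sub π₂) (sub q), ?_,
    mem_cl_of_walk π₁ fun e he => List.mem_toFinset.2 he,
    π₂.edges.toFinset, q.edges.toFinset, subset_union_left, subset_union_right, ?_,
    mem_cl_of_walk π₂ fun e he => List.mem_toFinset.2 he,
    mem_cl_of_walk q.reverse fun e he => List.mem_toFinset.2 (by simpa using he)⟩
  · rw [Finset.disjoint_union_right]
    refine ⟨?_, ?_⟩ <;> rw [Finset.disjoint_left] <;> intro e he he' <;>
      simp only [List.mem_toFinset] at he he'
    · exact hd12 e he e he' rfl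
    · exact hqd e (hspec ▸ List.mem_append_left _ he) he'
  · rw [Finset.disjoint_left]
    intro e he he'
    simp only [List.mem_toFinset] at he he'
    exact hqd e (hspec ▸ List.mem_append_right _ he) he'

/-- Two disjoint connections. -/
theorem pr_conn_box_le {p : ℝ} (h0 : 0 ≤ p) (h1 : p ≤ 1) (U : Finset (Sym2 W)) (a b c d : W) :
    pr p U (Box (conn a b) (conn c d)) ≤ pr p U (conn a b) * pr p U (conn c d) :=
  pr_box_le h0 h1 U (incr_conn a b) (incr_conn c d)

/-- The tree-graph bound for three points. -/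
theorem pr_three_le {p : ℝ} (h0 : 0 ≤ p) (h1 : p ≤ 1) (U : Finset (Sym2 W)) (Λ : Finset W)
    (x y z : W) (hΛ : ∀ w, w ∈ cl {x} U → w ∈ Λ) :
    pr p U (fun S => conn x y S ∧ conn x z S)
      ≤ ∑ w ∈ Λ, pr p U (conn x w) * pr p U (conn w y) * pr p U (conn w z) := by
  refine (pr_le_sum h0 h1 Λ (fun w => Box (conn x w) (Box (conn w y) (conn w z))) ?_).trans
    (sum_le_sum fun w _ => ?_)
  · intro S hS h
    obtain ⟨w, hw, hb⟩ := exists_branch h.1 h.2
    exact ⟨w, hΛ w (cl_mono subset_rfl hS hw), hb⟩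
  · refine (pr_box_le h0 h1 U (incr_conn x w) (incr_box _ _)).trans ?_
    rw [mul_assoc]
    exact mul_le_mul_of_nonneg_left (pr_conn_box_le h0 h1 U w y w z) (pr_nonneg h0 h1 U _)

end Connections

end Vale.Agent.P165
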