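import Mathlib

/-!
Bond percolation on a simple graph, its two thresholds, and box powers of a graph.
-/

open MeasureTheory ProbabilityTheory
open scoped unitInterval

namespace Vale.Agent.P165

variable {V : Type*}

/-- The open subgraph of a configuration `ω`, a set of unordered pairs. -/
def openGraph (G : SimpleGraph V) (ω : Set (Sym2 V)) : SimpleGraph V :=
  G ⊓ SimpleGraph.fromEdgeSet ω

/-- Bernoulli bond percolation: every edge of `G` lies in the random set independently with
probability `p`, and no other pair does. -/
noncomputable def bondMeasure (G : SimpleGraph V) (p : I) : Measure (Set (Sym2 V)) :=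
  setBernoulli G.edgeSet p

/-- The infimum of the parameters at which an infinite open cluster has positive probability. -/
noncomputable def pc (G : SimpleGraph V) : ℝ :=
  sInf {t : ℝ | ∃ p : I, (p : ℝ) = t ∧
    0 < bondMeasure G p {ω | ∃ C : (openGraph G ω).ConnectedComponent, C.supp.Infinite}}

/-- The infimum of the parameters at which there is almost surely exactly one infinite open
cluster. -/
noncomputable def pu (G : SimpleGraph V) : ℝ :=
  sInf {t : ℝ | ∃ p : I, (p : ℝ) = t ∧
    bondMeasure G p {ω | ∃! C : (openGraph G ω).ConnectedComponent, C.supp.Infinite} = 1}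

/-- The automorphism group has finitely many orbits on the vertices. -/
def QuasiTransitive (G : SimpleGraph V) : Prop :=
  ∃ F : Set V, F.Finite ∧ ∀ v : V, ∃ φ : G ≃g G, φ v ∈ F

/-- The vertices outside `A` with a neighbour in `A`. -/
def outerBoundary (G : SimpleGraph V) (A : Set V) : Set V :=
  {w | w ∉ A ∧ ∃ v ∈ A, G.Adj v w}

/-- The vertex isoperimetric constant is at least `h`. -/
def IsoAtLeast (G : SimpleGraph V) (h : ℝ) : Prop :=
  ∀ A : Set V, A.Finite → A.Nonempty → h * (A.ncard : ℝ) ≤ ((outerBoundary G A).ncard : ℝ)

/-- The vertex isoperimetric constant is positive. -/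
def Nonamenable (G : SimpleGraph V) : Prop :=
  ∃ h : ℝ, 0 < h ∧ IsoAtLeast G h

/-- Every vertex has exactly `d` neighbours. -/
def Regular (G : SimpleGraph V) (d : ℕ) : Prop :=
  ∀ v, (G.neighborSet v).Finite ∧ (G.neighborSet v).ncard = d

/-- The box product of finitely many graphs: two tuples are adjacent when they differ in exactly one
coordinate and are adjacent there. -/
def boxProduct {k : ℕ} {U : Fin k → Type*} (G : ∀ i, SimpleGraph (U i)) :
    SimpleGraph (∀ i, U i) where
  Adj x y := ∃ i, (G i).Adj (x i) (y i) ∧ ∀ j, j ≠ i → x j = y j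
  symm := ⟨fun _ _ ⟨i, h, e⟩ => ⟨i, h.symm, fun j hj => (e j hj).symm⟩⟩
  loopless := ⟨fun _ ⟨_, h, _⟩ => h.ne rfl⟩

end Vale.Agent.P165
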