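import Vale.Agent.P165.SharpCor

/-!
Decay of connection probabilities along an orbit rules out uniqueness: the bridge from such decay
just above the threshold to the nonuniqueness phase.
-/

open MeasureTheory ProbabilityTheory Finset
open scoped unitInterval ENNReal

namespace Vale.Agent.P165

variable {W : Type*} [DecidableEq W] {H : SimpleGraph W} [H.LocallyFinite]

/-- The automorphic images of every vertex can be made hard to reach from any finite set, at
parameter `p`, uniformly in finite edge sets. -/
def ConnDecay (H : SimpleGraph W) (p : ℝ) : Prop :=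
  ∀ (P : Finset W) (x : W) (η : ℝ), 0 < η → ∃ φ : H ≃g H, φ x ∉ P ∧
    ∀ a ∈ P, ∀ U : Finset (Sym2 W), ↑U ⊆ H.edgeSet → pr p U (fun T => φ x ∈ cl {a} T) ≤ η

lemma ConnDecay.mono {p q : ℝ} (h : ConnDecay H q) (h0 : 0 ≤ p) (hpq : p ≤ q) (h1 : q ≤ 1) :
    ConnDecay H p := fun P x η hη => by
  obtain ⟨φ, hφ, hd⟩ := h P x η hη
  refine ⟨φ, hφ, fun a ha U hU => le_trans ?_ (hd a ha U hU)⟩
  exact pr_monotoneOn U (fun S T hST h => cl_mono subset_rfl hST h) ⟨h0, hpq.trans h1⟩
    ⟨h0.trans hpq, h1⟩ hpq

/-- Connection decay along orbits rules out almost sure uniqueness. -/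
theorem not_unique_of_decay (hH : H.Connected) (p : I) (hdec : ConnDecay H p) :
    bondMeasure H p
      {ω | ∃! C : (openGraph H ω).ConnectedComponent, C.supp.Infinite} ≠ 1 := by
  classical
  haveI := countable_of_connected hH
  haveI : IsProbabilityMeasure (bondMeasure H p) := by unfold bondMeasure; infer_instance
  intro hone
  set μ := bondMeasure H p
  set Un := {ω : Set (Sym2 W) | ∃! C : (openGraph H ω).ConnectedComponent, C.supp.Infinite}
  have hsupp : ∀ (ω : Set (Sym2 W)) (z : W), ((openGraph H ω).connectedComponentMk z).supp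
      = {y | (openGraph H ω).Reachable z y} := fun ω z => Set.ext fun y =>
    ⟨fun h => (SimpleGraph.ConnectedComponent.exact h).symm,
      fun h => SimpleGraph.ConnectedComponent.sound h.symm⟩
  obtain ⟨x, hx⟩ : ∃ x, 0 < μ (infAt H x) := by
    by_contra h
    push Not at h
    have hz : μ (⋃ x, infAt H x) = 0 :=
      measure_iUnion_null fun x => nonpos_iff_eq_zero.1 (h x)
    have hsub : Un ⊆ ⋃ x, infAt H x := by
      rintro ω ⟨C, hC, -⟩
      induction C using SimpleGraph.ConnectedComponent.ind with
      | h z => exact Set.mem_iUnion.2 ⟨z, by simpa [infAt, hsupp] using hC⟩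
    have := measure_mono (μ := μ) hsub
    rw [hone, hz] at this
    simp at this
  set θ := (μ (infAt H x)).toReal
  have hθ : 0 < θ := ENNReal.toReal_pos hx.ne' (measure_ne_top _ _)
  obtain ⟨N, hN⟩ := exists_nat_gt (2 / θ)
  have hN0 : (0 : ℝ) < N := lt_trans (div_pos two_pos hθ) hN
  set η := 1 / (2 * (N : ℝ) * N) with hη
  have hη0 : 0 < η := by positivity
  have hfar : ∀ n : ℕ, ∃ P : Finset W, P.card = n ∧ (∀ a ∈ P, ∃ φ : H ≃g H, φ x = a) ∧
      ∀ a ∈ P, ∀ b ∈ P, a ≠ b → μ.real {ω | (openGraph H ω).Reachable a b} ≤ η := by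
    intro n
    induction n with
    | zero => exact ⟨∅, rfl, by simp, by simp⟩
    | succ n ih =>
      obtain ⟨P, hP, hPO, hPf⟩ := ih
      obtain ⟨φ, hz, hd⟩ := hdec P x η hη0
      have hd' : ∀ a ∈ P, μ.real {ω | (openGraph H ω).Reachable a (φ x)} ≤ η := fun a ha => by
        simpa using sum_reach_le_of_pr hH p a {φ x}
          (fun U hU => by simpa using hd a ha U hU)
      refine ⟨insert (φ x) P, by rw [card_insert_of_notMem hz, hP], fun a ha => ?_, ?_⟩
      · rcases mem_insert.1 ha with rfl | h
        · exact ⟨φ, rfl⟩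
        · exact hPO a h
      intro a ha b hb hab
      rcases mem_insert.1 ha with rfl | ha' <;> rcases mem_insert.1 hb with rfl | hb'
      · exact absurd rfl hab
      · refine le_trans (le_of_eq ?_) (hd' b hb')
        congr 1
        exact Set.ext fun ω => ⟨fun h => h.symm, fun h => h.symm⟩
      · exact hd' a ha'
      · exact hPf a ha' b hb' hab
  obtain ⟨P, hPc, hPO, hPf⟩ := hfar N
  have hUmeas : MeasurableSet Un := by
    have : Un = (⋃ z, infAt H z) ∩ ⋂ a, ⋂ b,
        ((infAt H a)ᶜ ∪ (infAt H b)ᶜ ∪ {ω | (openGraph H ω).Reachable a b}) := by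
      ext ω
      simp only [Un, Set.mem_ofPred_eq, Set.mem_inter_iff, Set.mem_iUnion, Set.mem_iInter,
        Set.mem_union, Set.mem_compl_iff]
      constructor
      · rintro ⟨C, hC, hu⟩
        refine ⟨?_, fun a b => ?_⟩
        · induction C using SimpleGraph.ConnectedComponent.ind with
          | h z => exact ⟨z, by simpa [infAt, hsupp] using hC⟩
        · by_cases h1 : ω ∈ infAt H a
          · by_cases h2 : ω ∈ infAt H b
            · exact Or.inr (SimpleGraph.ConnectedComponent.exact
                ((hu _ (by simpa [infAt, hsupp] using h1)).trans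
                  (hu _ (by simpa [infAt, hsupp] using h2)).symm))
            · exact Or.inl (Or.inr h2)
          · exact Or.inl (Or.inl h1)
      · rintro ⟨⟨z, hz⟩, hall⟩
        refine ⟨(openGraph H ω).connectedComponentMk z, by simpa [infAt, hsupp] using hz, ?_⟩
        intro C
        induction C using SimpleGraph.ConnectedComponent.ind with
        | h b =>
          intro hb
          rcases hall b z with (h | h) | h
          · exact absurd (by simpa [infAt, hsupp] using hb) h
          · exact absurd hz h
          · exact SimpleGraph.ConnectedComponent.sound h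
    rw [this]
    exact (MeasurableSet.iUnion fun z => measurableSet_infAt z).inter
      (.iInter fun a => .iInter fun b =>
        ((measurableSet_infAt a).compl.union (measurableSet_infAt b).compl).union
          (measurableSet_reach a b))
  have hcompl : μ Unᶜ = 0 := (prob_compl_eq_zero_iff hUmeas).2 hone
  set Y : W → Set (Set (Sym2 W)) := fun a =>
    (infAt H a ∩ Un) \ ⋃ b ∈ P.erase a, infAt H b
  have hYmeas : ∀ a, MeasurableSet (Y a) := fun a =>
    ((measurableSet_infAt a).inter hUmeas).diff
      (Finset.measurableSet_biUnion _ fun b _ => measurableSet_infAt b)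
  have hY : ∀ a ∈ P, θ - N * η ≤ μ.real (Y a) := by
    intro a ha
    have hsub : infAt H a ⊆ Y a ∪ Unᶜ ∪ ⋃ b ∈ P.erase a, {ω | (openGraph H ω).Reachable a b} := by
      intro ω hω
      by_cases hu : ω ∈ Un
      · by_cases h : ω ∈ ⋃ b ∈ P.erase a, infAt H b
        · obtain ⟨b, hb, hωb⟩ := Set.mem_iUnion₂.1 h
          obtain ⟨C, -, huniq⟩ := hu
          refine Or.inr (Set.mem_iUnion₂.2 ⟨b, hb, SimpleGraph.ConnectedComponent.exact
            ((huniq ((openGraph H ω).connectedComponentMk a) (by simpa [infAt, hsupp] using hω)).trans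
            (huniq ((openGraph H ω).connectedComponentMk b)
              (by simpa [infAt, hsupp] using hωb)).symm)⟩)
        · exact Or.inl (Or.inl ⟨⟨hω, hu⟩, h⟩)
      · exact Or.inl (Or.inr hu)
    have hθa : θ = μ.real (infAt H a) := by
      obtain ⟨φ, rfl⟩ := hPO a ha
      rw [measureReal_def, infAt_iso]
    have h1 : μ.real (infAt H a) ≤ μ.real (Y a) + μ.real Unᶜ
        + ∑ b ∈ P.erase a, μ.real {ω | (openGraph H ω).Reachable a b} :=
      ((measureReal_mono hsub).trans (measureReal_union_le _ _)).trans
        (add_le_add (measureReal_union_le _ _) (measureReal_biUnion_finset_le _ _))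
    have h2 : ∑ b ∈ P.erase a, μ.real {ω | (openGraph H ω).Reachable a b} ≤ N * η := by
      refine (sum_le_card_nsmul _ _ η fun b hb => hPf a ha b (mem_of_mem_erase hb)
        (ne_of_mem_erase hb).symm).trans ?_
      rw [nsmul_eq_mul, ← hPc]
      exact mul_le_mul_of_nonneg_right (Nat.cast_le.2 (card_erase_le)) hη0.le
    have h3 : μ.real Unᶜ = 0 := by simp [measureReal_def, hcompl]
    linarith
  have hdisj : (↑P : Set W).PairwiseDisjoint Y := fun a ha b hb hab =>
    Set.disjoint_left.2 fun ω h1 h2 =>
      h1.2 (Set.mem_iUnion₂.2 ⟨b, mem_erase.2 ⟨Ne.symm hab, hb⟩, h2.1.1⟩)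
  have htot : ∑ a ∈ P, μ.real (Y a) ≤ 1 :=
    (measureReal_biUnion_finset hdisj (fun a _ => hYmeas a)).symm.trans_le measureReal_le_one
  have hlast := (card_nsmul_le_sum P _ (θ - N * η) hY).trans htot
  rw [hPc, nsmul_eq_mul, mul_sub] at hlast
  rw [div_lt_iff₀ hθ] at hN
  have he : (N : ℝ) * (N * η) = 1 / 2 := by rw [hη]; field_simp
  linarith

/-- Connection decay at some parameter above the threshold gives a nonuniqueness phase. -/
theorem pc_lt_pu_of_decay [Infinite W] (hH : H.Connected) {q : I} (hq : pc H < q)
    (hdec : ConnDecay H q) : pc H < pu H := by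
  haveI := countable_of_connected hH
  refine hq.trans_le (le_csInf ⟨1, 1, rfl, ?_⟩ ?_)
  · rw [bondMeasure, setBernoulli_one]
    refine Measure.dirac_apply_of_mem ?_
    have hop : openGraph H H.edgeSet = H := by simp [openGraph]
    rw [Set.mem_ofPred_eq, hop]
    obtain ⟨x⟩ := hH.nonempty
    have hC : ∀ C : H.ConnectedComponent, C = H.connectedComponentMk x := fun C => by
      induction C using SimpleGraph.ConnectedComponent.ind with
      | h y => exact SimpleGraph.ConnectedComponent.sound (hH.preconnected y x)
    refine ⟨H.connectedComponentMk x, ?_, fun C _ => hC C⟩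
    have : (H.connectedComponentMk x).supp = Set.univ := Set.eq_univ_of_forall fun y => hC _
    change (H.connectedComponentMk x).supp.Infinite
    rw [this]; exact Set.infinite_univ
  · rintro t ⟨p, rfl, hp⟩
    by_contra hlt
    push Not at hlt
    exact not_unique_of_decay hH p (hdec.mono p.2.1 hlt.le q.2.2) hp

end Vale.Agent.P165
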