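import Vale.Agent.P165.Cluster

/-!
Escape from a finite box for a graph fibred over a nonamenable graph, with fibres of large small-set
expansion.
-/

open Finset

namespace Vale.Agent.P165

/-- Finite vertex sets built from `v₀` by repeatedly adding a neighbour. -/
inductive Grown {V : Type*} [DecidableEq V] (G : SimpleGraph V) (v₀ : V) : Finset V → Prop
  | base : Grown G v₀ {v₀}
  | step {B : Finset V} {v w : V} : Grown G v₀ B → v ∈ B → G.Adj v w → Grown G v₀ (insert w B)

variable {V : Type*} [DecidableEq V] {G : SimpleGraph V} [G.LocallyFinite]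

lemma Grown.root {v₀ : V} {B : Finset V} (h : Grown G v₀ B) : v₀ ∈ B := by
  induction h with
  | base => simp
  | step _ _ _ ih => exact mem_insert_of_mem ih

/-- The outer boundary of a finite set. -/
noncomputable def bdry (G : SimpleGraph V) [G.LocallyFinite] (B : Finset V) : Finset V :=
  (B.biUnion fun v => G.neighborFinset v) \ B

lemma mem_bdry {B : Finset V} {w : V} : w ∈ bdry G B ↔ w ∉ B ∧ ∃ v ∈ B, G.Adj v w := by
  simp [bdry]; tauto

lemma Grown.subset_of_sites {v₀ : V} {B B' : Finset V} {S : Finset V} (h : Grown G v₀ B)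
    (h' : Grown G v₀ B') (hB : B ⊆ S) (hB' : S ∩ bdry G B' = ∅) : B ⊆ B' := by
  induction h with
  | base => simpa using h'.root
  | @step C v w hC hv hvw ih =>
    have hCS : C ⊆ S := (subset_insert _ _).trans hB
    refine insert_subset ?_ (ih hCS)
    by_contra hw
    have : w ∈ S ∩ bdry G B' := mem_inter.2
      ⟨hB (mem_insert_self _ _), mem_bdry.2 ⟨hw, v, ih hCS hv, hvw⟩⟩
    simp [hB'] at this

/-- The lattice-animal bound. -/
lemma sum_grown_le (v₀ : V) (s : Finset (Finset V)) (hs : ∀ B ∈ s, Grown G v₀ B) :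
    ∑ B ∈ s, (1 / 2 : ℝ) ^ (B.card + (bdry G B).card) ≤ 1 := by
  set U : Finset V := s.biUnion fun B => B ∪ bdry G B with hU
  have hB : ∀ B ∈ s, (1 / 2 : ℝ) ^ (B.card + (bdry G B).card)
      = pr (1 / 2) U (fun S => S ∩ bdry G B = ∅ ∧ B ⊆ S \ bdry G B) := by
    intro B hB
    have h1 : bdry G B ⊆ U :=
      subset_union_right.trans (subset_biUnion_of_mem (fun B => B ∪ bdry G B) hB)
    have h2 : B ⊆ U \ bdry G B := fun x hx => mem_sdiff.2
      ⟨subset_biUnion_of_mem (fun B => B ∪ bdry G B) hB (mem_union_left _ hx),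
        fun h => (mem_bdry.1 h).1 hx⟩
    rw [pr_closed _ h1 (fun T => B ⊆ T), pr_all_open _ h2, pow_add]
    norm_num [mul_comm]
  rw [sum_congr rfl hB]
  refine (sum_pr_le (by norm_num) (by norm_num) s
    (fun B S => S ∩ bdry G B = ∅ ∧ B ⊆ S \ bdry G B) (Q := fun _ => True)
    (fun _ _ _ _ _ => trivial) ?_).trans_eq (pr_true _ _)
  intro B hB B' hB' S _ h h'
  exact subset_antisymm ((hs B hB).subset_of_sites (hs B' hB') (h.2.trans sdiff_subset) h'.1)
    ((hs B' hB').subset_of_sites (hs B hB) (h'.2.trans sdiff_subset) h.1)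

variable {W : Type*} [DecidableEq W] (H : SimpleGraph W) [H.LocallyFinite] (π : W → V)

/-- The edges touching a finite box. -/
noncomputable def boxEdges (Λ : Finset W) : Finset (Sym2 W) :=
  Λ.biUnion fun x => (H.neighborFinset x).image fun y => s(x, y)

lemma mem_boxEdges {Λ : Finset W} {x y : W} (hx : x ∈ Λ) (h : H.Adj x y) :
    s(x, y) ∈ boxEdges H Λ :=
  mem_biUnion.2 ⟨x, hx, mem_image.2 ⟨y, by simpa using h, rfl⟩⟩

/-- The edges touching the box with both ends over `B`. -/
noncomputable def edgesOver (Λ : Finset W) (B : Finset V) : Finset (Sym2 W) :=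
  open scoped Classical in (boxEdges H Λ).filter fun e => ∀ x ∈ e, π x ∈ B

lemma edgesOver_subset (Λ : Finset W) (B : Finset V) : edgesOver H π Λ B ⊆ boxEdges H Λ := by
  classical exact filter_subset _ _

lemma edgesOver_mono (Λ : Finset W) {B B' : Finset V} (h : B ⊆ B') :
    edgesOver H π Λ B ⊆ edgesOver H π Λ B' := by
  classical
  intro e he
  simp only [edgesOver, mem_filter] at he ⊢
  exact ⟨he.1, fun x hx => h (he.2 x hx)⟩

/-- The part over `B` of the cluster of `o`. -/
noncomputable def partOver (Λ : Finset W) (o : W) (B : Finset V) (S : Finset (Sym2 W)) : Finset W :=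
  open scoped Classical in Λ.filter fun x => x ∈ cl {o} (S ∩ edgesOver H π Λ B)

/-- Every fibre over `B` holds at least `M` vertices of the cluster. -/
def Good (M : ℕ) (Λ : Finset W) (o : W) (B : Finset V) (S : Finset (Sym2 W)) : Prop :=
  ∀ v ∈ B, M ≤ ((partOver H π Λ o B S).filter fun x => π x = v).card

lemma partOver_mono (Λ : Finset W) (o : W) {B B' : Finset V} {S S' : Finset (Sym2 W)}
    (hB : B ⊆ B') (hS : S ⊆ S') : partOver H π Λ o B S ⊆ partOver H π Λ o B' S' := by
  classical
  intro x hx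
  simp only [partOver, mem_filter] at hx ⊢
  exact ⟨hx.1, cl_mono subset_rfl (inter_subset_inter hS (edgesOver_mono H π Λ hB)) hx.2⟩

lemma partOver_inter (Λ : Finset W) (o : W) {B B' : Finset V} (hB : B ⊆ B')
    (S : Finset (Sym2 W)) :
    partOver H π Λ o B (S ∩ edgesOver H π Λ B') = partOver H π Λ o B S := by
  classical
  have : S ∩ edgesOver H π Λ B' ∩ edgesOver H π Λ B = S ∩ edgesOver H π Λ B := by
    rw [inter_assoc, inter_eq_right.2 (edgesOver_mono H π Λ hB)]
  simp only [partOver, this]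

lemma good_inter (M : ℕ) (Λ : Finset W) (o : W) {B B' : Finset V} (hB : B ⊆ B')
    (S : Finset (Sym2 W)) :
    Good H π M Λ o B (S ∩ edgesOver H π Λ B') ↔ Good H π M Λ o B S := by
  simp only [Good, partOver_inter H π Λ o hB S]

variable (L : W → V → W)

/-- The coordinates deciding whether the fibre over `w` fills up from the roots `X`. -/
noncomputable def failEdges (Λ : Finset W) (w : V) (X : Finset W) : Finset (Sym2 W) :=
  edgesOver H π Λ {w} ∪ X.image fun x => s(x, L x w)

/-- The fibre over `w` receives fewer than `M` vertices from the roots `X`. -/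
def Fail (M : ℕ) (Λ : Finset W) (w : V) (X : Finset W) (S : Finset (Sym2 W)) : Prop :=
  ∃ A ∈ Λ.powerset.filter (fun A => A.card < M ∧ ∀ a ∈ A, π a = w), cl ↑X S = ↑X ∪ ↑A

variable {H π L}
variable (hLπ : ∀ x b, π (L x b) = b) (hLadj : ∀ x b, G.Adj (π x) b → H.Adj x (L x b))
  (hLinj : ∀ x y b, π x = π y → L x b = L y b → x = y)

include hLπ hLadj hLinj in
lemma fail_le {p r : ℝ} (hp0 : 0 ≤ p) (hp1 : p < 1) (hr0 : 0 < r) (hr1 : r ≤ 1)
    {K M : ℕ} (hK : 1 ≤ K) (hnum : ((1 - p) / (1 - p * r)) ^ (K - 1) ≤ r)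
    (hbd : ∀ (w : V) (A : Finset W), (∀ a ∈ A, π a = w) → A.card < M →
      K * A.card ≤ ∑ x ∈ A, ((H.neighborFinset x).filter fun y => π y = w ∧ y ∉ A).card)
    {Λ : Finset W} {v w : V} (hvw : G.Adj v w) {X : Finset W} (hXΛ : X ⊆ Λ)
    (hXv : ∀ x ∈ X, π x = v) (hXM : M ≤ X.card) :
    pr p (failEdges H π L Λ w X) (Fail π M Λ w X) ≤ ((1 - p) / (1 - p * r)) ^ M := by
  classical
  refine cl_small_le hp0 hp1 hr0 hr1 hK hnum _ _ _ ?_ ?_
  · intro A hA a ha haX
    simp only [mem_filter] at hA
    exact hvw.ne ((hXv a haX).symm.trans (hA.2.2 a ha))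
  intro A hA
  simp only [mem_filter, mem_powerset] at hA
  obtain ⟨hAΛ, hAM, hAw⟩ := hA
  set I := A.sigma fun x => (H.neighborFinset x).filter fun y => π y = w ∧ y ∉ A with hI
  set J := X.filter fun x => L x w ∉ A with hJ
  refine ⟨I.image (fun e => s(e.1, e.2)) ∪ J.image (fun x => s(x, L x w)), ?_, ?_, ?_⟩
  · refine union_subset ?_ ((image_subset_image (filter_subset _ _)).trans subset_union_right)
    intro e he
    simp only [mem_image, hI, mem_sigma, mem_filter, SimpleGraph.mem_neighborFinset] at he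
    obtain ⟨⟨x, y⟩, ⟨hx, hxy, hy, _⟩, rfl⟩ := he
    refine mem_union_left _ (mem_filter.2 ⟨mem_boxEdges H (hAΛ hx) hxy, ?_⟩)
    intro z hz
    rcases Sym2.mem_iff.1 hz with rfl | rfl
    · simp [hAw _ hx]
    · simp [hy]
  · have c1 : (I.image fun e => s(e.1, e.2)).card = I.card := by
      refine card_image_of_injOn ?_
      rintro ⟨x, y⟩ h ⟨x', y'⟩ h' e
      simp only [hI, coe_sigma, Set.mem_sigma_iff, mem_coe, mem_filter] at h h'
      rcases Sym2.eq_iff.1 e with ⟨h1, h2⟩ | ⟨h1, h2⟩
      · simp only at h1 h2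
        subst h1 h2
        rfl
      · simp only at h1
        subst h1
        exact absurd h.1 h'.2.2.2
    have c2 : (J.image fun x => s(x, L x w)).card = J.card := by
      refine card_image_of_injOn ?_
      intro x hx y hy e
      simp only [hJ, mem_coe, mem_filter] at hx hy
      rcases Sym2.eq_iff.1 e with ⟨h1, _⟩ | ⟨h1, _⟩
      · exact h1
      · have := congrArg π h1
        rw [hXv x hx.1, hLπ] at this
        exact absurd this hvw.ne
    have c3 : X.card ≤ J.card + A.card := by
      rw [hJ, ← Finset.card_filter_add_card_filter_not (s := X) (fun x => L x w ∈ A), add_comm]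
      refine Nat.add_le_add_left ?_ _
      refine card_le_card_of_injOn (fun x => L x w) (fun x hx => (mem_filter.1 hx).2) ?_
      intro x hx y hy e
      simp only [mem_coe, mem_filter] at hx hy
      exact hLinj x y w ((hXv x hx.1).trans (hXv y hy.1).symm) e
    have hdisj : Disjoint (I.image fun e => s(e.1, e.2)) (J.image fun x => s(x, L x w)) := by
      refine disjoint_left.2 fun e he he' => ?_
      simp only [mem_image, hI, hJ, mem_sigma, mem_filter] at he he'
      obtain ⟨⟨x, y⟩, ⟨hx, _, hy, _⟩, rfl⟩ := he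
      obtain ⟨z, hz, e⟩ := he'
      rcases Sym2.eq_iff.1 e with ⟨rfl, _⟩ | ⟨rfl, _⟩
      · exact hvw.ne ((hXv _ hz.1).symm.trans (hAw _ hx))
      · exact hvw.ne ((hXv _ hz.1).symm.trans hy)
    rw [card_union_of_disjoint hdisj, c1, c2, hI, card_sigma]
    have := hbd w A hAw hAM
    omega
  · intro e he
    simp only [mem_union, mem_image, hI, hJ, mem_sigma, mem_filter] at he
    rcases he with ⟨⟨x, y⟩, ⟨hx, _, hy, hyA⟩, rfl⟩ | ⟨x, ⟨hx, hxA⟩, rfl⟩
    · exact ⟨x, y, rfl, Or.inr hx,
        fun h => h.elim (fun h' => hvw.ne ((hXv y h').symm.trans hy)) hyA⟩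
    · exact ⟨x, L x w, rfl, Or.inl hx,
        fun h => h.elim (fun h' => hvw.ne ((hXv _ h').symm.trans (hLπ x w))) hxA⟩

include hLπ hLadj in
/-- When the cluster stays in the box, some grown good set has only failing boundary fibres. -/
lemma exists_max_good {M : ℕ} (hM : 1 ≤ M) {Λ : Finset W} {o : W}
    {S : Finset (Sym2 W)} (hgood : Good H π M Λ o {π o} S)
    (hno : cl {o} S ⊆ ↑Λ) :
    ∃ B ⊆ Λ.image π, Grown G (π o) B ∧ Good H π M Λ o B S ∧
      ∀ w ∈ bdry G B, ∀ v ∈ B, G.Adj v w → Fail π M Λ w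
        ((partOver H π Λ o B S).filter fun x => π x = v)
        (S ∩ failEdges H π L Λ w ((partOver H π Λ o B S).filter fun x => π x = v)) := by
  classical
  have hsub : ∀ B, Good H π M Λ o B S → B ⊆ Λ.image π := by
    intro B hB v hv
    obtain ⟨x, hx⟩ := card_pos.1 (lt_of_lt_of_le hM (hB v hv))
    simp only [mem_filter, partOver] at hx
    exact mem_image.2 ⟨x, hx.1.1, hx.2⟩
  set cand := (Λ.image π).powerset.filter fun B => Grown G (π o) B ∧ Good H π M Λ o B S with hcand
  have hne : cand.Nonempty :=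
    ⟨{π o}, mem_filter.2 ⟨mem_powerset.2 (hsub _ hgood), .base, hgood⟩⟩
  obtain ⟨B, hB, hmax⟩ := exists_max_image cand card hne
  simp only [hcand, mem_filter, mem_powerset] at hB
  refine ⟨B, hB.1, hB.2.1, hB.2.2, fun w hw v hv hvw => ?_⟩
  set B' := insert w B
  set X := (partOver H π Λ o B S).filter fun x => π x = v with hX
  set T := S ∩ failEdges H π L Λ w X
  have hwB := (mem_bdry.1 hw).1
  have hg' : Grown G (π o) B' := hB.2.1.step hv hvw
  have hnot : ¬ Good H π M Λ o B' S := fun h => by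
    have := hmax B' (mem_filter.2 ⟨mem_powerset.2 (hsub _ h), hg', h⟩)
    simp [B', hwB] at this
  have hsmall : ((partOver H π Λ o B' S).filter fun x => π x = w).card < M := by
    by_contra hc
    push Not at hc
    refine hnot fun u hu => ?_
    rcases mem_insert.1 hu with rfl | hu
    · exact hc
    · exact (hB.2.2 u hu).trans (card_le_card
        (filter_subset_filter _ (partOver_mono H π Λ o (subset_insert _ _) subset_rfl)))
  have hT : T ⊆ S ∩ edgesOver H π Λ B' := by
    refine subset_inter inter_subset_left fun e he => ?_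
    rcases mem_union.1 (mem_inter.1 he).2 with h | h
    · exact edgesOver_mono H π Λ (by simp [B']) h
    · obtain ⟨x, hx, rfl⟩ := mem_image.1 h
      simp only [hX, partOver, mem_filter] at hx
      refine mem_filter.2 ⟨mem_boxEdges H hx.1.1 (hLadj x w (hx.2 ▸ hvw)), ?_⟩
      intro z hz
      rcases Sym2.mem_iff.1 hz with rfl | rfl
      · simp [B', hx.2, hv]
      · simp [B', hLπ]
  have hXc : (↑X : Set W) ⊆ cl {o} (S ∩ edgesOver H π Λ B') := by
    intro x hx
    simp only [hX, partOver, mem_coe, mem_filter] at hx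
    exact cl_mono subset_rfl (inter_subset_inter subset_rfl
      (edgesOver_mono H π Λ (subset_insert _ _))) hx.1.2
  have hcl : cl (↑X) T ⊆ cl {o} (S ∩ edgesOver H π Λ B') := cl_trans hXc hT
  have hin : cl (↑X) T ⊆ ↑X ∪ {y | π y = w} := by
    refine cl_subset Set.subset_union_left fun y z _ hyz => ?_
    rcases mem_union.1 (mem_inter.1 hyz).2 with h | h
    · right
      simp only [edgesOver, mem_filter] at h
      simpa using h.2 z (Sym2.mem_mk_right y z)
    · obtain ⟨x, hx, e⟩ := mem_image.1 h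
      rcases Sym2.eq_iff.1 e with ⟨_, rfl⟩ | ⟨rfl, _⟩
      · exact Or.inr (hLπ x w)
      · exact Or.inl hx
  refine ⟨Λ.filter (fun y => π y = w ∧ y ∈ cl (↑X) T), mem_filter.2 ⟨?_, ?_, ?_⟩, ?_⟩
  · exact mem_powerset.2 (filter_subset _ _)
  · refine lt_of_le_of_lt (card_le_card fun y hy => ?_) hsmall
    simp only [mem_filter, partOver] at hy ⊢
    exact ⟨⟨hy.1, hcl hy.2.2⟩, hy.2.1⟩
  · exact fun a ha => (mem_filter.1 ha).2.1
  · ext y
    simp only [Set.mem_union, coe_filter, Set.mem_ofPred_eq, mem_coe]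
    refine ⟨fun hy => (hin hy).imp id fun hyw => ⟨?_, hyw, hy⟩,
      fun h => h.elim (fun h' => subset_cl _ _ h') fun h' => h'.2.2⟩
    exact hno (cl_mono subset_rfl inter_subset_left (hcl hy))

include hLπ hLadj hLinj in
/-- The cluster of `o` leaves every box with probability bounded below. -/
theorem escape {p r : ℝ} (hp0 : 0 ≤ p) (hp1 : p < 1) (hr0 : 0 < r) (hr1 : r ≤ 1)
    {K M N : ℕ} (hK : 1 ≤ K) (hM : 1 ≤ M)
    (hnum : ((1 - p) / (1 - p * r)) ^ (K - 1) ≤ r)
    (hbd : ∀ (w : V) (A : Finset W), (∀ a ∈ A, π a = w) → A.card < M →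
      K * A.card ≤ ∑ x ∈ A, ((H.neighborFinset x).filter fun y => π y = w ∧ y ∉ A).card)
    (hiso : ∀ B : Finset V, B.Nonempty → B.card ≤ N * (bdry G B).card)
    (hδ : ((1 - p) / (1 - p * r)) ^ M * 2 ^ (N + 1) ≤ 1 / 2)
    {Λ : Finset W} {o : W} {T₀ : Finset (Sym2 W)} (hT₀ : T₀ ⊆ boxEdges H Λ)
    (hgood : Good H π M Λ o {π o} T₀) :
    pr p (boxEdges H Λ) (fun S => cl {o} S ⊆ ↑Λ) ≤ 1 - p ^ T₀.card / 2 := by
  classical
  set U := boxEdges H Λ with hU
  set δ := ((1 - p) / (1 - p * r)) ^ M with hδdef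
  have hpos : 0 < 1 - p * r := by nlinarith
  have hδ0 : 0 ≤ δ := pow_nonneg (div_nonneg (by linarith) hpos.le) _
  set G0 : Finset (Sym2 W) → Prop := Good H π M Λ o {π o}
  set g := pr p U G0 with hg
  set cand := (Λ.image π).powerset.filter (Grown G (π o)) with hcand
  have key : ∀ B ∈ cand,
      pr p U (fun S => G0 S ∧ Good H π M Λ o B S ∧ ∀ w ∈ bdry G B, ∀ v ∈ B, G.Adj v w →
        Fail π M Λ w ((partOver H π Λ o B S).filter fun x => π x = v)
          (S ∩ failEdges H π L Λ w ((partOver H π Λ o B S).filter fun x => π x = v)))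
      ≤ δ ^ (bdry G B).card * g := by
    intro B hB
    simp only [hcand, mem_filter] at hB
    have hroot : {π o} ⊆ B := by simpa using hB.2.root
    have hpar : ∀ w ∈ bdry G B, ∃ v ∈ B, G.Adj v w := fun w hw => (mem_bdry.1 hw).2
    choose par hparB hparA using hpar
    set fib : Finset W → ∀ w, w ∈ bdry G B → Finset W :=
      fun A w hw => A.filter fun x => π x = par w hw with hfib
    set As := Λ.powerset.filter fun A => ∀ v ∈ B, M ≤ (A.filter fun x => π x = v).card with hAs
    set ev : Finset W → Finset (Sym2 W) → Prop :=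
      fun A T => G0 T ∧ partOver H π Λ o B T = A with hev
    calc pr p U _ ≤ ∑ A ∈ As, pr p U (fun S => ev A (S ∩ edgesOver H π Λ B) ∧
          ∀ w ∈ (bdry G B).attach, Fail π M Λ w.1 (fib A w.1 w.2)
            (S ∩ failEdges H π L Λ w.1 (fib A w.1 w.2))) := by
          refine pr_le_sum hp0 hp1.le As _ ?_
          rintro S - ⟨h1, h2, h3⟩
          refine ⟨partOver H π Λ o B S, mem_filter.2 ⟨mem_powerset.2 (filter_subset _ _), h2⟩,
            ⟨(good_inter H π M Λ o hroot S).2 h1, partOver_inter H π Λ o subset_rfl S⟩, ?_⟩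
          exact fun w _ => h3 w.1 w.2 _ (hparB w.1 w.2) (hparA w.1 w.2)
      _ ≤ ∑ A ∈ As, δ ^ (bdry G B).card * pr p U (fun S => ev A (S ∩ edgesOver H π Λ B)) := by
          refine sum_le_sum fun A hA => ?_
          simp only [hAs, mem_filter, mem_powerset] at hA
          have hsubU : ∀ (w : V) (hw : w ∈ bdry G B), failEdges H π L Λ w (fib A w hw) ⊆ U := by
            intro w hw
            refine union_subset (edgesOver_subset H π Λ _) fun e he => ?_
            obtain ⟨x, hx, rfl⟩ := mem_image.1 he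
            simp only [hfib, mem_filter] at hx
            exact mem_boxEdges H (hA.1 hx.1) (hLadj x w (hx.2 ▸ hparA w hw))
          have hends : ∀ (w : V) (hw : w ∈ bdry G B), ∀ e ∈ failEdges H π L Λ w (fib A w hw),
              (∃ x ∈ e, π x = w) ∧ ∀ x ∈ e, π x = w ∨ π x ∈ B := by
            intro w hw e he
            rcases mem_union.1 he with h | h
            · simp only [edgesOver, mem_filter, mem_singleton] at h
              induction e with
              | h a b => exact ⟨⟨a, Sym2.mem_mk_left a b, h.2 a (Sym2.mem_mk_left a b)⟩,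
                  fun x hx => Or.inl (h.2 x hx)⟩
            · obtain ⟨x, hx, rfl⟩ := mem_image.1 h
              simp only [hfib, mem_filter] at hx
              refine ⟨⟨L x w, Sym2.mem_mk_right x _, hLπ x w⟩, fun z hz => ?_⟩
              rcases Sym2.mem_iff.1 hz with rfl | rfl
              · exact Or.inr (hx.2 ▸ hparB w hw)
              · exact Or.inl (hLπ x w)
          rw [pr_indep p (bdry G B).attach (fun w => failEdges H π L Λ w.1 (fib A w.1 w.2))
            (fun w => Fail π M Λ w.1 (fib A w.1 w.2)) ?_ U (edgesOver H π Λ B) (ev A)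
            (edgesOver_subset H π Λ B) (fun w _ => hsubU w.1 w.2) ?_,
            pr_marginal p (edgesOver_subset H π Λ B) (ev A), mul_comm]
          · refine mul_le_mul_of_nonneg_right ?_ (pr_nonneg hp0 hp1.le _ _)
            calc ∏ w ∈ (bdry G B).attach, pr p (failEdges H π L Λ w.1 (fib A w.1 w.2))
                  (Fail π M Λ w.1 (fib A w.1 w.2))
                ≤ ∏ _w ∈ (bdry G B).attach, δ := by
                  refine prod_le_prod (fun w _ => pr_nonneg hp0 hp1.le _ _) fun w _ => ?_
                  exact fail_le hLπ hLadj hLinj hp0 hp1 hr0 hr1 hK hnum hbd (hparA w.1 w.2)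
                    ((filter_subset _ _).trans hA.1) (fun x hx => (mem_filter.1 hx).2)
                    (hA.2 _ (hparB w.1 w.2))
              _ = δ ^ (bdry G B).card := by simp
          · intro w _ w' _ hne
            refine disjoint_left.2 fun e he he' => hne (Subtype.ext ?_)
            obtain ⟨x, hxe, hxw⟩ := (hends w.1 w.2 e he).1
            rcases (hends w'.1 w'.2 e he').2 x hxe with h | h
            · exact hxw.symm.trans h
            · exact absurd (hxw ▸ h) (mem_bdry.1 w.2).1
          · intro w _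
            refine disjoint_left.2 fun e he he' => ?_
            obtain ⟨x, hxe, hxw⟩ := (hends w.1 w.2 e he').1
            simp only [edgesOver, mem_filter] at he
            exact (mem_bdry.1 w.2).1 (hxw ▸ he.2 x hxe)
      _ ≤ δ ^ (bdry G B).card * g := by
          rw [← mul_sum]
          refine mul_le_mul_of_nonneg_left ?_ (pow_nonneg hδ0 _)
          refine sum_pr_le hp0 hp1.le As (fun A S => ev A (S ∩ edgesOver H π Λ B))
            (fun A _ S _ h => (good_inter H π M Λ o hroot S).1 h.1) ?_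
          exact fun A _ A' _ S _ h h' => h.2.symm.trans h'.2
  have hw : ∀ B ∈ cand, δ ^ (bdry G B).card
      ≤ 1 / 2 * (1 / 2 : ℝ) ^ (B.card + (bdry G B).card) := by
    intro B hB
    simp only [hcand, mem_filter] at hB
    have hne : B.Nonempty := ⟨_, hB.2.root⟩
    have h1 := hiso B hne
    set b := (bdry G B).card with hb
    have hb1 : b ≠ 0 := fun h => by simp [h] at h1; simp [h1] at hne
    have h2 : δ ^ b * 2 ^ (B.card + b) ≤ 1 / 2 :=
      calc δ ^ b * 2 ^ (B.card + b) ≤ δ ^ b * 2 ^ ((N + 1) * b) := by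
            refine mul_le_mul_of_nonneg_left
              (pow_le_pow_right₀ (by norm_num) ?_) (pow_nonneg hδ0 _)
            rw [add_mul, one_mul]; omega
        _ = (δ * 2 ^ (N + 1)) ^ b := by rw [mul_pow, pow_mul 2 (N + 1) b]
        _ ≤ δ * 2 ^ (N + 1) := pow_le_of_le_one (by positivity) (by linarith) hb1
        _ ≤ 1 / 2 := hδ
    rw [one_div_pow, ← mul_div_assoc, mul_one, le_div_iff₀ (by positivity)]
    exact h2
  have h4 : pr p U (fun S => G0 S ∧ cl {o} S ⊆ ↑Λ) ≤ g / 2 := by
    calc pr p U _ ≤ ∑ B ∈ cand, pr p U (fun S => G0 S ∧ Good H π M Λ o B S ∧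
          ∀ w ∈ bdry G B, ∀ v ∈ B, G.Adj v w →
            Fail π M Λ w ((partOver H π Λ o B S).filter fun x => π x = v)
              (S ∩ failEdges H π L Λ w ((partOver H π Λ o B S).filter fun x => π x = v))) := by
          refine pr_le_sum hp0 hp1.le cand _ ?_
          rintro S - ⟨h1, h2⟩
          obtain ⟨B, hB1, hB2, hB3, hB4⟩ := exists_max_good (G := G) hLπ hLadj hM h1 h2
          exact ⟨B, mem_filter.2 ⟨mem_powerset.2 hB1, hB2⟩, h1, hB3, hB4⟩
      _ ≤ ∑ B ∈ cand, 1 / 2 * (1 / 2 : ℝ) ^ (B.card + (bdry G B).card) * g :=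
          sum_le_sum fun B hB => (key B hB).trans
            (mul_le_mul_of_nonneg_right (hw B hB) (pr_nonneg hp0 hp1.le _ _))
      _ ≤ g / 2 := by
          rw [← sum_mul, ← mul_sum]
          have := sum_grown_le (π o) cand fun B hB => (mem_filter.1 hB).2
          have hg0 : 0 ≤ g := pr_nonneg hp0 hp1.le _ _
          nlinarith [mul_le_mul_of_nonneg_right this hg0]
  have h5 : p ^ T₀.card ≤ g := by
    rw [← pr_all_open p hT₀]
    refine pr_mono hp0 hp1.le fun S _ hS v hv => (hgood v hv).trans ?_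
    exact card_le_card (filter_subset_filter _ (partOver_mono H π Λ o subset_rfl hS))
  have h6 : pr p U (fun S => cl {o} S ⊆ ↑Λ)
      ≤ pr p U (fun S => G0 S ∧ cl {o} S ⊆ ↑Λ) + pr p U (fun S => ¬ G0 S) := by
    have := pr_le_sum hp0 hp1.le (U := U) (Q := fun S => cl {o} S ⊆ ↑Λ) (univ : Finset Bool)
      (fun b S => bif b then G0 S ∧ cl {o} S ⊆ ↑Λ else ¬ G0 S) fun S _ h => by
        by_cases hG : G0 S
        · exact ⟨true, mem_univ _, hG, h⟩
        · exact ⟨false, mem_univ _, hG⟩
    simpa using this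
  have h7 := pr_compl p U G0
  linarith

end Vale.Agent.P165
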