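import Vale.Agent.P165.Defs
import Vale.Agent.P165.Macro
import Vale.Agent.P165.Spectral

/-!
Box products: neighbours, expansion of all sets and of small sets, basic properties.
-/

open Finset

namespace Vale.Agent.P165

variable {k : ℕ} {U : Fin k → Type*} [∀ i, DecidableEq (U i)] {G : ∀ i, SimpleGraph (U i)}
  [∀ i, (G i).LocallyFinite]

lemma boxProduct_adj {x y : ∀ i, U i} :
    (boxProduct G).Adj x y ↔ ∃ i, ∃ z, (G i).Adj (x i) z ∧ Function.update x i z = y := by
  constructor
  · rintro ⟨i, h, e⟩
    refine ⟨i, y i, h, funext fun j => ?_⟩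
    by_cases hj : j = i
    · subst hj; simp
    · simp [hj, e j hj]
  · rintro ⟨i, z, h, rfl⟩
    exact ⟨i, by simpa using h, fun j hj => by simp [hj]⟩

/-- The moves available at a tuple. -/
noncomputable def moves (G : ∀ i, SimpleGraph (U i)) [∀ i, (G i).LocallyFinite] (x : ∀ i, U i) :
    Finset (∀ i, U i) :=
  (univ.sigma fun i => (G i).neighborFinset (x i)).image fun e => Function.update x e.1 e.2

noncomputable instance boxProductLF : (boxProduct G).LocallyFinite := fun x =>
  Fintype.ofFinset (moves G x) fun y => by
    simp [moves, boxProduct_adj]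

lemma neighborFinset_power (x : (∀ i, U i)) : (boxProduct G).neighborFinset x = moves G x := by
  ext y
  simp [moves, boxProduct_adj]

lemma moves_injOn (x : (∀ i, U i)) :
    Set.InjOn (fun e : Σ i : Fin k, U i => Function.update x e.1 e.2)
      ↑(univ.sigma fun i => (G i).neighborFinset (x i)) := by
  rintro ⟨i, a⟩ ha ⟨j, b⟩ hb e
  simp only [coe_sigma, Set.mem_sigma_iff, mem_coe, SimpleGraph.mem_neighborFinset] at ha hb
  by_cases h : i = j
  · subst h
    have := congrFun e i
    simp at this
    simp [this]
  · have := congrFun e i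
    simp [h] at this
    exact absurd this ha.2.ne'

/-- Counting neighbours by coordinate. -/
lemma card_filter_moves (x : (∀ i, U i)) (P : (∀ i, U i) → Prop) [DecidablePred P] :
    (((boxProduct G).neighborFinset x).filter P).card
      = ∑ i, (((G i).neighborFinset (x i)).filter fun z => P (Function.update x i z)).card := by
  rw [neighborFinset_power, moves, filter_image,
    card_image_of_injOn ((moves_injOn x).mono (coe_subset.2 (filter_subset _ _)))]
  rw [← card_sigma]
  congr 1
  ext ⟨i, z⟩
  simp

variable {d : Fin k → ℕ} {D : ℕ}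

lemma card_neighbor_power (hd : ∀ i v, ((G i).neighborFinset v).card = d i) (x : (∀ i, U i)) :
    ((boxProduct G).neighborFinset x).card = ∑ i, d i := by
  have h := card_filter_moves (G := G) x (fun _ => True)
  simp only [filter_true, hd] at h
  exact h

/-- In every direction each finite set has a boundary. -/
lemma dir_iso {h : ℝ} (i : Fin k)
    (hG : ∀ B : Finset (U i), h * B.card ≤ ((bdry (G i) B).card : ℝ)) (A : Finset (∀ i, U i)) :
    h * A.card ≤ ∑ x ∈ A,
      ((((G i).neighborFinset (x i)).filter fun z => Function.update x i z ∉ A).card : ℝ) := by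
  classical
  rcases A.eq_empty_or_nonempty with rfl | ⟨a, ha⟩
  · simp
  set cls : (∀ i, U i) → (∀ i, U i) := fun x => Function.update x i (a i) with hcls
  rw [card_eq_sum_card_image cls A, Nat.cast_sum, mul_sum,
    ← sum_fiberwise_of_maps_to (g := cls) (t := A.image cls) (fun x hx => mem_image_of_mem _ hx)]
  refine sum_le_sum fun r _ => ?_
  set Ar := A.filter fun x => cls x = r with hAr
  set sl := Ar.image fun x => x i with hsl
  have hrec : ∀ x ∈ Ar, x = Function.update r i (x i) := by
    intro x hx
    simp only [hAr, mem_filter, hcls] at hx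
    rw [← hx.2, Function.update_idem, Function.update_eq_self]
  have hcard : sl.card = Ar.card := card_image_of_injOn fun x hx y hy e => by
    rw [hrec x hx, hrec y hy]
    exact congrArg _ e
  rw [← hcard]
  refine (hG sl).trans ?_
  refine le_trans (Nat.cast_le.2 (le_trans (card_le_card ?_) card_biUnion_le)) (Nat.cast_sum _ _).le
  intro z hz
  obtain ⟨hzs, v, hv, hvz⟩ := mem_bdry.1 hz
  obtain ⟨x, hx, rfl⟩ := mem_image.1 hv
  refine mem_biUnion.2 ⟨x, hx, mem_filter.2 ⟨by simpa using hvz, fun hup => hzs ?_⟩⟩
  refine mem_image.2 ⟨Function.update x i z, mem_filter.2 ⟨hup, ?_⟩, by simp⟩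
  simp only [hAr, mem_filter, hcls] at hx ⊢
  simpa using hx.2

/-- The edge boundary of a box product. -/
lemma product_iso {h : ℝ} (T : Finset (Fin k))
    (hG : ∀ i ∈ T, ∀ B : Finset (U i), h * B.card ≤ ((bdry (G i) B).card : ℝ))
    (A : Finset (∀ i, U i)) :
    (T.card * h) * A.card ≤ ∑ x ∈ A, (((boxProduct G).neighborFinset x \ A).card : ℝ) := by
  simp only [← filter_notMem_eq_sdiff, card_filter_moves, Nat.cast_sum]
  rw [sum_comm]
  refine le_trans ?_ (sum_le_sum_of_subset_of_nonneg (subset_univ T)
    fun i _ _ => sum_nonneg fun x _ => Nat.cast_nonneg _)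
  refine le_trans (le_of_eq ?_) (sum_le_sum fun i hi => dir_iso i (hG i hi) A)
  simp [mul_assoc]

/-- Moves that stay inside a set, in the directions of `I`. -/
noncomputable def inner (G : ∀ i, SimpleGraph (U i)) [∀ i, (G i).LocallyFinite] (I : Finset (Fin k))
    (A : Finset (∀ i, U i)) : ℝ :=
  ∑ x ∈ A, ∑ i ∈ I,
    ((((G i).neighborFinset (x i)).filter fun z => Function.update x i z ∈ A).card : ℝ)

/-- Small sets span few edges. -/
lemma inner_le (hd : ∀ i v, ((G i).neighborFinset v).card ≤ D) (I : Finset (Fin k)) :
    ∀ A : Finset (∀ i, U i), inner G I A ≤ (D + 1) * (A.card * Real.logb 2 A.card) := by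
  classical
  induction I using Finset.induction_on with
  | empty =>
    intro A
    have h0 : 0 ≤ Real.logb 2 A.card := by
      rcases Nat.eq_zero_or_pos A.card with h | h
      · simp [h]
      · exact Real.logb_nonneg (by norm_num) (by exact_mod_cast h)
    simp only [inner, sum_empty, sum_const_zero]
    positivity
  | @insert i I hi ih =>
    intro A
    rcases A.eq_empty_or_nonempty with rfl | hA
    · simp [inner]
    set im := A.image fun x => x i with him
    set fib : U i → Finset (∀ i, U i) := fun a => A.filter fun x => x i = a with hfib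
    set n : U i → ℝ := fun a => ((fib a).card : ℝ) with hn
    have hN : (A.card : ℝ) = ∑ a ∈ im, n a := by
      rw [card_eq_sum_card_image (fun x => x i) A, Nat.cast_sum]
    have hsplit : inner G I A = ∑ a ∈ im, inner G I (fib a) := by
      simp only [inner]
      rw [← sum_fiberwise_of_maps_to (g := fun x : (∀ j, U j) => x i) (t := im)
        (fun x hx => mem_image_of_mem (fun x : (∀ j, U j) => x i) hx)]
      refine sum_congr rfl fun a _ => sum_congr rfl fun x hx => sum_congr rfl fun j hj => ?_
      congr 2
      refine filter_congr fun z _ => ?_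
      simp only [hfib, mem_filter] at hx ⊢
      have : Function.update x j z i = a := by
        rw [Function.update_of_ne (fun e : i = j => hi (e ▸ hj)) z x]
        exact hx.2
      exact ⟨fun h => ⟨h, this⟩, fun h => h.1⟩
    set cross := ∑ x ∈ A,
      ((((G i).neighborFinset (x i)).filter fun z => Function.update x i z ∈ A).card : ℝ) with hcross
    have hins : inner G (insert i I) A = cross + inner G I A := by
      simp [inner, hcross, sum_insert hi, sum_add_distrib]
    have hcrossle : cross ≤ ∑ a ∈ im, ∑ z ∈ (G i).neighborFinset a, min (n a) (n z) := by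
      rw [hcross, ← sum_fiberwise_of_maps_to (g := fun x : (∀ j, U j) => x i) (t := im)
        (fun x hx => mem_image_of_mem (fun x : (∀ j, U j) => x i) hx)]
      refine sum_le_sum fun a _ => ?_
      calc ∑ x ∈ fib a,
            ((((G i).neighborFinset (x i)).filter fun z => Function.update x i z ∈ A).card : ℝ)
          = ∑ x ∈ fib a, ∑ z ∈ (G i).neighborFinset a,
              if Function.update x i z ∈ A then (1 : ℝ) else 0 := by
            refine sum_congr rfl fun x hx => ?_
            rw [(mem_filter.1 hx).2, sum_boole]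
        _ = ∑ z ∈ (G i).neighborFinset a,
              (((fib a).filter fun x => Function.update x i z ∈ A).card : ℝ) := by
            rw [sum_comm]; simp [sum_boole]
        _ ≤ _ := by
            refine sum_le_sum fun z _ => le_min ?_ ?_
            · exact Nat.cast_le.2 (card_filter_le _ _)
            · refine Nat.cast_le.2 (card_le_card_of_injOn (fun x => Function.update x i z) ?_ ?_)
              · intro x hx
                simp only [mem_coe, mem_filter, hfib] at hx ⊢
                exact ⟨hx.2, by simp⟩
              · intro x hx y hy e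
                simp only [hfib, mem_coe, mem_filter] at hx hy
                funext j
                by_cases hj : j = i
                · subst hj; exact hx.1.2.trans hy.1.2.symm
                · simpa [hj] using congrFun e j
    obtain ⟨m, hm, hmax⟩ := exists_max_image im n (hA.image _)
    have hout : ∀ z, z ∉ im → n z = 0 := by
      intro z hz
      simp only [hn, hfib, Nat.cast_eq_zero, card_eq_zero, filter_eq_empty_iff]
      exact fun x hx e => hz (e ▸ mem_image_of_mem _ hx)
    have hn0 : ∀ a, 0 ≤ n a := fun a => Nat.cast_nonneg _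
    have hrest : ∑ a ∈ im, ∑ z ∈ (G i).neighborFinset a, min (n a) (n z)
        ≤ (D + 1) * ∑ a ∈ im.erase m, n a := by
      rw [← add_sum_erase im _ hm, add_mul, one_mul, add_comm]
      refine add_le_add ?_ ?_
      · rw [mul_sum]
        refine sum_le_sum fun a _ => (sum_le_card_nsmul _ _ (n a) fun z _ => min_le_left _ _).trans ?_
        rw [nsmul_eq_mul]
        exact mul_le_mul_of_nonneg_right (Nat.cast_le.2 (hd i a)) (hn0 a)
      · refine (sum_le_sum fun z _ => min_le_right (n m) (n z)).trans ?_
        rw [← sum_filter_ne_zero]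
        refine sum_le_sum_of_subset_of_nonneg (fun z hz => ?_) fun a _ _ => hn0 a
        simp only [mem_filter, SimpleGraph.mem_neighborFinset] at hz
        exact mem_erase.2 ⟨hz.1.ne', by_contra fun h => hz.2 (hout z h)⟩
    have hlog : ∑ a ∈ im.erase m, n a
        ≤ ∑ a ∈ im, n a * (Real.logb 2 A.card - Real.logb 2 (n a)) := by
      have hle : ∀ a ∈ im, n a ≤ A.card := fun a ha => hN ▸ single_le_sum (fun b _ => hn0 b) ha
      have hpos : ∀ a ∈ im, 1 ≤ n a := by
        intro a ha
        obtain ⟨x, hx, rfl⟩ := mem_image.1 ha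
        exact Nat.one_le_cast.2 (card_pos.2 ⟨x, mem_filter.2 ⟨hx, rfl⟩⟩)
      rw [← add_sum_erase im _ hm]
      refine le_add_of_nonneg_of_le (mul_nonneg (hn0 m) (sub_nonneg.2 ?_)) ?_
      · exact Real.logb_le_logb_of_le (by norm_num) (by linarith [hpos m hm]) (hle m hm)
      refine sum_le_sum fun a ha => ?_
      obtain ⟨hne, ha⟩ := mem_erase.1 ha
      refine le_mul_of_one_le_right (hn0 a) ?_
      have h2 : 2 * n a ≤ A.card := by
        have : n a + n m ≤ ∑ b ∈ im, n b := by
          rw [← sum_pair hne]
          exact sum_le_sum_of_subset_of_nonneg (insert_subset ha (by simpa using hm))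
            fun b _ _ => hn0 b
        linarith [hmax a ha, hN]
      have h3 : Real.logb 2 (2 * n a) ≤ Real.logb 2 A.card :=
        Real.logb_le_logb_of_le (by norm_num) (by linarith [hpos a ha]) h2
      rw [Real.logb_mul two_ne_zero (by linarith [hpos a ha]), Real.logb_self_eq_one (by norm_num)]
        at h3
      linarith
    have hih : inner G I A ≤ (D + 1) * ∑ a ∈ im, n a * Real.logb 2 (n a) := by
      rw [hsplit, mul_sum]
      exact sum_le_sum fun a _ => ih (fib a)
    have hd0 : (0 : ℝ) ≤ D + 1 := by positivity
    simp only [mul_sub, sum_sub_distrib, ← sum_mul, ← hN] at hlog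
    rw [hins]
    linarith [mul_le_mul_of_nonneg_left hlog hd0]

/-- Expansion of a small set inside a coordinate fibre. -/
lemma fibre_expand (hd : ∀ i v, ((G i).neighborFinset v).card = d i) (hD : ∀ i, d i ≤ D)
    (i₀ : Fin k) {M K : ℕ}
    (hK : (K : ℝ) + (D + 1) * Real.logb 2 M ≤ ∑ i ∈ univ.erase i₀, (d i : ℝ))
    (w : U i₀) (A : Finset (∀ i, U i)) (hA : ∀ a ∈ A, a i₀ = w) (hM : A.card < M) :
    K * A.card ≤ ∑ x ∈ A,
      (((boxProduct G).neighborFinset x).filter fun y => y i₀ = w ∧ y ∉ A).card := by
  classical
  rcases A.eq_empty_or_nonempty with rfl | hne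
  · simp
  have hx : ∀ x ∈ A, (∑ i ∈ univ.erase i₀, (d i : ℝ))
      ≤ ((((boxProduct G).neighborFinset x).filter fun y => y i₀ = w ∧ y ∉ A).card : ℝ)
        + ∑ i ∈ univ.erase i₀,
          ((((G i).neighborFinset (x i)).filter fun z => Function.update x i z ∈ A).card : ℝ) := by
    intro x hx
    rw [card_filter_moves, Nat.cast_sum, ← add_sum_erase univ _ (mem_univ i₀)]
    refine le_add_of_nonneg_of_le (Nat.cast_nonneg _) le_rfl |> le_trans ?_ |>.trans
      (le_of_eq (add_assoc _ _ _).symm)
    rw [← sum_add_distrib]
    refine le_of_eq ?_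
    have : ∀ i ∈ univ.erase i₀,
        ((((G i).neighborFinset (x i)).filter fun z =>
            Function.update x i z i₀ = w ∧ Function.update x i z ∉ A).card : ℝ)
          + ((((G i).neighborFinset (x i)).filter fun z => Function.update x i z ∈ A).card : ℝ) = d i := by
      intro i hi
      have e : ∀ z, Function.update x i z i₀ = w := fun z => by
        rw [Function.update_of_ne (mem_erase.1 hi).1.symm z x]; exact hA x hx
      simp only [e, true_and]
      rw [← Nat.cast_add, add_comm, Finset.card_filter_add_card_filter_not, hd]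
    rw [sum_congr rfl this]
  have h1 := sum_le_sum hx
  rw [sum_const, nsmul_eq_mul, sum_add_distrib, ← Nat.cast_sum] at h1
  have h2 : inner G (univ.erase i₀) A ≤ _ :=
    inner_le (D := D) (fun i v => (hd i v).trans_le (hD i)) _ A
  have h3 : Real.logb 2 A.card ≤ Real.logb 2 M :=
    Real.logb_le_logb_of_le (by norm_num) (Nat.cast_pos.2 (card_pos.2 hne)) (Nat.cast_le.2 hM.le)
  have h4 : (0 : ℝ) ≤ A.card := Nat.cast_nonneg _
  have h5 : (0 : ℝ) ≤ D + 1 := by positivity
  rw [inner] at h2
  refine (Nat.cast_le (α := ℝ)).1 ?_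
  push_cast at h1 h2 ⊢
  nlinarith [mul_le_mul_of_nonneg_left h3 (mul_nonneg h5 h4)]

/-- Changing one coordinate to `z`. -/
def coordHom (o : (∀ i, U i)) (i : Fin k) : G i →g boxProduct G where
  toFun z := Function.update o i z
  map_rel' {a b} h := ⟨i, by simpa using h, fun j hj => by simp [hj]⟩

lemma connected_product (hG : ∀ i, (G i).Connected) : (boxProduct G).Connected := by
  classical
  haveI := fun i => (hG i).nonempty
  refine ⟨fun x y => ?_⟩
  suffices ∀ (s : Finset (Fin k)) (x : (∀ i, U i)), (∀ i, i ∉ s → x i = y i) →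
      (boxProduct G).Reachable x y from this univ x (by simp)
  intro s
  induction s using Finset.induction_on with
  | empty => exact fun x hx => by rw [show x = y from funext fun i => hx i (by simp)]
  | @insert i s _ ih =>
    intro x hx
    have h1 := ((hG i).preconnected (x i) (y i)).map (coordHom (G := G) x i)
    have h2 : (coordHom (G := G) x i) (x i) = x := Function.update_eq_self i x
    rw [h2] at h1
    refine h1.trans (ih _ fun j hj => ?_)
    change Function.update x i (y i) j = y j
    by_cases hji : j = i
    · subst hji; simp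
    · simp [hji, hx j (by simp [hji, hj])]

lemma quasiTransitive_product (hG : ∀ i, QuasiTransitive (G i)) : QuasiTransitive (boxProduct G) := by
  choose F hF h using hG
  refine ⟨Set.pi Set.univ F, Set.Finite.pi fun i => hF i, fun x => ?_⟩
  choose φ hφ using fun i => h i (x i)
  refine ⟨⟨Equiv.piCongrRight fun i => (φ i).toEquiv, fun {a b} => ?_⟩, fun i _ => hφ i⟩
  simp only [boxProduct, Equiv.piCongrRight_apply, Pi.map_apply]
  exact exists_congr fun i => and_congr (φ i).map_adj_iff
    (forall₂_congr fun j _ => (φ j).toEquiv.injective.eq_iff)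

lemma outerBoundary_finset {V : Type*} [DecidableEq V] {H : SimpleGraph V} [H.LocallyFinite]
    (A : Finset V) : outerBoundary H ↑A = ↑(bdry H A) := by
  ext w
  simp [outerBoundary, mem_bdry]

lemma nonamenable_product (hd : ∀ i v, ((G i).neighborFinset v).card = d i)
    (hdpos : 0 < ∑ i, d i) {h : ℝ} (hh : 0 < h) {T : Finset (Fin k)} (hT : 0 < T.card)
    (hG : ∀ i ∈ T, ∀ B : Finset (U i), h * B.card ≤ ((bdry (G i) B).card : ℝ)) :
    Nonamenable (boxProduct G) := by
  classical
  have hD : (0 : ℝ) < (∑ i, d i : ℕ) := Nat.cast_pos.2 hdpos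
  refine ⟨T.card * h / (∑ i, d i : ℕ), div_pos (mul_pos (Nat.cast_pos.2 hT) hh) hD,
    fun A hA _ => ?_⟩
  lift A to Finset (∀ i, U i) using hA
  rw [outerBoundary_finset, Set.ncard_coe_finset, Set.ncard_coe_finset]
  have h1 : ∑ x ∈ A, ((boxProduct G).neighborFinset x \ A).card
      ≤ (bdry (boxProduct G) A).card * ∑ i, d i := by
    rw [← card_sigma]
    refine le_trans (card_le_card_of_injOn (t := (bdry (boxProduct G) A).sigma
      fun y => (boxProduct G).neighborFinset y) (fun e => ⟨e.2, e.1⟩) ?_ ?_) ?_
    · rintro ⟨x, y⟩ he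
      simp only [coe_sigma, Set.mem_sigma_iff, mem_coe, mem_sdiff, SimpleGraph.mem_neighborFinset] at he
      simp only [mem_coe, mem_sigma, mem_bdry, SimpleGraph.mem_neighborFinset]
      exact ⟨⟨he.2.2, x, he.1, he.2.1⟩, he.2.1.symm⟩
    · rintro ⟨a, b⟩ _ ⟨a', b'⟩ _ e
      simp only [Sigma.mk.injEq, heq_eq_eq] at e
      simp [e.1, e.2]
    · rw [card_sigma]
      refine le_of_eq ((sum_congr rfl fun y _ => card_neighbor_power hd y).trans ?_)
      rw [sum_const, smul_eq_mul]
  have h2 := (product_iso T hG A).trans (le_of_eq (Nat.cast_sum _ _).symm |>.trans (Nat.cast_le.2 h1))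
  rw [Nat.cast_mul] at h2
  rw [div_mul_eq_mul_div, div_le_iff₀ hD]
  linarith

end Vale.Agent.P165
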