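import Vale.Agent.P165.Link
import Vale.Agent.P165.Power

/-!
High box powers of a nonamenable quasi-transitive regular graph have a nonuniqueness phase.
-/

open MeasureTheory ProbabilityTheory Finset Filter
open scoped unitInterval Topology

namespace Vale.Agent.P165

lemma pu_ge {W : Type*} [DecidableEq W] [Infinite W] (H : SimpleGraph W) [H.LocallyFinite]
    (hH : H.Connected) (hQT : QuasiTransitive H) {l : ℝ} (hl : 0 < l)
    (hwalk : ∀ n x y, walkNum H n x y ≤ l ^ n) : l⁻¹ ≤ pu H := by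
  haveI := countable_of_connected hH
  refine le_csInf ⟨1, 1, rfl, ?_⟩ ?_
  · rw [bondMeasure, setBernoulli_one]
    refine Measure.dirac_apply_of_mem ?_
    have hop : openGraph H H.edgeSet = H := by
      simp [openGraph]
    rw [Set.mem_ofPred_eq, hop]
    obtain ⟨x⟩ := hH.nonempty
    refine ⟨H.connectedComponentMk x, ?_, fun C _ => ?_⟩
    · have : (H.connectedComponentMk x).supp = Set.univ := Set.eq_univ_of_forall fun y =>
        SimpleGraph.ConnectedComponent.sound (hH.preconnected y x)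
      change (H.connectedComponentMk x).supp.Infinite
      rw [this]; exact Set.infinite_univ
    · induction C using SimpleGraph.ConnectedComponent.ind with
      | h y => exact SimpleGraph.ConnectedComponent.sound (hH.preconnected y x)
  · rintro t ⟨p, rfl, hp⟩
    by_contra hlt
    rw [not_le, ← one_div, lt_div_iff₀ hl] at hlt
    exact not_unique hH hQT p hl.le hlt hwalk hp

lemma mem_ball_mono {W : Type*} [DecidableEq W] {H : SimpleGraph W} [H.LocallyFinite] (o : W) :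
    Monotone (ball H o) :=
  monotone_nat_of_le_succ fun _ => subset_union_left

variable {k : ℕ} {U : Fin k → Type*} [∀ i, DecidableEq (U i)] {G : ∀ i, SimpleGraph (U i)}
  [∀ i, (G i).LocallyFinite] {d : Fin k → ℕ} {D : ℕ}

set_option maxHeartbeats 1000000 in
-- the unification with the fibred escape bound is slow
lemma pc_product_le (hG : ∀ i, (G i).Connected)
    (hd : ∀ i v, ((G i).neighborFinset v).card = d i) (hD : ∀ i, d i ≤ D)
    {i₀ i₁ : Fin k} (hne : i₀ ≠ i₁) [Infinite (U i₁)]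
    {M K N : ℕ} (p : I) {r : ℝ} (hp1 : (p : ℝ) < 1) (hp0 : 0 < (p : ℝ))
    (hr0 : 0 < r) (hr1 : r ≤ 1) (hK : 1 ≤ K) (hM : 1 ≤ M)
    (hKd : (K : ℝ) + (D + 1) * Real.logb 2 M ≤ ∑ i ∈ univ.erase i₀, (d i : ℝ))
    (hnum : ((1 - (p : ℝ)) / (1 - p * r)) ^ (K - 1) ≤ r)
    (hiso : ∀ B : Finset (U i₀), B.Nonempty → B.card ≤ N * (bdry (G i₀) B).card)
    (hδ : ((1 - (p : ℝ)) / (1 - p * r)) ^ M * 2 ^ (N + 1) ≤ 1 / 2) :
    pc (boxProduct G) ≤ p := by
  classical
  refine csInf_le ⟨0, ?_⟩ ⟨p, rfl, ?_⟩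
  · rintro t ⟨q, rfl, -⟩; exact q.2.1
  set H := boxProduct G
  set o : ∀ i, U i := fun i => (hG i).nonempty.some
  set v := o i₁
  have hH : H.Connected := connected_product hG
  obtain ⟨X, hX⟩ := Infinite.exists_subset_card_eq (U i₁) M
  choose q hq using fun z => (hG i₁).preconnected v z |>.elim fun w =>
    (⟨w, trivial⟩ : ∃ _ : (G i₁).Walk v z, True)
  let ι := coordHom (G := G) o i₁
  have hιo : ι v = o := Function.update_eq_self i₁ o
  set T₀ : Finset (Sym2 (∀ i, U i)) := X.biUnion fun z => ((q z).map ι).edges.toFinset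
  have hdist : ∀ x, ∃ n, x ∈ ball H o n := fun x => by
    obtain ⟨w⟩ := hH.preconnected x o
    exact ⟨w.length, mem_ball_of_walk w le_rfl⟩
  choose g hg using hdist
  set n₀ := max ((T₀.biUnion fun e => e.toFinset).sup g) ((X.image fun z => ι z).sup g)
  refine exists_infinite_of_escape hH p o (c := (p : ℝ) ^ T₀.card / 2)
    (by positivity) (n₀ := n₀) fun n hn => ?_
  set Λ := ball H o n
  have hπ : ∀ e ∈ T₀, ∀ x ∈ e, x ∈ Λ ∧ x i₀ = o i₀ ∧ e ∈ H.edgeSet := by
    intro e he x hx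
    refine ⟨mem_ball_mono o (le_trans (le_trans (Finset.le_sup (f := g)
      (mem_biUnion.2 ⟨e, he, Sym2.mem_toFinset.2 hx⟩)) (le_max_left _ _)) hn) (hg x), ?_⟩
    obtain ⟨z, -, he⟩ := mem_biUnion.1 he
    rw [List.mem_toFinset] at he
    refine ⟨?_, SimpleGraph.Walk.edges_subset_edgeSet _ he⟩
    simp only [SimpleGraph.Walk.edges_map, List.mem_map] at he
    obtain ⟨e', -, rfl⟩ := he
    obtain ⟨y, -, rfl⟩ := Sym2.mem_map.1 hx
    change Function.update o i₁ y i₀ = o i₀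
    rw [Function.update_of_ne hne]
  have hT : T₀ ⊆ boxEdges H Λ := by
    intro e he
    induction e with
    | h a b =>
      obtain ⟨ha, -, hab⟩ := hπ _ he a (Sym2.mem_mk_left a b)
      exact mem_boxEdges H ha hab
  refine escape (G := G i₀) (π := fun x => x i₀) (L := fun x b => Function.update x i₀ b)
    (fun x b => by simp) ?_ ?_ hp0.le hp1 hr0 hr1 hK hM hnum
    (fun w A hA hAM => fibre_expand hd hD i₀ hKd w A hA hAM) hiso hδ hT ?_
  · exact fun x b hb => boxProduct_adj.2 ⟨i₀, b, hb, rfl⟩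
  · intro x y b h e
    funext j
    by_cases hj : j = i₀
    · subst hj; exact h
    · simpa [hj] using congrFun e j
  · intro u hu
    rw [mem_singleton] at hu
    subst hu
    refine le_trans (le_of_eq ?_) (card_le_card (s := X.image fun z => ι z) fun x hx => ?_)
    · rw [card_image_of_injective _ (fun a b e => by
        have := congrFun e i₁
        change Function.update o i₁ a i₁ = Function.update o i₁ b i₁ at this
        simpa using this), hX]
    · obtain ⟨z, hz, rfl⟩ := mem_image.1 hx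
      simp only [mem_filter, partOver]
      refine ⟨⟨mem_ball_mono o (le_trans (le_trans (Finset.le_sup (f := g)
        (mem_image_of_mem (fun z => ι z) hz)) (le_max_right _ _)) hn) (hg _), o,
        Set.mem_singleton o, ?_⟩, ?_⟩
      · have hwalk : ∀ e ∈ ((q z).map ι).edges,
            e ∈ (SimpleGraph.fromEdgeSet
              (↑(T₀ ∩ edgesOver H (fun x : (∀ i, U i) => x i₀) Λ {o i₀}) : Set _)).edgeSet := by
          intro e he
          have heT : e ∈ T₀ := mem_biUnion.2 ⟨z, hz, List.mem_toFinset.2 he⟩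
          rw [SimpleGraph.edgeSet_fromEdgeSet]
          refine ⟨mem_coe.2 (mem_inter.2 ⟨heT, ?_⟩),
            H.not_isDiag_of_mem_edgeSet (SimpleGraph.Walk.edges_subset_edgeSet _ he)⟩
          exact mem_filter.2 ⟨hT heT, fun x hx => mem_singleton.2 (hπ e heT x hx).2.1⟩
        exact ⟨(((q z).map ι).transfer _ hwalk).copy hιo rfl⟩
      · change Function.update o i₁ z i₀ = o i₀
        rw [Function.update_of_ne hne]

set_option maxHeartbeats 1000000 in
-- several nonlinear certificates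
/-- The choice of the parameters. -/
lemma exists_params (D N : ℕ) (hD1 : 0 < D) {η ρ : ℝ} (hη : 0 < η) (hρ0 : 0 < ρ) (hρ1 : ρ < 1) :
    ∃ k₀ : ℕ, ∀ k : ℕ, k₀ ≤ k → 2 ≤ η * k ∧ ∀ E : ℝ, η * k ≤ E → E ≤ D * k →
      ∃ (p : I) (r : ℝ) (K : ℕ),
      (p : ℝ) < 1 ∧ 0 < (p : ℝ) ∧ 0 < r ∧ r ≤ 1 ∧ 1 ≤ K ∧
      (K : ℝ) + (D + 1) * Real.logb 2 ((k ^ 2 : ℕ) : ℝ) ≤ E - D ∧
      ((1 - (p : ℝ)) / (1 - p * r)) ^ (K - 1) ≤ r ∧
      ((1 - (p : ℝ)) / (1 - p * r)) ^ (k ^ 2) * 2 ^ (N + 1) ≤ 1 / 2 ∧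
      (p : ℝ) < (E * ρ)⁻¹ := by
  have hD' : (1 : ℝ) ≤ D := Nat.one_le_cast.2 hD1
  set c := (1 + ρ⁻¹) / 2 with hc
  have hρi : 1 < ρ⁻¹ := (one_lt_inv₀ hρ0).2 hρ1
  have hc1 : 1 < c := by rw [hc]; linarith
  have hcρ : c * ρ < 1 := by
    have : c < ρ⁻¹ := by rw [hc]; linarith
    calc c * ρ < ρ⁻¹ * ρ := by gcongr
      _ = 1 := inv_mul_cancel₀ hρ0.ne'
  have hlogc : Real.log c < c - 1 := Real.log_lt_sub_one_of_pos (by linarith) hc1.ne'
  set θ := Real.log c / (c - 1) with hθ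
  have hθ1 : θ < 1 := by rw [hθ, div_lt_one (by linarith)]; exact hlogc
  have hθ0 : 0 ≤ θ := div_nonneg (Real.log_nonneg hc1.le) (by linarith)
  have hlim1 : Tendsto (fun k : ℕ => Real.log k / (k : ℝ)) atTop (𝓝 0) :=
    (Real.isLittleO_log_id_atTop.tendsto_div_nhds_zero).comp tendsto_natCast_atTop_atTop
  have hlim2 : Tendsto (fun k : ℕ => Real.exp (-((c - 1) / D) * k) * 2 ^ (N + 1)) atTop (𝓝 0) := by
    have h1 : Tendsto (fun k : ℕ => -((c - 1) / D) * (k : ℝ)) atTop atBot :=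
      tendsto_natCast_atTop_atTop.const_mul_atTop_of_neg (neg_lt_zero.2 (by
        exact div_pos (by linarith) (by linarith)))
    simpa using (Real.tendsto_exp_atBot.comp h1).mul_const ((2 : ℝ) ^ (N + 1))
  set ε := (1 - θ) * η / 2 with hε
  have hε0 : 0 < ε := by rw [hε]; exact div_pos (mul_pos (by linarith) hη) two_pos
  set C₁ := 2 * (D + 1 : ℝ) / Real.log 2 with hC₁
  have hlog2 : 0 < Real.log 2 := Real.log_pos one_lt_two
  have hC₁0 : 0 < C₁ := by rw [hC₁]; positivity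
  obtain ⟨k₁, hk₁⟩ := eventually_atTop.1 ((hlim1.eventually (gt_mem_nhds (div_pos hε0 hC₁0))).and
    (hlim2.eventually (gt_mem_nhds (show (0 : ℝ) < 1 / 2 by norm_num))))
  obtain ⟨k₂, hk₂⟩ := exists_nat_ge ((D + 3 : ℝ) / ε + (c + 2) / η + 1)
  refine ⟨max k₁ k₂, fun k hk => ?_⟩
  obtain ⟨hk1, hk2⟩ := hk₁ k ((le_max_left _ _).trans hk)
  have hkr : (D + 3 : ℝ) / ε + (c + 2) / η + 1 ≤ k :=
    hk₂.trans (Nat.cast_le.2 ((le_max_right _ _).trans hk))
  have hq : 0 ≤ (D + 3 : ℝ) / ε := by positivity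
  have hq' : 0 ≤ (c + 2) / η := by positivity
  have hk0 : (0 : ℝ) < k := by linarith
  have hkc : c + 2 ≤ η * k := by
    have : (c + 2) / η ≤ k := by linarith
    rwa [div_le_iff₀ hη, mul_comm] at this
  refine ⟨by linarith, fun E hE1 hE2 => ?_⟩
  have hE : c < E := by linarith
  have hE0 : 0 < E := by linarith
  let p : I := ⟨c / E, div_nonneg (by linarith) hE0.le, (div_le_one hE0).2 hE.le⟩
  set x : ℝ := E - D - (D + 1) * Real.logb 2 ((k ^ 2 : ℕ) : ℝ) with hx
  have hlogle : (D + 1) * Real.logb 2 ((k ^ 2 : ℕ) : ℝ) ≤ ε * k := by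
    rw [Real.logb, Nat.cast_pow, Real.log_pow, div_lt_iff₀ hk0] at *
    calc (D + 1 : ℝ) * ((2 : ℕ) * Real.log k / Real.log 2) = C₁ * Real.log k := by
          rw [hC₁]; push_cast; ring
      _ ≤ C₁ * (ε / C₁ * k) := mul_le_mul_of_nonneg_left hk1.le hC₁0.le
      _ = ε * k := by field_simp
  have hx1 : θ * E + 3 ≤ x := by
    have h3 : (D + 3 : ℝ) ≤ ε * k := by
      have h4 : (D + 3 : ℝ) / ε ≤ k := by linarith
      rwa [div_le_iff₀ hε0, mul_comm] at h4
    have h5 : 2 * (ε * k) ≤ (1 - θ) * E := by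
      calc 2 * (ε * k) = (1 - θ) * (η * k) := by rw [hε]; ring
        _ ≤ (1 - θ) * E := mul_le_mul_of_nonneg_left hE1 (by linarith)
    rw [hx]
    linarith
  have hθE : 0 ≤ θ * E := mul_nonneg hθ0 hE0.le
  set K := ⌊x⌋₊
  have hKx : (K : ℝ) ≤ x := Nat.floor_le (by linarith)
  have hKlow : x - 1 ≤ (K : ℝ) := (Nat.sub_one_lt_floor x).le
  have hK1 : 1 ≤ K := Nat.le_floor (by push_cast; linarith)
  have hp1 : (p : ℝ) < 1 := (div_lt_one hE0).2 hE
  set β := (1 - (p : ℝ)) / (1 - p * c⁻¹) with hβ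
  have hpr : (p : ℝ) * c⁻¹ = 1 / E := by
    change c / E * c⁻¹ = 1 / E
    field_simp
  have hβe : β ≤ Real.exp (-((c - 1) / E)) := by
    refine le_trans ?_ (Real.add_one_le_exp _)
    rw [hβ, hpr]
    change (1 - c / E) / (1 - 1 / E) ≤ _
    have h1D : 0 < 1 - 1 / E := by rw [sub_pos, div_lt_one hE0]; linarith
    rw [div_le_iff₀ h1D]
    have : 0 ≤ (c - 1) / E * (1 / E) :=
      mul_nonneg (div_nonneg (by linarith) hE0.le) (by positivity)
    have e : (c - 1) / E = c / E - 1 / E := by ring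
    nlinarith
  have hβ0 : 0 ≤ β := div_nonneg (by linarith) (by
    rw [hpr, sub_nonneg, div_le_one hE0]; linarith)
  refine ⟨p, c⁻¹, K, hp1, div_pos (by linarith) hE0, inv_pos.2 (by linarith),
    inv_le_one_of_one_le₀ hc1.le, hK1, by linarith, ?_, ?_, ?_⟩
  · refine (pow_le_pow_left₀ hβ0 hβe _).trans ?_
    rw [← Real.exp_nat_mul, ← Real.exp_log (inv_pos.2 (show (0 : ℝ) < c by linarith)),
      Real.exp_le_exp, Real.log_inv, Nat.cast_sub hK1, Nat.cast_one]
    have h5 : θ * E ≤ (K : ℝ) - 1 := by linarith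
    have h6 : θ * (c - 1) = Real.log c := div_mul_cancel₀ _ (by linarith)
    have h7 : Real.log c ≤ ((K : ℝ) - 1) * ((c - 1) / E) := by
      rw [← h6, mul_div_assoc', le_div_iff₀ hE0]
      nlinarith
    linarith
  · refine le_trans (mul_le_mul_of_nonneg_right (pow_le_pow_left₀ hβ0 hβe _) (by positivity)) ?_
    rw [← Real.exp_nat_mul]
    refine le_trans (mul_le_mul_of_nonneg_right (Real.exp_le_exp.2 ?_) (by positivity)) hk2.le
    push_cast
    have key : (k : ℝ) / D ≤ (k : ℝ) ^ 2 / E := by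
      rw [div_le_div_iff₀ (by linarith) hE0]
      nlinarith [mul_le_mul_of_nonneg_left hE2 hk0.le]
    have := mul_le_mul_of_nonneg_left key (show (0 : ℝ) ≤ c - 1 by linarith)
    calc (k : ℝ) ^ 2 * -((c - 1) / E) = -((c - 1) * ((k : ℝ) ^ 2 / E)) := by ring
      _ ≤ -((c - 1) * ((k : ℝ) / D)) := neg_le_neg this
      _ = -((c - 1) / D) * k := by ring
  · change c / E < (E * ρ)⁻¹
    rw [← one_div, div_lt_div_iff₀ hE0 (mul_pos hE0 hρ0)]
    nlinarith

/-- A nonuniqueness phase for products of many factors. -/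
theorem products_pc_lt_pu (D : ℕ) (h₀ η : ℝ) (hh₀ : 0 < h₀) (hη : 0 < η) :
    ∃ K : ℕ, ∀ k : ℕ, K ≤ k → ∀ (U : Fin k → Type*) (G : ∀ i, SimpleGraph (U i))
      (d : Fin k → ℕ) (T : Finset (Fin k)),
      (∀ i, (G i).Connected ∧ Regular (G i) (d i) ∧ d i ≤ D ∧ QuasiTransitive (G i)) →
      η * k ≤ T.card → (∀ i ∈ T, IsoAtLeast (G i) h₀) →
      (boxProduct G).Connected ∧ Infinite (∀ i, U i) ∧ Regular (boxProduct G) (∑ i, d i) ∧
        QuasiTransitive (boxProduct G) ∧ Nonamenable (boxProduct G) ∧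
        pc (boxProduct G) < pu (boxProduct G) := by
  classical
  set D₁ := max D 1 with hD₁
  have hD₁1 : 1 ≤ D₁ := le_max_right _ _
  have hD₁' : (1 : ℝ) ≤ D₁ := Nat.one_le_cast.2 hD₁1
  obtain ⟨N, hN⟩ := exists_nat_ge h₀⁻¹
  set a := min (η * h₀ / D₁) (1 / 2) with ha
  have ha0 : 0 < a := lt_min (by positivity) (by norm_num)
  have ha1 : a ≤ 1 / 2 := min_le_right _ _
  set ρ := Real.sqrt (1 - a ^ 2) with hρ
  have hρ2 : ρ ^ 2 = 1 - a ^ 2 := Real.sq_sqrt (by nlinarith)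
  have hρ0 : 0 < ρ := Real.sqrt_pos.2 (by nlinarith)
  have hρ1 : ρ < 1 := by nlinarith
  obtain ⟨k₀, hk₀⟩ := exists_params D₁ N hD₁1 hη hρ0 hρ1
  refine ⟨k₀, fun k hk U G d T hG hTcard hT => ?_⟩
  obtain ⟨hk2, hpar⟩ := hk₀ k hk
  letI : ∀ i, (G i).LocallyFinite := fun i v => ((hG i).2.1 v).1.fintype
  have hd : ∀ i v, ((G i).neighborFinset v).card = d i := fun i v => by
    rw [← ((hG i).2.1 v).2, Set.ncard_eq_toFinset_card']
    rfl
  have hconn : ∀ i, (G i).Connected := fun i => (hG i).1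
  have hiso : ∀ i ∈ T, ∀ B : Finset (U i), h₀ * B.card ≤ ((bdry (G i) B).card : ℝ) := by
    intro i hi B
    rcases B.eq_empty_or_nonempty with rfl | hB
    · simp
    have := hT i hi ↑B B.finite_toSet (coe_nonempty.2 hB)
    rwa [outerBoundary_finset, Set.ncard_coe_finset, Set.ncard_coe_finset] at this
  have hinfT : ∀ i ∈ T, Infinite (U i) := by
    intro i hi
    by_contra hfin
    rw [not_infinite_iff_finite] at hfin
    haveI := (hconn i).nonempty
    have := hT i hi Set.univ Set.finite_univ Set.univ_nonempty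
    have he : outerBoundary (G i) (Set.univ : Set (U i)) = ∅ := by ext w; simp [outerBoundary]
    rw [he, Set.ncard_empty, Nat.cast_zero, Set.ncard_univ] at this
    have hpos : (0 : ℝ) < Nat.card (U i) := Nat.cast_pos.2 Nat.card_pos
    nlinarith
  have hT2 : 2 ≤ T.card := by exact_mod_cast hk2.trans hTcard
  obtain ⟨i₀, hi₀, i₁, hi₁, hne⟩ := one_lt_card.1 hT2
  haveI := hinfT i₁ hi₁
  haveI hinf : Infinite (∀ i, U i) :=
    Infinite.of_injective _ (Function.update_injective (fun i => (hconn i).nonempty.some) i₁)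
  have hdT : ∀ i ∈ T, 1 ≤ d i := by
    intro i hi
    haveI := hinfT i hi
    obtain ⟨v⟩ := (hconn i).nonempty
    rw [← hd i v]
    exact card_pos.2 (((hconn i).preconnected.exists_adj_of_nontrivial v).imp fun w hw => by
      simpa using hw)
  set E : ℝ := ((∑ i, d i : ℕ) : ℝ) with hE
  have hE1 : η * k ≤ E := by
    refine hTcard.trans (Nat.cast_le.2 ?_)
    calc T.card = ∑ _i ∈ T, 1 := card_eq_sum_ones T
      _ ≤ ∑ i ∈ T, d i := sum_le_sum hdT
      _ ≤ ∑ i, d i := sum_le_univ_sum_of_nonneg fun i => Nat.zero_le _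
  have hE2 : E ≤ D₁ * k := by
    have : ∑ i, d i ≤ D₁ * k :=
      (sum_le_card_nsmul _ _ D₁ fun i _ => (hG i).2.2.1.trans (le_max_left _ _)).trans
        (le_of_eq (by simp [mul_comm]))
    rw [hE]; exact_mod_cast this
  obtain ⟨p, r, K, hp1, hp0, hr0, hr1, hK1, hKd, hnum, hδ, hlt⟩ := hpar E hE1 hE2
  have hE0 : 0 < E := by linarith
  have hH := connected_product hconn
  have hQTk := quasiTransitive_product fun i => (hG i).2.2.2
  refine ⟨hH, hinf, fun x => ⟨Set.toFinite _, ?_⟩, hQTk,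
    nonamenable_product hd (Nat.cast_pos.1 hE0) hh₀ (by omega) hiso, ?_⟩
  · rw [Set.ncard_eq_toFinset_card', ← card_neighbor_power hd x]
    rfl
  have hl0 : 0 < E * ρ := mul_pos hE0 hρ0
  have haE : a * E ≤ T.card * h₀ := by
    calc a * E ≤ η * h₀ / D₁ * E := mul_le_mul_of_nonneg_right (min_le_left _ _) hE0.le
      _ ≤ η * h₀ / D₁ * (D₁ * k) := mul_le_mul_of_nonneg_left hE2 (by positivity)
      _ = η * k * h₀ := by field_simp
      _ ≤ T.card * h₀ := mul_le_mul_of_nonneg_right hTcard hh₀.le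
  have hl2 : E ^ 2 - ((T.card : ℝ) * h₀) ^ 2 ≤ (E * ρ) ^ 2 := by
    rw [mul_pow E ρ, hρ2]
    nlinarith [pow_le_pow_left₀ (by positivity) haE 2]
  have hwalk : ∀ n x y, walkNum (boxProduct G) n x y ≤ (E * ρ) ^ n :=
    walkNum_le (h := (T.card : ℝ) * h₀) (fun A => product_iso T hiso A) (D := ∑ i, d i)
      (fun x => card_neighbor_power hd x) hl0 hl2 (by positivity)
  have hisoN : ∀ B : Finset (U i₀), B.Nonempty → B.card ≤ N * (bdry (G i₀) B).card := by
    intro B _
    rw [← Nat.cast_le (α := ℝ), Nat.cast_mul]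
    calc (B.card : ℝ) = h₀⁻¹ * (h₀ * B.card) := by field_simp
      _ ≤ N * (bdry (G i₀) B).card :=
        mul_le_mul hN (hiso i₀ hi₀ B) (by positivity) (Nat.cast_nonneg _)
  have hk1 : 1 ≤ k := Nat.one_le_iff_ne_zero.2 fun h => by norm_num [h] at hk2
  refine lt_of_le_of_lt
    (pc_product_le (D := D₁) hconn hd (fun i => (hG i).2.2.1.trans (le_max_left _ _)) hne p hp1 hp0
      hr0 hr1 hK1 (M := k ^ 2) (Nat.one_le_pow _ _ hk1) ?_ hnum hisoN hδ)
    (lt_of_lt_of_le hlt (pu_ge (boxProduct G) hH hQTk hl0 hwalk))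
  refine hKd.trans ?_
  rw [hE, Nat.cast_sum, ← add_sum_erase univ _ (mem_univ i₀)]
  have : (d i₀ : ℝ) ≤ D₁ := Nat.cast_le.2 ((hG i₀).2.2.1.trans (le_max_left _ _))
  linarith

end Vale.Agent.P165
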