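import Vale.Agent.P165.Spectral
import Vale.Agent.P165.Cluster

/-!
From finite sets of edges to percolation on the whole graph.
-/

open MeasureTheory ProbabilityTheory Finset
open scoped unitInterval ENNReal

namespace Vale.Agent.P165

variable {W : Type*} [DecidableEq W] {H : SimpleGraph W} [H.LocallyFinite]

/-- The trace of a configuration on a finite edge set. -/
noncomputable def trace (U : Finset (Sym2 W)) (ω : Set (Sym2 W)) : Finset (Sym2 W) :=
  open scoped Classical in U.filter fun e => e ∈ ω

lemma bond_trace_eq (p : I) {U S : Finset (Sym2 W)} (hU : ↑U ⊆ H.edgeSet) (hS : S ⊆ U) :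
    bondMeasure H p {ω | trace U ω = S} = ENNReal.ofReal (wt (p : ℝ) U S) := by
  classical
  have hp0 : (0 : ℝ) ≤ p := p.2.1
  have hp1 : (0 : ℝ) ≤ 1 - p := by linarith [p.2.2]
  rw [bondMeasure, setBernoulli_apply']
  have : (fun q : Sym2 W → Prop => {i | q i}) ⁻¹' {ω | trace U ω = S}
      = Set.pi (↑U) fun e => {q : Prop | q ↔ e ∈ S} := by
    ext q
    simp only [trace, Set.mem_preimage, Set.mem_ofPred_eq, Set.mem_pi, mem_coe]
    constructor
    · intro h e he; rw [← h]; simp [he]
    · intro h; ext e; simp only [mem_filter]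
      exact ⟨fun ⟨a, b⟩ => (h e a).1 b, fun he => ⟨hS he, (h e (hS he)).2 he⟩⟩
  rw [this, Measure.infinitePi_pi _ (fun _ _ => MeasurableSet.of_discrete)]
  have hfac : ∀ e ∈ U, (unitInterval.toNNReal p • Measure.dirac (e ∈ H.edgeSet)
      + unitInterval.toNNReal (σ p) • Measure.dirac False) {q : Prop | q ↔ e ∈ S}
      = ENNReal.ofReal (if e ∈ S then (p : ℝ) else 1 - p) := by
    intro e he
    have hE : (e ∈ H.edgeSet) = True := eq_true (hU he)
    simp only [hE, Measure.coe_add, Pi.add_apply, Measure.smul_apply,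
      Measure.dirac_apply' _ MeasurableSet.of_discrete]
    by_cases heS : e ∈ S <;>
      simp [heS, ENNReal.ofReal, Real.toNNReal_of_nonneg, hp0, hp1] <;>
      exact congrArg _ (Subtype.ext rfl)
  rw [prod_congr rfl hfac, ← ENNReal.ofReal_prod_of_nonneg (fun e _ => by split <;> assumption)]
  congr 1
  rw [prod_ite, prod_const, prod_const, wt, filter_mem_eq_inter, inter_eq_right.2 hS,
    filter_notMem_eq_sdiff]

lemma bond_pr_le (p : I) {U : Finset (Sym2 W)} (hU : ↑U ⊆ H.edgeSet)
    (Q : Finset (Sym2 W) → Prop) :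
    bondMeasure H p {ω | Q (trace U ω)} ≤ ENNReal.ofReal (pr (p : ℝ) U Q) := by
  classical
  rw [pr, ENNReal.ofReal_sum_of_nonneg (fun S _ => wt_nonneg p.2.1 p.2.2 U S)]
  calc bondMeasure H p {ω | Q (trace U ω)}
      ≤ bondMeasure H p (⋃ S ∈ U.powerset.filter Q, {ω | trace U ω = S}) :=
        measure_mono fun ω h => Set.mem_iUnion₂.2
          ⟨_, mem_filter.2 ⟨mem_powerset.2 (filter_subset _ _), h⟩, rfl⟩
    _ ≤ _ := measure_biUnion_finset_le _ _
    _ = _ := by
      refine sum_congr (by congr!) fun S hS => bond_trace_eq p hU ?_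
      simp only [mem_filter, mem_powerset] at hS
      exact hS.1

lemma mem_ball_of_walk {x y : W} (q : H.Walk x y) {n : ℕ} (hn : q.length ≤ n) :
    x ∈ ball H y n := by
  induction q generalizing n with
  | nil =>
    induction n with
    | zero => simp [ball]
    | succ n ih => exact mem_union_left _ (ih (Nat.zero_le _))
  | @cons a b c hab q ih =>
    obtain ⟨m, rfl⟩ := Nat.exists_eq_succ_of_ne_zero (show n ≠ 0 by simp at hn; omega)
    exact mem_union_right _ (mem_biUnion.2 ⟨b, ih (by simpa using hn), by simpa using hab.symm⟩)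

lemma countable_of_connected (hH : H.Connected) : Countable W := by
  obtain ⟨o⟩ := hH.nonempty
  have : (Set.univ : Set W) = ⋃ n : ℕ, (ball H o n : Set W) := by
    refine Set.eq_univ_of_forall (fun x => ?_) |>.symm
    obtain ⟨q⟩ := hH.preconnected x o
    exact Set.mem_iUnion.2 ⟨q.length, mem_ball_of_walk q le_rfl⟩
  exact Set.countable_univ_iff.1 (this ▸ Set.countable_iUnion fun n => (Finset.finite_toSet _).countable)

lemma openGraph_le (ω : Set (Sym2 W)) : openGraph H ω ≤ H := inf_le_left

lemma boxEdges_edge {Λ : Finset W} {e : Sym2 W}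
    (he : e ∈ Λ.biUnion fun x => (H.neighborFinset x).image fun y => s(x, y)) :
    e ∈ H.edgeSet := by
  simp only [mem_biUnion, mem_image, SimpleGraph.mem_neighborFinset] at he
  obtain ⟨x, _, y, hxy, rfl⟩ := he
  exact hxy

lemma cl_le_cluster (o : W) {U : Finset (Sym2 W)} (hU : ↑U ⊆ H.edgeSet) (ω : Set (Sym2 W)) :
    cl {o} (trace U ω) ⊆ {y | (openGraph H ω).Reachable o y} := by
  rintro y ⟨x, hx, h⟩
  rw [Set.mem_singleton_iff] at hx
  subst hx
  refine h.mono fun a b hab => ?_
  simp only [SimpleGraph.fromEdgeSet_adj, trace, mem_coe, mem_filter] at hab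
  exact ⟨hU hab.1.1, (SimpleGraph.fromEdgeSet_adj _).2 ⟨hab.1.2, hab.2⟩⟩

/-- An infinite cluster exists with positive probability once escape from every box is likely. -/
theorem exists_infinite_of_escape (hH : H.Connected) (p : I) (o : W) {c : ℝ} (hc : 0 < c)
    {n₀ : ℕ}
    (hesc : ∀ n, n₀ ≤ n → pr (p : ℝ)
      ((ball H o n).biUnion fun x => (H.neighborFinset x).image fun y => s(x, y))
      (fun S => cl {o} S ⊆ ↑(ball H o n)) ≤ 1 - c) :
    0 < bondMeasure H p {ω | ∃ C : (openGraph H ω).ConnectedComponent, C.supp.Infinite} := by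
  classical
  haveI := countable_of_connected hH
  haveI : IsProbabilityMeasure (bondMeasure H p) := by unfold bondMeasure; infer_instance
  set μ := bondMeasure H p
  set K : ℕ → Set (Set (Sym2 W)) := fun n =>
    {ω | {y | (openGraph H ω).Reachable o y} ⊆ ↑(ball H o n)}
  have hK : Monotone K := by
    exact monotone_nat_of_le_succ fun n ω h =>
      Set.Subset.trans h (Finset.coe_subset.2 subset_union_left)
  have hle : ∀ n, μ (K n) ≤ ENNReal.ofReal (1 - c) := by
    intro n
    refine (measure_mono (hK (le_max_left n n₀))).trans ?_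
    refine le_trans (measure_mono ?_) ((bond_pr_le p (fun e he => boxEdges_edge (Finset.mem_coe.1 he))
      _).trans (ENNReal.ofReal_le_ofReal (hesc _ (le_max_right n n₀))))
    exact fun ω h => (cl_le_cluster o (fun e he => boxEdges_edge (Finset.mem_coe.1 he)) ω).trans h
  have hU : μ (⋃ n, K n) ≤ ENNReal.ofReal (1 - c) :=
    le_of_tendsto' (tendsto_measure_iUnion_atTop hK) hle
  have hcover : (Set.univ : Set (Set (Sym2 W))) ⊆ (⋃ n, K n) ∪
      {ω | ∃ C : (openGraph H ω).ConnectedComponent, C.supp.Infinite} := by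
    intro ω _
    by_cases hfin : {y | (openGraph H ω).Reachable o y}.Finite
    · left
      have hb : ∀ y, ∃ n, y ∈ ball H o n := fun y => by
        obtain ⟨q⟩ := hH.preconnected y o
        exact ⟨q.length, mem_ball_of_walk q le_rfl⟩
      choose g hg using hb
      refine Set.mem_iUnion.2 ⟨hfin.toFinset.sup g, fun y hy => ?_⟩
      have hmono : Monotone fun n => ball H o n :=
        monotone_nat_of_le_succ fun n => subset_union_left
      exact hmono (Finset.le_sup (f := g) (hfin.mem_toFinset.2 hy)) (hg y)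
    · right
      refine ⟨(openGraph H ω).connectedComponentMk o, fun h => hfin (h.subset ?_)⟩
      intro y hy
      exact SimpleGraph.ConnectedComponent.sound hy.symm
  by_contra h0
  rw [not_lt, nonpos_iff_eq_zero] at h0
  have : (1 : ℝ≥0∞) ≤ ENNReal.ofReal (1 - c) + 0 := by
    calc (1 : ℝ≥0∞) = μ Set.univ := measure_univ.symm
      _ ≤ _ := (measure_mono hcover).trans (measure_union_le _ _)
      _ ≤ _ := add_le_add hU h0.le
  rw [add_zero] at this
  exact absurd this (not_le.2 (ENNReal.ofReal_lt_one.2 (by linarith)))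

lemma measurableSet_mem (e : Sym2 W) : MeasurableSet {ω : Set (Sym2 W) | e ∈ ω} :=
  measurableSet_setOfPred.2 (measurable_set_mem e)

lemma reach_eq (x y : W) : {ω : Set (Sym2 W) | (openGraph H ω).Reachable x y}
    = ⋃ n : ℕ, ⋃ q ∈ H.finsetWalkLength n x y, ⋂ e ∈ q.edges.toFinset, {ω | e ∈ ω} := by
  ext ω
  simp only [Set.mem_ofPred_eq, Set.mem_iUnion, Set.mem_iInter, List.mem_toFinset]
  constructor
  · rintro ⟨q⟩
    refine ⟨(q.mapLe (openGraph_le ω)).length, q.mapLe (openGraph_le ω),
      H.mem_finsetWalkLength_iff.2 rfl, fun e he => ?_⟩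
    simp only [SimpleGraph.Walk.edges_mapLe_eq_edges] at he
    have := q.edges_subset_edgeSet he
    rw [openGraph, SimpleGraph.edgeSet_inf, SimpleGraph.edgeSet_fromEdgeSet] at this
    exact this.2.1
  · rintro ⟨n, q, -, hq⟩
    refine ⟨q.transfer _ fun e he => ?_⟩
    rw [openGraph, SimpleGraph.edgeSet_inf, SimpleGraph.edgeSet_fromEdgeSet]
    have hE := q.edges_subset_edgeSet he
    exact ⟨hE, hq e he, H.not_isDiag_of_mem_edgeSet hE⟩

lemma measurableSet_reach (x y : W) :
    MeasurableSet {ω : Set (Sym2 W) | (openGraph H ω).Reachable x y} := by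
  rw [reach_eq]
  exact .iUnion fun n => Finset.measurableSet_biUnion _ fun q _ =>
    Finset.measurableSet_biInter _ fun e _ => measurableSet_mem e

/-- The event that the cluster of `x` is infinite. -/
def infAt (H : SimpleGraph W) (x : W) : Set (Set (Sym2 W)) :=
  {ω | {y | (openGraph H ω).Reachable x y}.Infinite}

lemma measurableSet_infAt [Countable W] (x : W) : MeasurableSet (infAt H x) := by
  have : infAt H x = ⋂ s : Finset W, ⋃ y ∈ {y | y ∉ s},
      {ω : Set (Sym2 W) | (openGraph H ω).Reachable x y} := by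
    ext ω
    simp only [infAt, Set.mem_ofPred_eq, Set.mem_iInter, Set.mem_iUnion, exists_prop]
    exact ⟨fun h s => (h.exists_notMem_finset s).imp fun y hy => ⟨hy.2, hy.1⟩,
      fun h hfin => by
        obtain ⟨y, hy, hy'⟩ := h hfin.toFinset
        exact hy (hfin.mem_toFinset.2 hy')⟩
  rw [this]
  exact .iInter fun s => .biUnion (Set.to_countable _) fun y _ => measurableSet_reach x y

/-- Connection probabilities decay exponentially below the reciprocal of the walk growth. -/
lemma reach_le (p : I) {l : ℝ} (hl : 0 ≤ l) (hlt : (p : ℝ) * l < 1)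
    (hwalk : ∀ n x y, walkNum H n x y ≤ l ^ n) {x y : W} {m : ℕ} (hm : x ∉ ball H y m) :
    bondMeasure H p {ω | (openGraph H ω).Reachable x y}
      ≤ ENNReal.ofReal (((p : ℝ) * l) ^ m / (1 - p * l)) := by
  classical
  have hq0 : 0 ≤ (p : ℝ) * l := mul_nonneg p.2.1 hl
  have hsub : {ω : Set (Sym2 W) | (openGraph H ω).Reachable x y} ⊆ ⋃ n : ℕ,
      ⋃ q ∈ (H.finsetWalkLength (m + n) x y).filter SimpleGraph.Walk.IsPath,
        {ω | ∀ e ∈ q.edges, e ∈ ω} := by
    rintro ω ⟨q⟩
    set q' : H.Walk x y := q.bypass.mapLe (openGraph_le ω) with hq'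
    have hlen : m ≤ q'.length := le_of_lt (by
      by_contra h
      exact hm (mem_ball_of_walk q' (by omega)))
    refine Set.mem_iUnion.2 ⟨q'.length - m, Set.mem_iUnion₂.2 ⟨q', mem_filter.2
      ⟨H.mem_finsetWalkLength_iff.2 (by omega), ?_⟩, fun e he => ?_⟩⟩
    · exact (SimpleGraph.Walk.isPath_mapLe _).2 q.bypass_isPath
    · simp only [hq', SimpleGraph.Walk.edges_mapLe_eq_edges] at he
      have := q.bypass.edges_subset_edgeSet he
      rw [openGraph, SimpleGraph.edgeSet_inf, SimpleGraph.edgeSet_fromEdgeSet] at this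
      exact this.2.1
  have hterm : ∀ n, bondMeasure H p (⋃ q ∈ (H.finsetWalkLength (m + n) x y).filter
      SimpleGraph.Walk.IsPath, {ω | ∀ e ∈ q.edges, e ∈ ω})
      ≤ ENNReal.ofReal (((p : ℝ) * l) ^ (m + n)) := by
    intro n
    refine (measure_biUnion_finset_le _ _).trans ?_
    have he : ∀ q ∈ (H.finsetWalkLength (m + n) x y).filter SimpleGraph.Walk.IsPath,
        bondMeasure H p {ω | ∀ e ∈ q.edges, e ∈ ω} ≤ ENNReal.ofReal ((p : ℝ) ^ (m + n)) := by
      intro q hq
      simp only [mem_filter, SimpleGraph.mem_finsetWalkLength_iff] at hq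
      have hnd : q.edges.toFinset.card = m + n := by
        rw [List.toFinset_card_of_nodup hq.2.edges_nodup, SimpleGraph.Walk.length_edges, hq.1]
      refine le_trans (measure_mono ?_) ((bond_pr_le p (U := q.edges.toFinset)
        (fun e h => q.edges_subset_edgeSet (List.mem_toFinset.1 h))
        (fun S => q.edges.toFinset ⊆ S)).trans_eq ?_)
      · intro ω h e he
        exact mem_filter.2 ⟨he, h e (List.mem_toFinset.1 he)⟩
      · rw [pr_all_open _ subset_rfl, hnd]
    refine (sum_le_sum he).trans ?_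
    rw [sum_const, ← ENNReal.ofReal_nsmul, mul_pow, mul_comm, nsmul_eq_mul]
    refine ENNReal.ofReal_le_ofReal (mul_le_mul_of_nonneg_right ?_ (pow_nonneg p.2.1 _))
    exact (Nat.cast_le.2 (card_filter_le _ _)).trans (hwalk (m + n) x y)
  refine (measure_mono hsub).trans ((measure_iUnion_le _).trans ((ENNReal.tsum_le_tsum hterm).trans ?_))
  simp only [pow_add]
  rw [← ENNReal.ofReal_tsum_of_nonneg (fun n => by positivity)
    ((summable_geometric_of_lt_one hq0 hlt).mul_left _), tsum_mul_left,
    tsum_geometric_of_lt_one hq0 hlt, div_eq_mul_inv]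

lemma bond_map_iso [Countable W] (p : I) (φ : H ≃g H) :
    (bondMeasure H p).map (fun ω => (Sym2.map φ) ⁻¹' ω) = bondMeasure H p := by
  set E : Sym2 W ≃ Sym2 W := ⟨Sym2.map φ.symm, Sym2.map φ,
    fun e => by induction e with | h a b => simp,
    fun e => by induction e with | h a b => simp⟩ with hE
  set ν : Sym2 W → Measure Prop := fun i =>
    unitInterval.toNNReal p • Measure.dirac (i ∈ H.edgeSet)
      + unitInterval.toNNReal (σ p) • Measure.dirac False with hν
  haveI : ∀ i, IsProbabilityMeasure (ν i) := fun i => ⟨by simp [hν]⟩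
  have hmem : ∀ i, (E i ∈ H.edgeSet) ↔ i ∈ H.edgeSet := by
    intro i
    induction i with
    | h a b =>
      simpa [hE] using (φ.symm.map_adj_iff (v := a) (w := b))
  have hνE : (fun i => ν (E i)) = ν := funext fun i => by simp only [hν, hmem i]
  have hmap := Measure.infinitePi_map_piCongrLeft (μ := ν) E
  rw [hνE] at hmap
  have hm : Measurable fun (q : Sym2 W → Prop) => {i | q i} := MeasurableEquiv.setOfPred.measurable
  have hpre : Measurable fun ω : Set (Sym2 W) => (Sym2.map φ) ⁻¹' ω :=
    measurable_set_iff.2 fun e => measurable_set_mem _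
  rw [bondMeasure, setBernoulli_eq_map, Measure.map_map hpre hm]
  conv_rhs => rw [← hmap]
  rw [Measure.map_map hm (MeasurableEquiv.measurable _)]
  congr 1
  funext q
  ext e
  simp only [Function.comp_apply, Set.mem_preimage, Set.mem_ofPred_eq]
  have : Sym2.map φ e = E.symm e := by simp [hE]
  rw [this]
  conv_rhs => rw [← E.apply_symm_apply e, MeasurableEquiv.piCongrLeft_apply_apply]

lemma infAt_iso [Countable W] (p : I) (φ : H ≃g H) (x : W) :
    bondMeasure H p (infAt H (φ x)) = bondMeasure H p (infAt H x) := by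
  have hpre : Measurable fun ω : Set (Sym2 W) => (Sym2.map φ) ⁻¹' ω :=
    measurable_set_iff.2 fun e => measurable_set_mem _
  conv_rhs => rw [← bond_map_iso p φ, Measure.map_apply hpre (measurableSet_infAt x)]
  congr 1
  ext ω
  let ψ : openGraph H ((Sym2.map φ) ⁻¹' ω) ≃g openGraph H ω :=
    ⟨φ.toEquiv, fun {a b} => by simp [openGraph, φ.map_adj_iff]⟩
  have himg : {y | (openGraph H ω).Reachable (φ x) y}
      = φ '' {y | (openGraph H ((Sym2.map φ) ⁻¹' ω)).Reachable x y} := by
    ext y
    simp only [Set.mem_image, Set.mem_ofPred_eq]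
    constructor
    · intro h
      refine ⟨φ.symm y, ?_, φ.apply_symm_apply y⟩
      have := h.map ψ.symm.toHom
      convert this using 1
      · exact (φ.symm_apply_apply x).symm
      · rfl
    · rintro ⟨z, hz, rfl⟩
      exact hz.map ψ.toHom
  simp only [infAt, Set.mem_preimage, Set.mem_ofPred_eq, himg,
    Set.infinite_image_iff φ.injective.injOn]

/-- No uniqueness below the reciprocal of the walk growth. -/
theorem not_unique [Infinite W] (hH : H.Connected) (hQT : QuasiTransitive H) (p : I) {l : ℝ}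
    (hl : 0 ≤ l) (hlt : (p : ℝ) * l < 1) (hwalk : ∀ n x y, walkNum H n x y ≤ l ^ n) :
    bondMeasure H p
      {ω | ∃! C : (openGraph H ω).ConnectedComponent, C.supp.Infinite} ≠ 1 := by
  classical
  haveI := countable_of_connected hH
  haveI : IsProbabilityMeasure (bondMeasure H p) := by unfold bondMeasure; infer_instance
  intro hone
  set μ := bondMeasure H p
  set Un := {ω : Set (Sym2 W) | ∃! C : (openGraph H ω).ConnectedComponent, C.supp.Infinite}
  have hsupp : ∀ (ω : Set (Sym2 W)) (z : W), ((openGraph H ω).connectedComponentMk z).supp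
      = {y | (openGraph H ω).Reachable z y} := fun ω z => Set.ext fun y =>
    ⟨fun h => (SimpleGraph.ConnectedComponent.exact h).symm,
      fun h => SimpleGraph.ConnectedComponent.sound h.symm⟩
  -- some vertex percolates
  obtain ⟨x, hx⟩ : ∃ x, 0 < μ (infAt H x) := by
    by_contra h
    push Not at h
    have : μ (⋃ x, infAt H x) = 0 :=
      measure_iUnion_null fun x => nonpos_iff_eq_zero.1 (h x)
    have hsub : Un ⊆ ⋃ x, infAt H x := by
      rintro ω ⟨C, hC, -⟩
      induction C using SimpleGraph.ConnectedComponent.ind with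
      | h z => exact Set.mem_iUnion.2 ⟨z, by simpa [infAt, hsupp] using hC⟩
    have := measure_mono (μ := μ) hsub
    rw [hone, ‹μ (⋃ x, infAt H x) = 0›] at this
    simp at this
  -- its orbit is infinite
  obtain ⟨F, hFfin, hF⟩ := hQT
  set O := {y | ∃ φ : H ≃g H, φ x = y}
  have hO : O.Infinite := by
    intro hOfin
    set R := hFfin.toFinset.sup fun f => ((hH.preconnected x f).some).length
    have : (Set.univ : Set W) ⊆ ↑(hOfin.toFinset.biUnion fun y => ball H y R) := by
      intro v _
      obtain ⟨φ, hφ⟩ := hF v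
      let q := (((hH.preconnected x (φ v)).some.map φ.symm.toHom).reverse).copy
        (φ.symm_apply_apply v) rfl
      refine Finset.mem_coe.2 (mem_biUnion.2 ⟨φ.symm x, hOfin.mem_toFinset.2 ⟨φ.symm, rfl⟩,
        mem_ball_of_walk q ?_⟩)
      simpa [q] using Finset.le_sup (f := fun f => ((hH.preconnected x f).some).length)
        (hFfin.mem_toFinset.2 hφ)
    exact Set.infinite_univ ((Finset.finite_toSet _).subset this)
  set θ := (μ (infAt H x)).toReal
  have hθ : 0 < θ := ENNReal.toReal_pos hx.ne' (measure_ne_top _ _)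
  obtain ⟨N, hN⟩ := exists_nat_gt (2 / θ)
  obtain ⟨m, hm⟩ : ∃ m : ℕ, ((p : ℝ) * l) ^ m / (1 - p * l) * (N * N) < 1 := by
    have h := ((tendsto_pow_atTop_nhds_zero_of_lt_one (mul_nonneg p.2.1 hl) hlt).div_const
      (1 - (p : ℝ) * l)).mul_const ((N : ℝ) * N)
    rw [zero_div, zero_mul] at h
    exact ((tendsto_order.1 h).2 1 one_pos).exists
  set η := ((p : ℝ) * l) ^ m / (1 - p * l) with hη
  have hη0 : 0 ≤ η := div_nonneg (pow_nonneg (mul_nonneg p.2.1 hl) _) (by linarith)
  -- many far apart points of the orbit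
  have hfar : ∀ n : ℕ, ∃ P : Finset W, P.card = n ∧ ↑P ⊆ O ∧
      ∀ a ∈ P, ∀ b ∈ P, a ≠ b → a ∉ ball H b m ∨ b ∉ ball H a m := by
    intro n
    induction n with
    | zero => exact ⟨∅, rfl, by simp, by simp⟩
    | succ n ih =>
      obtain ⟨P, hP, hPO, hPf⟩ := ih
      obtain ⟨z, hzO, hz⟩ := hO.exists_notMem_finset (P.biUnion (fun b => ball H b m) ∪ P)
      simp only [mem_union, mem_biUnion, not_or, not_exists, not_and] at hz
      refine ⟨insert z P, by rw [card_insert_of_notMem hz.2, hP],
        by rw [coe_insert]; exact Set.insert_subset hzO hPO, ?_⟩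
      intro a ha b hb hab
      rcases mem_insert.1 ha with rfl | ha' <;> rcases mem_insert.1 hb with rfl | hb'
      · exact absurd rfl hab
      · exact Or.inl (hz.1 b hb')
      · exact Or.inr (hz.1 a ha')
      · exact hPf a ha' b hb' hab
  obtain ⟨P, hPc, hPO, hPf⟩ := hfar N
  have hpair : ∀ a ∈ P, ∀ b ∈ P, a ≠ b →
      μ.real (infAt H a ∩ infAt H b ∩ Un) ≤ η := by
    intro a ha b hb hab
    have hsub : infAt H a ∩ infAt H b ∩ Un ⊆ {ω | (openGraph H ω).Reachable a b} := by
      rintro ω ⟨⟨h1, h2⟩, C, -, huniq⟩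
      exact SimpleGraph.ConnectedComponent.exact
        ((huniq ((openGraph H ω).connectedComponentMk a) (by simpa [infAt, hsupp] using h1)).trans
          (huniq ((openGraph H ω).connectedComponentMk b) (by simpa [infAt, hsupp] using h2)).symm)
    refine ENNReal.toReal_le_of_le_ofReal hη0 ((measure_mono hsub).trans ?_)
    rcases hPf a ha b hb hab with h | h
    · exact reach_le p hl hlt hwalk h
    · refine le_trans (le_of_eq ?_) (reach_le p hl hlt hwalk h)
      congr 1
      exact Set.ext fun ω => ⟨fun h => h.symm, fun h => h.symm⟩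
  have hUmeas : MeasurableSet Un := by
    have : Un = (⋃ z, infAt H z) ∩ ⋂ a, ⋂ b,
        ((infAt H a)ᶜ ∪ (infAt H b)ᶜ ∪ {ω | (openGraph H ω).Reachable a b}) := by
      ext ω
      simp only [Un, Set.mem_ofPred_eq, Set.mem_inter_iff, Set.mem_iUnion, Set.mem_iInter,
        Set.mem_union, Set.mem_compl_iff]
      constructor
      · rintro ⟨C, hC, hu⟩
        refine ⟨?_, fun a b => ?_⟩
        · induction C using SimpleGraph.ConnectedComponent.ind with
          | h z => exact ⟨z, by simpa [infAt, hsupp] using hC⟩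
        · by_cases h1 : ω ∈ infAt H a
          · by_cases h2 : ω ∈ infAt H b
            · exact Or.inr (SimpleGraph.ConnectedComponent.exact
                ((hu _ (by simpa [infAt, hsupp] using h1)).trans
                  (hu _ (by simpa [infAt, hsupp] using h2)).symm))
            · exact Or.inl (Or.inr h2)
          · exact Or.inl (Or.inl h1)
      · rintro ⟨⟨z, hz⟩, hall⟩
        refine ⟨(openGraph H ω).connectedComponentMk z, by simpa [infAt, hsupp] using hz, ?_⟩
        intro C
        induction C using SimpleGraph.ConnectedComponent.ind with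
        | h b =>
          intro hb
          rcases hall b z with (h | h) | h
          · exact absurd (by simpa [infAt, hsupp] using hb) h
          · exact absurd hz h
          · exact SimpleGraph.ConnectedComponent.sound h
    rw [this]
    exact (MeasurableSet.iUnion fun z => measurableSet_infAt z).inter
      (.iInter fun a => .iInter fun b =>
        ((measurableSet_infAt a).compl.union (measurableSet_infAt b).compl).union
          (measurableSet_reach a b))
  have hcompl : μ Unᶜ = 0 := (prob_compl_eq_zero_iff hUmeas).2 hone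
  set Y : W → Set (Set (Sym2 W)) := fun a =>
    (infAt H a ∩ Un) \ ⋃ b ∈ P.erase a, infAt H b
  have hYmeas : ∀ a, MeasurableSet (Y a) := fun a =>
    ((measurableSet_infAt a).inter hUmeas).diff
      (Finset.measurableSet_biUnion _ fun b _ => measurableSet_infAt b)
  have hY : ∀ a ∈ P, θ - N * η ≤ μ.real (Y a) := by
    intro a ha
    have hsub : infAt H a ⊆ Y a ∪ Unᶜ ∪ ⋃ b ∈ P.erase a, (infAt H a ∩ infAt H b ∩ Un) := by
      intro ω hω
      by_cases hu : ω ∈ Un
      · by_cases h : ω ∈ ⋃ b ∈ P.erase a, infAt H b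
        · obtain ⟨b, hb, hωb⟩ := Set.mem_iUnion₂.1 h
          exact Or.inr (Set.mem_iUnion₂.2 ⟨b, hb, ⟨hω, hωb⟩, hu⟩)
        · exact Or.inl (Or.inl ⟨⟨hω, hu⟩, h⟩)
      · exact Or.inl (Or.inr hu)
    have hθa : θ = μ.real (infAt H a) := by
      obtain ⟨φ, rfl⟩ := hPO ha
      rw [measureReal_def, infAt_iso]
    have h1 : μ.real (infAt H a) ≤ μ.real (Y a) + μ.real Unᶜ
        + ∑ b ∈ P.erase a, μ.real (infAt H a ∩ infAt H b ∩ Un) :=
      ((measureReal_mono hsub).trans (measureReal_union_le _ _)).trans
        (add_le_add (measureReal_union_le _ _) (measureReal_biUnion_finset_le _ _))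
    have h2 : ∑ b ∈ P.erase a, μ.real (infAt H a ∩ infAt H b ∩ Un) ≤ N * η := by
      refine (sum_le_card_nsmul _ _ η fun b hb => hpair a ha b (mem_of_mem_erase hb)
        (ne_of_mem_erase hb).symm).trans ?_
      rw [nsmul_eq_mul, ← hPc]
      exact mul_le_mul_of_nonneg_right (Nat.cast_le.2 (card_erase_le)) hη0
    have h3 : μ.real Unᶜ = 0 := by simp [measureReal_def, hcompl]
    linarith
  have hdisj : (↑P : Set W).PairwiseDisjoint Y := fun a ha b hb hab =>
    Set.disjoint_left.2 fun ω h1 h2 =>
      h1.2 (Set.mem_iUnion₂.2 ⟨b, mem_erase.2 ⟨Ne.symm hab, hb⟩, h2.1.1⟩)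
  have htot : ∑ a ∈ P, μ.real (Y a) ≤ 1 :=
    (measureReal_biUnion_finset hdisj (fun a _ => hYmeas a)).symm.trans_le measureReal_le_one
  have := (card_nsmul_le_sum P _ (θ - N * η) hY).trans htot
  rw [hPc, nsmul_eq_mul] at this
  rw [div_lt_iff₀ hθ] at hN
  nlinarith

end Vale.Agent.P165
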