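import Vale.Agent.P165.Defs

/-!
Finite product Bernoulli weights: independence over disjoint coordinate sets and thinning.
-/

open Finset

namespace Vale.Agent.P165

variable {α : Type*} [DecidableEq α]

/-- Weight of the open set `S` inside the coordinate set `U`. -/
def wt (p : ℝ) (U S : Finset α) : ℝ := p ^ S.card * (1 - p) ^ (U \ S).card

/-- Probability of an event on the coordinate set `U`. -/
noncomputable def pr (p : ℝ) (U : Finset α) (Q : Finset α → Prop) : ℝ :=
  open scoped Classical in ∑ S ∈ U.powerset with Q S, wt p U S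

lemma wt_nonneg {p : ℝ} (h0 : 0 ≤ p) (h1 : p ≤ 1) (U S : Finset α) : 0 ≤ wt p U S :=
  mul_nonneg (pow_nonneg h0 _) (pow_nonneg (by linarith) _)

lemma wt_sum (p : ℝ) (U : Finset α) : ∑ S ∈ U.powerset, wt p U S = 1 := by
  have := Finset.prod_add (fun _ : α => p) (fun _ => 1 - p) U
  simpa [wt] using this.symm

lemma pr_true (p : ℝ) (U : Finset α) : pr p U (fun _ => True) = 1 := by
  simp [pr, wt_sum]

lemma pr_congr {p : ℝ} {U : Finset α} {Q R : Finset α → Prop}
    (h : ∀ S, S ⊆ U → (Q S ↔ R S)) : pr p U Q = pr p U R := by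
  classical
  refine Finset.sum_congr ?_ (fun _ _ => rfl)
  ext S
  simp only [mem_filter, mem_powerset]
  exact ⟨fun ⟨a, b⟩ => ⟨a, (h S a).1 b⟩, fun ⟨a, b⟩ => ⟨a, (h S a).2 b⟩⟩

lemma pr_nonneg {p : ℝ} (h0 : 0 ≤ p) (h1 : p ≤ 1) (U : Finset α) (Q : Finset α → Prop) :
    0 ≤ pr p U Q :=
  Finset.sum_nonneg fun S _ => wt_nonneg h0 h1 U S

lemma pr_mono {p : ℝ} (h0 : 0 ≤ p) (h1 : p ≤ 1) {U : Finset α} {Q R : Finset α → Prop}
    (h : ∀ S, S ⊆ U → Q S → R S) : pr p U Q ≤ pr p U R := by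
  classical
  refine Finset.sum_le_sum_of_subset_of_nonneg ?_ (fun S _ _ => wt_nonneg h0 h1 U S)
  intro S
  simp only [mem_filter, mem_powerset]
  exact fun ⟨a, b⟩ => ⟨a, h S a b⟩

lemma pr_le_one {p : ℝ} (h0 : 0 ≤ p) (h1 : p ≤ 1) (U : Finset α) (Q : Finset α → Prop) :
    pr p U Q ≤ 1 :=
  (pr_mono h0 h1 (fun _ _ _ => trivial)).trans_eq (pr_true p U)

lemma pr_compl (p : ℝ) (U : Finset α) (Q : Finset α → Prop) :
    pr p U Q + pr p U (fun S => ¬ Q S) = 1 := by
  classical
  rw [← wt_sum p U]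
  simp only [pr]
  convert Finset.sum_filter_add_sum_filter_not U.powerset Q (wt p U) using 3

/-- A union bound. -/
lemma pr_le_sum {p : ℝ} (h0 : 0 ≤ p) (h1 : p ≤ 1) {ι : Type*} {U : Finset α}
    {Q : Finset α → Prop} (s : Finset ι) (R : ι → Finset α → Prop)
    (h : ∀ S, S ⊆ U → Q S → ∃ i ∈ s, R i S) : pr p U Q ≤ ∑ i ∈ s, pr p U (R i) := by
  classical
  simp only [pr, Finset.sum_filter]
  rw [Finset.sum_comm]
  refine Finset.sum_le_sum fun S hS => ?_
  have hw := wt_nonneg h0 h1 U S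
  by_cases hQ : Q S
  · obtain ⟨i, hi, hR⟩ := h S (mem_powerset.1 hS) hQ
    rw [if_pos hQ]
    refine le_trans ?_ (Finset.single_le_sum (f := fun i => if R i S then wt p U S else 0)
      (fun j _ => by split <;> simp [hw]) hi)
    simp [hR]
  · rw [if_neg hQ]
    exact Finset.sum_nonneg fun j _ => by split <;> simp [hw]

/-- Disjoint events inside `Q`. -/
lemma sum_pr_le {p : ℝ} (h0 : 0 ≤ p) (h1 : p ≤ 1) {ι : Type*} {U : Finset α}
    {Q : Finset α → Prop} (s : Finset ι) (R : ι → Finset α → Prop)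
    (hsub : ∀ i ∈ s, ∀ S, S ⊆ U → R i S → Q S)
    (hdis : ∀ i ∈ s, ∀ j ∈ s, ∀ S, S ⊆ U → R i S → R j S → i = j) :
    ∑ i ∈ s, pr p U (R i) ≤ pr p U Q := by
  classical
  simp only [pr, Finset.sum_filter]
  rw [Finset.sum_comm]
  refine Finset.sum_le_sum fun S hS => ?_
  have hS' := mem_powerset.1 hS
  have hw := wt_nonneg h0 h1 U S
  by_cases hR : ∃ i ∈ s, R i S
  · obtain ⟨i, hi, hRi⟩ := hR
    rw [Finset.sum_eq_single i (fun j hj hji => if_neg fun hRj => hji (hdis j hj i hi S hS' hRj hRi))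
      (fun h => absurd hi h), if_pos hRi, if_pos (hsub i hi S hS' hRi)]
  · rw [Finset.sum_eq_zero fun i hi => if_neg fun h => hR ⟨i, hi, h⟩]
    split <;> simp [hw]

/-- Independence over two disjoint coordinate sets. -/
lemma pr_split (p : ℝ) {U₁ U₂ : Finset α} (hd : Disjoint U₁ U₂) (A B : Finset α → Prop) :
    pr p (U₁ ∪ U₂) (fun S => A (S ∩ U₁) ∧ B (S ∩ U₂)) = pr p U₁ A * pr p U₂ B := by
  classical
  unfold pr
  rw [Finset.sum_mul_sum, ← Finset.sum_product']
  have hkey : ∀ a b : Finset α, a ⊆ U₁ → b ⊆ U₂ →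
      (a ∪ b) ∩ U₁ = a ∧ (a ∪ b) ∩ U₂ = b := by
    intro a b ha hb
    rw [Finset.disjoint_left] at hd
    constructor
    · ext x; simp only [mem_inter, mem_union]
      exact ⟨fun h => h.1.elim id fun hx => absurd (hb hx) (hd h.2), fun h => ⟨.inl h, ha h⟩⟩
    · ext x; simp only [mem_inter, mem_union]
      exact ⟨fun h => h.1.elim (fun hx => absurd h.2 (hd (ha hx))) id, fun h => ⟨.inr h, hb h⟩⟩
  refine Finset.sum_nbij' (fun S => (S ∩ U₁, S ∩ U₂)) (fun x => x.1 ∪ x.2) ?_ ?_ ?_ ?_ ?_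
  · intro S hS
    simp only [mem_filter, mem_powerset, mem_product] at hS ⊢
    exact ⟨⟨inter_subset_right, hS.2.1⟩, inter_subset_right, hS.2.2⟩
  · intro x hx
    simp only [mem_filter, mem_powerset, mem_product] at hx ⊢
    obtain ⟨e1, e2⟩ := hkey x.1 x.2 hx.1.1 hx.2.1
    rw [e1, e2]
    exact ⟨union_subset_union hx.1.1 hx.2.1, hx.1.2, hx.2.2⟩
  · intro S hS
    simp only [mem_filter, mem_powerset] at hS
    rw [← inter_union_distrib_left, inter_eq_left.2 hS.1]
  · intro x hx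
    simp only [mem_filter, mem_powerset, mem_product] at hx
    obtain ⟨e1, e2⟩ := hkey x.1 x.2 hx.1.1 hx.2.1
    simp [e1, e2]
  · intro S hS
    simp only [mem_filter, mem_powerset] at hS
    have e1 : (S ∩ U₁).card + (S ∩ U₂).card = S.card := by
      rw [← card_union_of_disjoint (hd.mono inter_subset_right inter_subset_right),
        ← inter_union_distrib_left, inter_eq_left.2 hS.1]
    have e2 : (U₁ \ (S ∩ U₁)).card + (U₂ \ (S ∩ U₂)).card = ((U₁ ∪ U₂) \ S).card := by
      rw [← card_union_of_disjoint (hd.mono sdiff_subset sdiff_subset)]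
      congr 1
      ext x; simp only [mem_union, mem_sdiff, mem_inter]; tauto
    simp only [wt, ← e1, ← e2, pow_add]
    ring

/-- An event of a subset of the coordinates. -/
lemma pr_marginal (p : ℝ) {U₁ U : Finset α} (h : U₁ ⊆ U) (A : Finset α → Prop) :
    pr p U (fun S => A (S ∩ U₁)) = pr p U₁ A := by
  have := pr_split p (disjoint_sdiff (s := U₁) (t := U)) A (fun _ => True)
  rw [union_sdiff_of_subset h, pr_true, mul_one] at this
  simpa using this

lemma pr_closed (p : ℝ) {F U : Finset α} (h : F ⊆ U) (A : Finset α → Prop) :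
    pr p U (fun S => S ∩ F = ∅ ∧ A (S \ F)) = (1 - p) ^ F.card * pr p (U \ F) A := by
  classical
  have := pr_split p (disjoint_sdiff (s := F) (t := U)) (fun T => T = ∅) A
  rw [union_sdiff_of_subset h] at this
  have hF : pr p F (fun T => T = ∅) = (1 - p) ^ F.card := by
    have : F.powerset.filter (fun T => T = ∅) = {∅} := by ext T; simp +contextual
    simp [pr, this, wt]
  rw [hF] at this
  rw [← this]
  refine pr_congr fun S hS => ?_
  have : S ∩ (U \ F) = S \ F := by
    ext x; simp only [mem_inter, mem_sdiff]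
    exact ⟨fun h => ⟨h.1, h.2.2⟩, fun h => ⟨h.1, hS h.1, h.2⟩⟩
  rw [this]

lemma pr_all_open (p : ℝ) {T U : Finset α} (h : T ⊆ U) :
    pr p U (fun S => T ⊆ S) = p ^ T.card := by
  classical
  have hT : pr p T (fun S => T ⊆ S) = p ^ T.card := by
    have : T.powerset.filter (fun S => T ⊆ S) = {T} := by
      ext S; simp only [mem_filter, mem_powerset, mem_singleton]
      exact ⟨fun h => subset_antisymm h.1 h.2, fun h => by simp [h]⟩
    simp [pr, this, wt]
  rw [← hT, ← pr_marginal p h]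
  exact pr_congr fun S _ => by simp [subset_inter_iff]

/-- Independence over a family of disjoint coordinate sets. -/
lemma pr_indep (p : ℝ) {ι : Type*} [DecidableEq ι] (s : Finset ι) (Ui : ι → Finset α)
    (Q : ι → Finset α → Prop) (hdis : (s : Set ι).PairwiseDisjoint Ui) :
    ∀ (U U₀ : Finset α) (A : Finset α → Prop), U₀ ⊆ U → (∀ i ∈ s, Ui i ⊆ U) →
      (∀ i ∈ s, Disjoint U₀ (Ui i)) →
      pr p U (fun S => A (S ∩ U₀) ∧ ∀ i ∈ s, Q i (S ∩ Ui i))
        = pr p U₀ A * ∏ i ∈ s, pr p (Ui i) (Q i) := by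
  induction s using Finset.induction_on with
  | empty =>
    intro U U₀ A h0 _ _
    simpa using pr_marginal p h0 A
  | insert i s hi ih =>
    intro U U₀ A h0 hU hU0
    have hsplit := pr_split p (hU0 i (mem_insert_self i s)) A (Q i)
    have := ih (hdis.subset (by simp)) U (U₀ ∪ Ui i)
      (fun T => A (T ∩ U₀) ∧ Q i (T ∩ Ui i))
      (union_subset h0 (hU i (mem_insert_self i s))) (fun j hj => hU j (mem_insert_of_mem hj))
      (fun j hj => disjoint_union_left.2 ⟨hU0 j (mem_insert_of_mem hj),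
        hdis (mem_insert_self i s) (mem_insert_of_mem hj) fun e => hi (e ▸ hj)⟩)
    rw [hsplit] at this
    rw [prod_insert hi, ← mul_assoc, ← this]
    refine pr_congr fun S _ => ?_
    have e1 : S ∩ (U₀ ∪ Ui i) ∩ U₀ = S ∩ U₀ := by ext x; simp +contextual
    have e2 : S ∩ (U₀ ∪ Ui i) ∩ Ui i = S ∩ Ui i := by ext x; simp +contextual
    simp only [e1, e2, Finset.forall_mem_insert]
    tauto

/-- Thinning: an increasing-witness event keeps a proportion at least `r ^ N` of its probability. -/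
lemma pr_thin {p r : ℝ} (hp0 : 0 ≤ p) (hp1 : p ≤ 1) (hr0 : 0 ≤ r) (hr1 : r ≤ 1)
    (U : Finset α) (Q : Finset α → Prop) (N : ℕ)
    (hQ : ∀ S, S ⊆ U → Q S → ∃ T, T ⊆ S ∧ T.card ≤ N ∧ ∀ S', T ⊆ S' → S' ⊆ S → Q S') :
    r ^ N * pr p U Q ≤ pr (p * r) U Q := by
  classical
  have key : ∀ S', S' ⊆ U → wt (p * r) U S' =
      ∑ R ∈ (U \ S').powerset, wt p U (S' ∪ R) * wt r (S' ∪ R) S' := by
    intro S' hS'
    have := Finset.prod_add (fun _ : α => p * (1 - r)) (fun _ => 1 - p) (U \ S')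
    simp only [prod_const] at this
    rw [show p * (1 - r) + (1 - p) = 1 - p * r by ring] at this
    rw [wt, this, mul_sum]
    refine sum_congr rfl fun R hR => ?_
    rw [mem_powerset] at hR
    have hdis : Disjoint S' R := Finset.disjoint_left.2 fun x hx hxR => (mem_sdiff.1 (hR hxR)).2 hx
    have e1 : (S' ∪ R) \ S' = R := by
      rw [union_sdiff_left, Finset.sdiff_eq_self_of_disjoint hdis.symm]
    have e2 : (U \ S') \ R = U \ (S' ∪ R) := by ext x; simp; tauto
    simp only [wt, e1, ← e2, card_union_of_disjoint hdis, pow_add, mul_pow]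
    ring
  have rhs : pr (p * r) U Q =
      ∑ S ∈ U.powerset, wt p U S * pr r S Q := by
    simp only [pr, mul_sum]
    rw [sum_congr rfl fun S' hS' => key S' (mem_powerset.1 (mem_filter.1 hS').1)]
    rw [Finset.sum_sigma', Finset.sum_sigma']
    refine Finset.sum_nbij' (fun x => ⟨x.1 ∪ x.2, x.1⟩) (fun x => ⟨x.2, x.1 \ x.2⟩) ?_ ?_ ?_ ?_ ?_
    · rintro ⟨a, b⟩ h
      simp only [mem_sigma, mem_filter, mem_powerset] at h ⊢
      exact ⟨union_subset h.1.1 (h.2.trans sdiff_subset), subset_union_left, h.1.2⟩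
    · rintro ⟨a, b⟩ h
      simp only [mem_sigma, mem_filter, mem_powerset] at h ⊢
      exact ⟨⟨h.2.1.trans h.1, h.2.2⟩, sdiff_subset_sdiff h.1 (Finset.Subset.refl _)⟩
    · rintro ⟨a, b⟩ h
      simp only [mem_sigma, mem_filter, mem_powerset] at h
      simp only [Sigma.mk.injEq, heq_eq_eq, true_and]
      rw [union_sdiff_left, Finset.sdiff_eq_self_of_disjoint]
      exact Finset.disjoint_left.2 fun x hx => (mem_sdiff.1 (h.2 hx)).2
    · rintro ⟨a, b⟩ h
      simp only [mem_sigma, mem_filter, mem_powerset] at h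
      simp [union_sdiff_of_subset h.2.1]
    · rintro ⟨a, b⟩ h
      simp only [wt]
  rw [rhs, show pr p U Q = ∑ S ∈ U.powerset, if Q S then wt p U S else 0 from sum_filter _ _,
    mul_sum]
  refine sum_le_sum fun S hS => ?_
  have hw := wt_nonneg hp0 hp1 U S
  split
  next hq =>
    obtain ⟨T, hTS, hTN, hT⟩ := hQ S (mem_powerset.1 hS) hq
    rw [mul_comm]
    refine mul_le_mul_of_nonneg_left ?_ hw
    calc r ^ N ≤ r ^ T.card := pow_le_pow_of_le_one hr0 hr1 hTN
      _ = pr r S (fun S' => T ⊆ S') := (pr_all_open r hTS).symm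
      _ ≤ pr r S Q := pr_mono hr0 hr1 fun S' hS' h => hT S' h hS'
  next => simpa using mul_nonneg hw (pr_nonneg hr0 hr1 S Q)

end Vale.Agent.P165
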