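import Vale.Agent.P165.SharpCor

/-!
The Duminil-Copin–Tassion criterion with a submultiplicative weight: a bounded tilted
susceptibility is an open condition in the parameter.
-/

open MeasureTheory ProbabilityTheory Finset
open scoped unitInterval ENNReal

namespace Vale.Agent.P165

variable {W : Type*} [DecidableEq W] (H : SimpleGraph W) [H.LocallyFinite]

/-- The weighted expected number of open edges through which the cluster of `v` inside `S` leaves
`S`. -/
noncomputable def phiT (f : W → W → ℝ) (p : ℝ) (v : W) (S : Finset W) : ℝ :=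
  p * ∑ e ∈ outPairs H S, pr p (inEdges H S) (fun T => e.1 ∈ cl {v} T) * f v e.2

variable {H}

/-- Vertices away from `U` are connected only to themselves. -/
lemma conn_eq_zero {p : ℝ} {U : Finset (Sym2 W)} {v z : W} (hvz : v ≠ z)
    (hv : ∀ e ∈ U, v ∉ e) : pr p U (fun T => z ∈ cl {v} T) = 0 := by
  refine (pr_congr (R := fun _ => False) fun T hT => ?_).trans (by simp [pr])
  refine iff_false_intro fun h => hvz ?_
  have : cl {v} T ⊆ ({v} : Set W) := cl_subset subset_rfl fun y w hy hyw =>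
    absurd (Set.mem_singleton_iff.1 hy ▸ Sym2.mem_mk_left y w) (hv _ (hT hyw))
  exact (this h).symm

/-- A bounded tilted susceptibility from the weighted criterion. -/
theorem tilt_susceptibility_le {f : W → W → ℝ} (hf0 : ∀ a b, 0 ≤ f a b)
    (hf : ∀ a b c, f a c ≤ f a b * f b c) {p c : ℝ} (h0 : 0 ≤ p) (h1 : p ≤ 1) (hc0 : c < 1)
    {N : ℝ}
    (hphi : ∀ v, ∃ S : Finset W, v ∈ S ∧ ∑ z ∈ S, f v z ≤ N ∧ phiT H f p v S ≤ c)
    {U : Finset (Sym2 W)} (hU : ↑U ⊆ H.edgeSet) (Λ : Finset W) (v : W) :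
    ∑ z ∈ Λ, f v z * pr p U (fun T => z ∈ cl {v} T) ≤ N / (1 - c) := by
  classical
  set g : W → ℝ := fun v => ∑ z ∈ Λ, f v z * pr p U (fun T => z ∈ cl {v} T) with hg
  set V₀ : Finset W := insert v (Λ ∪ U.biUnion fun e => e.toFinset) with hV₀
  have hne : V₀.Nonempty := ⟨v, mem_insert_self _ _⟩
  set M := V₀.sup' hne g
  have hg0 : ∀ w, 0 ≤ g w := fun w =>
    sum_nonneg fun z _ => mul_nonneg (hf0 _ _) (pr_nonneg h0 h1 _ _)
  have hM0 : 0 ≤ M := (hg0 v).trans (le_sup' g (mem_insert_self _ _))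
  have hM : ∀ w, g w ≤ M := by
    intro w
    by_cases hw : w ∈ V₀
    · exact le_sup' g hw
    refine le_trans (le_of_eq (sum_eq_zero fun z hz => ?_)) hM0
    rw [conn_eq_zero (v := w) (z := z) (by rintro rfl; exact hw (mem_insert_of_mem (mem_union_left _ hz)))
      (fun e he h => hw (mem_insert_of_mem (mem_union_right _ (mem_biUnion.2
        ⟨e, he, Sym2.mem_toFinset.2 h⟩)))), mul_zero]
  have hstep : ∀ w, g w ≤ N + c * M := by
    intro w
    obtain ⟨S, hwS, hN, hS⟩ := hphi w
    simp only [hg]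
    rw [← sum_filter_add_sum_filter_not Λ (fun z => z ∈ S)]
    refine add_le_add ?_ ?_
    · refine (sum_le_sum fun z _ => mul_le_of_le_one_right (hf0 _ _)
        (pr_le_one h0 h1 _ _)).trans ?_
      exact (sum_le_sum_of_subset_of_nonneg (fun z hz => (mem_filter.1 hz).2)
        fun z _ _ => hf0 _ _).trans hN
    · calc ∑ z ∈ Λ.filter (fun z => z ∉ S), f w z * pr p U (fun T => z ∈ cl {w} T)
          ≤ ∑ z ∈ Λ.filter (fun z => z ∉ S), ∑ e ∈ outPairs H S,
              p * (pr p (inEdges H S) (fun T => e.1 ∈ cl {w} T) * f w e.2)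
                * (f e.2 z * pr p U (fun T => z ∈ cl {e.2} T)) := by
            refine sum_le_sum fun z hz => ?_
            refine (mul_le_mul_of_nonneg_left (conn_step h0 h1 hU hwS (mem_filter.1 hz).2)
              (hf0 _ _)).trans ?_
            rw [mul_sum]
            refine sum_le_sum fun e _ => ?_
            refine (mul_le_mul_of_nonneg_right (hf w e.2 z) (mul_nonneg (mul_nonneg h0
              (pr_nonneg h0 h1 _ _)) (pr_nonneg h0 h1 _ _))).trans (le_of_eq ?_)
            ring
        _ = ∑ e ∈ outPairs H S, p * (pr p (inEdges H S) (fun T => e.1 ∈ cl {w} T) * f w e.2)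
              * ∑ z ∈ Λ.filter (fun z => z ∉ S), f e.2 z * pr p U (fun T => z ∈ cl {e.2} T) := by
            rw [sum_comm]
            simp only [mul_sum]
        _ ≤ ∑ e ∈ outPairs H S,
              p * (pr p (inEdges H S) (fun T => e.1 ∈ cl {w} T) * f w e.2) * M := by
            refine sum_le_sum fun e _ => mul_le_mul_of_nonneg_left ?_
              (mul_nonneg h0 (mul_nonneg (pr_nonneg h0 h1 _ _) (hf0 _ _)))
            exact (sum_le_sum_of_subset_of_nonneg (filter_subset _ _)
              fun z _ _ => mul_nonneg (hf0 _ _) (pr_nonneg h0 h1 _ _)).trans (hM e.2)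
        _ = phiT H f p w S * M := by simp only [phiT, mul_sum, sum_mul]
        _ ≤ c * M := mul_le_mul_of_nonneg_right hS hM0
  have hMle : M ≤ N + c * M := Finset.sup'_le hne g fun w _ => hstep w
  refine (hM v).trans ?_
  rw [le_div_iff₀ (by linarith)]
  linarith

lemma phiT_mono {f : W → W → ℝ} (hf0 : ∀ a b, 0 ≤ f a b) {p q : ℝ} (h0 : 0 ≤ p) (hpq : p ≤ q)
    (h1 : q ≤ 1) (v : W) (S : Finset W) : phiT H f p v S ≤ phiT H f q v S := by
  refine mul_le_mul hpq (sum_le_sum fun e _ => mul_le_mul_of_nonneg_right ?_ (hf0 _ _))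
    (sum_nonneg fun e _ => mul_nonneg (pr_nonneg h0 (hpq.trans h1) _ _) (hf0 _ _)) (h0.trans hpq)
  exact pr_monotoneOn _ (fun S T hST h => cl_mono subset_rfl hST h) ⟨h0, hpq.trans h1⟩
    ⟨h0.trans hpq, h1⟩ hpq

lemma continuousAt_phiT (f : W → W → ℝ) (p : ℝ) (v : W) (S : Finset W) :
    ContinuousAt (fun q => phiT H f q v S) p :=
  continuousAt_id.mul (tendsto_finsetSum _ fun e _ =>
    ((hasDerivAt_pr p _ _).continuousAt.mul continuousAt_const))

lemma phiT_iso {f : W → W → ℝ} (p : ℝ) (φ : H ≃g H) (hfφ : ∀ a b, f (φ a) (φ b) = f a b) (v : W)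
    (S : Finset W) :
    phiT H f p (φ v) (S.map φ.toEquiv.toEmbedding) = phiT H f p v S := by
  have hout : outPairs H (S.map φ.toEquiv.toEmbedding)
      = (outPairs H S).map (φ.toEquiv.prodCongr φ.toEquiv).toEmbedding := by
    ext ⟨x, y⟩
    obtain ⟨a, rfl⟩ := φ.surjective x
    obtain ⟨b, rfl⟩ := φ.surjective y
    rw [mem_outPairs]
    simp [mem_outPairs, φ.map_adj_iff]
    erw [φ.symm_apply_apply, φ.symm_apply_apply]
    simp
  have hin : inEdges H (S.map φ.toEquiv.toEmbedding)
      = (inEdges H S).map φ.toEquiv.toEmbedding.sym2Map := by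
    ext e
    induction e with
    | h x y =>
      obtain ⟨a, rfl⟩ := φ.surjective x
      obtain ⟨b, rfl⟩ := φ.surjective y
      rw [mem_inEdges, show s(φ a, φ b) = φ.toEquiv.toEmbedding.sym2Map s(a, b) from rfl,
        mem_map', mem_inEdges]
      simp [φ.map_adj_iff]
      erw [φ.symm_apply_apply, φ.symm_apply_apply]
      simp
  simp only [phiT, hout, hin, sum_map]
  congr 1
  refine sum_congr rfl fun e _ => ?_
  rw [pr_image, show f (φ v) ((φ.toEquiv.prodCongr φ.toEquiv).toEmbedding e).2 = f v e.2 from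
    hfφ v e.2]
  congr 1
  exact pr_congr fun T _ => cl_map φ.toEquiv v e.1 T

/-- If the tilted susceptibility is bounded at `p < 1`, then it is bounded at some larger
parameter. -/
theorem tilt_open {f : W → W → ℝ} (hf0 : ∀ a b, 0 ≤ f a b) (hf : ∀ a b c, f a c ≤ f a b * f b c)
    {F : Finset W} (hF : ∀ v, ∃ φ : H ≃g H, φ v ∈ F ∧ ∀ a b, f (φ a) (φ b) = f a b)
    {p : ℝ} (h0 : 0 ≤ p) (h1 : p < 1) {D : ℕ} (hD : ∀ x, (H.neighborFinset x).card ≤ D)
    {L : ℝ} (hL : ∀ x y, H.Adj x y → f x y ≤ L) {C : ℝ}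
    (hC : ∀ (v : W) (Λ : Finset W) (U : Finset (Sym2 W)), ↑U ⊆ H.edgeSet →
      ∑ z ∈ Λ, f v z * pr p U (fun T => z ∈ cl {v} T) ≤ C) :
    ∃ q, p < q ∧ q < 1 ∧ ∃ C' : ℝ, ∀ (v : W) (Λ : Finset W) (U : Finset (Sym2 W)),
      ↑U ⊆ H.edgeSet → ∑ z ∈ Λ, f v z * pr q U (fun T => z ∈ cl {v} T) ≤ C' := by
  classical
  have hS : ∀ v, ∃ S : Finset W, v ∈ S ∧ phiT H f p v S < 1 := by
    intro v
    by_contra hno
    push Not at hno
    obtain ⟨m, hm⟩ := exists_nat_gt (p * D * max L 0 * C)
    set U := inEdges H (ball H v m)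
    set τ : W → ℝ := fun z => f v z * pr p U (fun T => z ∈ cl {v} T)
    have hτ : ∀ z, 0 ≤ τ z := fun z => mul_nonneg (hf0 _ _) (pr_nonneg h0 h1.le _ _)
    have hterm : ∀ n < m, 1 ≤ p * D * max L 0 * ∑ z ∈ shell H v n, τ z := by
      intro n hn
      set S := ball H v (n + 1)
      refine (hno S (ball_mono v (Nat.zero_le _) (by simp [ball]))).trans ?_
      rw [phiT, mul_assoc, mul_assoc, mul_sum (a := max L 0), mul_sum (a := (D : ℝ))]
      refine mul_le_mul_of_nonneg_left ?_ h0
      have hsub : outPairs H S ⊆ (shell H v n).biUnion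
          fun x => (H.neighborFinset x).image fun y => (x, y) := by
        rintro ⟨x, y⟩ h
        obtain ⟨hadj, hx, hy⟩ := mem_outPairs.1 h
        exact mem_biUnion.2 ⟨x, mem_sdiff.2 ⟨hx, fun h' => hy (ball_adj h' hadj)⟩,
          mem_image.2 ⟨y, by simpa using hadj, rfl⟩⟩
      have hinto : inEdges H S ⊆ U := by
        intro e
        induction e with
        | h a b =>
          intro h
          obtain ⟨hadj, ha, hb⟩ := mem_inEdges.1 h
          exact mem_inEdges.2 ⟨hadj, ball_mono v hn ha, ball_mono v hn hb⟩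
      calc ∑ e ∈ outPairs H S, pr p (inEdges H S) (fun T => e.1 ∈ cl {v} T) * f v e.2
          ≤ ∑ e ∈ outPairs H S, max L 0 * τ e.1 := by
            refine sum_le_sum fun e he => ?_
            obtain ⟨x, y⟩ := e
            have hxy : f v y ≤ max L 0 * f v x := by
              rw [mul_comm]
              exact (hf v x y).trans (mul_le_mul_of_nonneg_left
                ((hL x y (mem_outPairs.1 he).1).trans (le_max_left _ _)) (hf0 _ _))
            refine (mul_le_mul (pr_mono_set h0 h1.le hinto fun S T hST h => cl_mono subset_rfl hST h)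
              hxy (hf0 _ _) (pr_nonneg h0 h1.le _ _)).trans (le_of_eq ?_)
            simp only [τ]; ring
        _ ≤ ∑ e ∈ (shell H v n).biUnion fun x => (H.neighborFinset x).image fun y => (x, y),
            max L 0 * τ e.1 := sum_le_sum_of_subset_of_nonneg hsub fun e _ _ =>
              mul_nonneg (le_max_right _ _) (hτ _)
        _ = ∑ x ∈ shell H v n, ∑ e ∈ (H.neighborFinset x).image (fun y => (x, y)),
              max L 0 * τ e.1 :=
            sum_biUnion fun a _ b _ hab => Finset.disjoint_left.2 fun e ha hb => hab (by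
              obtain ⟨_, _, rfl⟩ := mem_image.1 ha
              obtain ⟨_, _, h⟩ := mem_image.1 hb
              exact (congrArg Prod.fst h).symm)
        _ ≤ _ := sum_le_sum fun x _ => by
            rw [sum_image (fun a _ b _ h => (Prod.mk.inj h).2)]
            dsimp only
            rw [sum_const, nsmul_eq_mul]
            exact mul_le_mul_of_nonneg_right (Nat.cast_le.2 (hD x))
              (mul_nonneg (le_max_right _ _) (hτ x))
    have hsum := sum_le_sum (s := range m) fun n hn => hterm n (mem_range.1 hn)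
    rw [← mul_sum, ← sum_biUnion fun a _ b _ hab => shell_disjoint v hab] at hsum
    simp only [sum_const, card_range, nsmul_eq_mul, mul_one] at hsum
    have := hsum.trans (mul_le_mul_of_nonneg_left (hC v _ U (inEdges_edge _)) (by positivity))
    linarith
  choose S hvS hlt using hS
  have hev : ∀ᶠ q in nhds p, q < 1 ∧ ∀ x ∈ F, phiT H f q x (S x) < 1 :=
    (eventually_lt_nhds h1).and ((Finset.eventually_all _).2 fun x _ =>
      (continuousAt_phiT f p x (S x)).eventually (eventually_lt_nhds (hlt x)))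
  obtain ⟨δ, hδ, hball⟩ := Metric.eventually_nhds_iff.1 hev
  obtain ⟨hq1, hqphi⟩ := hball (y := p + δ / 2) (by
    rw [Real.dist_eq, add_sub_cancel_left, abs_of_pos (by linarith)]; linarith)
  refine ⟨p + δ / 2, by linarith, hq1, ?_⟩
  rcases isEmpty_or_nonempty W with hW | ⟨⟨o⟩⟩
  · exact ⟨0, fun v => hW.elim v⟩
  have hne : F.Nonempty := by
    obtain ⟨φ, hφ, -⟩ := hF o
    exact ⟨φ o, hφ⟩
  refine ⟨F.sup' hne (fun x => ∑ z ∈ S x, f x z) /
    (1 - F.sup' hne fun x => phiT H f (p + δ / 2) x (S x)), fun v Λ U hU => ?_⟩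
  refine tilt_susceptibility_le hf0 hf (by linarith) hq1.le
    ((Finset.sup'_lt_iff hne).2 hqphi) (fun v => ?_) hU Λ v
  obtain ⟨φ, hφ, hfφ⟩ := hF v
  have hfsym : ∀ a b, f (φ.symm a) (φ.symm b) = f a b := fun a b => by
    have := hfφ (φ.symm a) (φ.symm b)
    rwa [φ.apply_symm_apply, φ.apply_symm_apply, eq_comm] at this
  refine ⟨(S (φ v)).map φ.symm.toEquiv.toEmbedding,
    mem_map.2 ⟨φ v, hvS _, φ.symm_apply_apply v⟩, ?_, ?_⟩
  · rw [sum_map]
    refine le_trans (le_of_eq (sum_congr rfl fun z _ => ?_))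
      (Finset.le_sup' (fun x => ∑ z ∈ S x, f x z) hφ)
    have := hfsym (φ v) z
    rwa [φ.symm_apply_apply] at this
  · have := phiT_iso (p + δ / 2) φ.symm hfsym (φ v) (S (φ v))
    rw [φ.symm_apply_apply] at this
    rw [this]
    exact Finset.le_sup' (fun x => phiT H f (p + δ / 2) x (S x)) hφ

end Vale.Agent.P165
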